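import Mathlib
import Crest.Prelude.Def_FreeEntropy
import Crest.Agent.R089.GUEDefs

-- ▼ part R089/VolUpper
section

/-!
Row 89 (S0118), module E: the upper bound for the microstates free entropy.

Main result: `Crest.Agent.R089.VolUpper.chi_le`.
-/

set_option autoImplicit false
open MeasureTheory Real

namespace Crest.Agent.R089.VolUpper
open Crest.OpAlg

/-- Product Gaussian lintegral. -/
theorem lintegral_pi_gauss {ι : Type*} [Fintype ι] (lam : ι → ℝ) (hlam : ∀ i, 0 < lam i) :
    ∫⁻ a : ι → ℝ, ENNReal.ofReal (Real.exp (-(∑ i, lam i * (a i) ^ 2))) =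
      ENNReal.ofReal (∏ i, Real.sqrt (π / lam i)) := by
  have h1 : ∀ a : ι → ℝ, Real.exp (-(∑ i, lam i * (a i) ^ 2)) =
      ∏ i, Real.exp (-(lam i) * (a i) ^ 2) := by
    intro a
    rw [← Real.exp_sum]
    congr 1
    rw [← Finset.sum_neg_distrib]
    exact Finset.sum_congr rfl fun i _ => by ring
  have hint : Integrable (fun a : ι → ℝ => ∏ i, Real.exp (-(lam i) * (a i) ^ 2)) :=
    Integrable.fintype_prod (fun i => integrable_exp_neg_mul_sq (hlam i))
  simp_rw [h1]
  rw [← ofReal_integral_eq_lintegral_ofReal hint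
    (Filter.Eventually.of_forall fun a => Finset.prod_nonneg fun i _ => (Real.exp_pos _).le)]
  rw [integral_fintype_prod_volume_eq_prod (f := fun i (x : ℝ) => Real.exp (-(lam i) * x ^ 2))]
  simp_rw [integral_gaussian]

/-- Sheared product Gaussian lintegral. -/
theorem lintegral_shear_gauss {ι : Type*} [Fintype ι] (p : ι → Prop) [DecidablePred p]
    (lam : ι → ℝ) (hlam : ∀ i, 0 < lam i)
    (g : ({i // p i} → ℝ) → ({i // ¬ p i} → ℝ)) (hg : Measurable g) :
    ∫⁻ a : ι → ℝ, ENNReal.ofReal (Real.exp (-(∑ i : {i // p i}, lam i * (a i) ^ 2 +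
        ∑ i : {i // ¬ p i}, lam i * (a i - g (fun j => a j) i) ^ 2))) =
      ENNReal.ofReal (∏ i, Real.sqrt (π / lam i)) := by
  classical
  set F : ({i // p i} → ℝ) × ({i // ¬ p i} → ℝ) → ENNReal := fun z =>
    ENNReal.ofReal (Real.exp (-(∑ i : {i // p i}, lam i * (z.1 i) ^ 2 +
        ∑ i : {i // ¬ p i}, lam i * (z.2 i - g z.1 i) ^ 2))) with hF
  have hFm : Measurable F := by
    refine ENNReal.measurable_ofReal.comp (Real.measurable_exp.comp (Measurable.neg ?_))
    refine Measurable.add ?_ ?_
    · fun_prop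
    · refine Finset.measurable_sum _ fun i _ => ?_
      have : Measurable fun z : ({i // p i} → ℝ) × ({i // ¬ p i} → ℝ) => g z.1 i :=
        (measurable_pi_apply i).comp (hg.comp measurable_fst)
      fun_prop
  have hmp := volume_preserving_piEquivPiSubtypeProd (fun _ : ι => ℝ) p
  have h1 : ∫⁻ a : ι → ℝ, ENNReal.ofReal (Real.exp (-(∑ i : {i // p i}, lam i * (a i) ^ 2 +
        ∑ i : {i // ¬ p i}, lam i * (a i - g (fun j => a j) i) ^ 2))) =
      ∫⁻ a : ι → ℝ, F (MeasurableEquiv.piEquivPiSubtypeProd (fun _ : ι => ℝ) p a) := rfl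
  rw [h1, hmp.lintegral_comp hFm, Measure.volume_eq_prod, lintegral_prod _ hFm.aemeasurable]
  have h2 : ∀ x : {i // p i} → ℝ, ∫⁻ y : {i // ¬ p i} → ℝ, F (x, y) =
      ENNReal.ofReal (Real.exp (-(∑ i : {i // p i}, lam i * (x i) ^ 2))) *
        ENNReal.ofReal (∏ i : {i // ¬ p i}, Real.sqrt (π / lam i)) := by
    intro x
    have h3 : ∀ y : {i // ¬ p i} → ℝ, F (x, y) =
        ENNReal.ofReal (Real.exp (-(∑ i : {i // p i}, lam i * (x i) ^ 2))) *
        ENNReal.ofReal (Real.exp (-(∑ i : {i // ¬ p i}, lam i * ((y - g x) i) ^ 2))) := by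
      intro y
      rw [← ENNReal.ofReal_mul (Real.exp_pos _).le, ← Real.exp_add]
      simp only [hF, Pi.sub_apply]
      congr 2
      ring
    simp_rw [h3]
    rw [lintegral_const_mul]
    · rw [lintegral_sub_right_eq_self (fun y : {i // ¬ p i} → ℝ =>
        ENNReal.ofReal (Real.exp (-(∑ i : {i // ¬ p i}, lam i * (y i) ^ 2)))) (g x)]
      rw [lintegral_pi_gauss (fun i : {i // ¬ p i} => lam i) (fun i => hlam i)]
    · fun_prop
  simp_rw [h2]
  rw [lintegral_mul_const _ (by fun_prop),
    lintegral_pi_gauss (fun i : {i // p i} => lam i) (fun i => hlam i),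
    ← ENNReal.ofReal_mul (Finset.prod_nonneg fun i _ => Real.sqrt_nonneg _)]
  congr 1
  exact Fintype.prod_subtype_mul_prod_subtype p fun i => Real.sqrt (π / lam i)

/-- Volume of a set on which a sheared quadratic form is bounded. -/
theorem volume_le_of_shear {ι : Type*} [Fintype ι] (p : ι → Prop) [DecidablePred p]
    (lam : ι → ℝ) (hlam : ∀ i, 0 < lam i)
    (g : ({i // p i} → ℝ) → ({i // ¬ p i} → ℝ)) (hg : Measurable g)
    (K : Set (ι → ℝ)) (q : ℝ)
    (hK : ∀ a ∈ K, ∑ i : {i // p i}, lam i * (a i) ^ 2 +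
        ∑ i : {i // ¬ p i}, lam i * (a i - g (fun j => a j) i) ^ 2 ≤ q) :
    volume K ≤ ENNReal.ofReal (Real.exp q * ∏ i, Real.sqrt (π / lam i)) := by
  classical
  set G : (ι → ℝ) → ENNReal := fun a => ENNReal.ofReal (Real.exp q) *
    ENNReal.ofReal (Real.exp (-(∑ i : {i // p i}, lam i * (a i) ^ 2 +
        ∑ i : {i // ¬ p i}, lam i * (a i - g (fun j => a j) i) ^ 2))) with hG
  have hgm : ∀ i : {i // ¬ p i}, Measurable fun a : ι → ℝ => g (fun j => a j) i := by
    intro i
    refine (measurable_pi_apply i).comp (hg.comp ?_)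
    exact measurable_pi_lambda _ fun j => measurable_pi_apply _
  have hGm : Measurable G := by
    refine Measurable.const_mul ?_ _
    refine ENNReal.measurable_ofReal.comp (Real.measurable_exp.comp (Measurable.neg ?_))
    refine Measurable.add ?_ ?_
    · fun_prop
    · refine Finset.measurable_sum _ fun i _ => ?_
      have := hgm i
      fun_prop
  have h1 : ∀ a ∈ K, (1 : ENNReal) ≤ G a := by
    intro a ha
    simp only [hG]
    rw [← ENNReal.ofReal_mul (Real.exp_pos _).le, ← Real.exp_add]
    rw [← ENNReal.ofReal_one]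
    apply ENNReal.ofReal_le_ofReal
    rw [Real.one_le_exp_iff]
    have := hK a ha
    linarith
  have hK' : K ⊆ {a | 1 ≤ G a} := h1
  calc volume K ≤ volume {a | 1 ≤ G a} := measure_mono hK'
    _ = 1 * volume {a | 1 ≤ G a} := (one_mul _).symm
    _ ≤ ∫⁻ a, G a := mul_meas_ge_le_lintegral hGm 1
    _ = ENNReal.ofReal (Real.exp q * ∏ i, Real.sqrt (π / lam i)) := by
        rw [hG, lintegral_const_mul']
        · rw [lintegral_shear_gauss p lam hlam g hg, ENNReal.ofReal_mul (Real.exp_pos _).le]
        · exact ENNReal.ofReal_ne_top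

/-- Coordinates of (the upper half of) a matrix; inverse of `hermitianOfCoords` on Hermitian
matrices. -/
noncomputable def coords {d : ℕ} (H : Matrix (Fin d) (Fin d) ℂ) : Fin d × Fin d → ℝ := fun p =>
  if p.1 = p.2 then (H p.1 p.1).re
  else if p.1 < p.2 then Real.sqrt 2 * (H p.1 p.2).re
  else Real.sqrt 2 * (H p.2 p.1).im

theorem coords_sub {d : ℕ} (H₁ H₂ : Matrix (Fin d) (Fin d) ℂ) (p : Fin d × Fin d) :
    coords (H₁ - H₂) p = coords H₁ p - coords H₂ p := by
  unfold coords
  split_ifs <;> simp [mul_sub]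


theorem coords_hermitianOfCoords {d : ℕ} (a : EuclideanSpace ℝ (Fin d × Fin d))
    (p : Fin d × Fin d) : coords (hermitianOfCoords a) p = a p := by
  obtain ⟨i, j⟩ := p
  have h2 : Real.sqrt 2 ≠ 0 := by positivity
  unfold coords hermitianOfCoords
  dsimp only
  by_cases hij : i = j
  · subst hij
    simp
  · rw [if_neg hij]
    by_cases hlt : i < j
    · rw [if_pos hlt, if_neg hij, if_pos hlt]
      rw [Complex.div_ofReal_re]
      simp
      field_simp
    · have hgt : j < i := lt_of_le_of_ne (not_lt.mp hlt) (Ne.symm hij)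
      rw [if_neg hlt, if_neg (Ne.symm hij), if_pos hgt]
      rw [Complex.div_ofReal_im]
      simp
      field_simp

theorem isHermitian_hermitianOfCoords {d : ℕ} (a : EuclideanSpace ℝ (Fin d × Fin d)) :
    (hermitianOfCoords a).IsHermitian := by
  ext i j
  simp only [Matrix.conjTranspose_apply]
  unfold hermitianOfCoords
  by_cases hij : i = j
  · subst hij
    simp
  · rw [if_neg hij, if_neg (Ne.symm hij)]
    by_cases hlt : i < j
    · rw [if_pos hlt, if_neg (not_lt.mpr hlt.le)]
      simp [Complex.ext_iff]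
    · have hgt : j < i := lt_of_le_of_ne (not_lt.mp hlt) (Ne.symm hij)
      rw [if_neg hlt, if_pos hgt]
      simp [Complex.ext_iff]

theorem sum_coords_sq {d : ℕ} (H : Matrix (Fin d) (Fin d) ℂ) (hH : H.IsHermitian) :
    ∑ p : Fin d × Fin d, (coords H p) ^ 2 = (Matrix.trace (H * H)).re := by
  have hs : Real.sqrt 2 ^ 2 = 2 := Real.sq_sqrt (by norm_num)
  have hherm : ∀ i j, H j i = starRingEnd ℂ (H i j) := fun i j => by
    have := congrFun (congrFun hH j) i
    rw [Matrix.conjTranspose_apply] at this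
    exact this.symm
  have h1 : (Matrix.trace (H * H)).re = ∑ p : Fin d × Fin d, Complex.normSq (H p.1 p.2) := by
    rw [Matrix.trace, Complex.re_sum, Fintype.sum_prod_type]
    refine Finset.sum_congr rfl fun i _ => ?_
    rw [Matrix.diag_apply, Matrix.mul_apply, Complex.re_sum]
    refine Finset.sum_congr rfl fun j _ => ?_
    rw [hherm i j, Complex.mul_conj]
    simp
  have h2 : ∑ p : Fin d × Fin d, (coords H p) ^ 2 =
      ∑ p : Fin d × Fin d, (coords H (p.2, p.1)) ^ 2 :=
    (Equiv.sum_comp (Equiv.prodComm (Fin d) (Fin d)) fun p => (coords H p) ^ 2).symm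
  have h3 : ∀ p : Fin d × Fin d, (coords H p) ^ 2 + (coords H (p.2, p.1)) ^ 2 =
      2 * Complex.normSq (H p.1 p.2) := by
    rintro ⟨i, j⟩
    unfold coords
    dsimp only
    by_cases hij : i = j
    · subst hij
      simp only [if_true]
      have him : (H i i).im = 0 := by
        have := congrArg Complex.im (hherm i i)
        rw [Complex.conj_im] at this
        linarith
      rw [Complex.normSq_apply, him]
      ring
    · rw [if_neg hij, if_neg (Ne.symm hij)]
      by_cases hlt : i < j
      · rw [if_pos hlt, if_neg (not_lt.mpr hlt.le), Complex.normSq_apply, mul_pow, mul_pow, hs]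
        ring
      · have hgt : j < i := lt_of_le_of_ne (not_lt.mp hlt) (Ne.symm hij)
        rw [if_neg hlt, if_pos hgt, Complex.normSq_apply, mul_pow, mul_pow, hs, hherm i j,
          Complex.conj_re, Complex.conj_im]
        ring
  have h4 : 2 * ∑ p : Fin d × Fin d, (coords H p) ^ 2 =
      2 * ∑ p : Fin d × Fin d, Complex.normSq (H p.1 p.2) := by
    calc 2 * ∑ p : Fin d × Fin d, (coords H p) ^ 2
        = ∑ p : Fin d × Fin d, (coords H p) ^ 2 + ∑ p : Fin d × Fin d, (coords H (p.2, p.1)) ^ 2 := by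
          rw [← h2]; ring
      _ = ∑ p : Fin d × Fin d, ((coords H p) ^ 2 + (coords H (p.2, p.1)) ^ 2) := by
          rw [Finset.sum_add_distrib]
      _ = ∑ p : Fin d × Fin d, 2 * Complex.normSq (H p.1 p.2) :=
          Finset.sum_congr rfl fun p _ => h3 p
      _ = _ := by rw [Finset.mul_sum]
  rw [h1]
  linarith

/-- `polyEval` as an explicit sum. -/
theorem polyEval_eq_sum {A : Type*} [Ring A] [Algebra ℂ A] {n : ℕ} (X : Fin n → A) (P : NCPoly n) :
    polyEval X P = P.coeff.sum fun w c => c • wordEval X w := by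
  unfold polyEval wordEval
  rw [MonoidAlgebra.lift_apply]

theorem wordEval_star {n d : ℕ} (M : Fin n → Matrix (Fin d) (Fin d) ℂ)
    (hM : ∀ i, (M i).IsHermitian) (w : FreeMonoid (Fin n)) :
    (wordEval M w).conjTranspose =
      wordEval M (FreeMonoid.toList.symm (FreeMonoid.toList w).reverse) := by
  have key : ∀ l : List (Fin n), ((l.map M).prod).conjTranspose = (l.reverse.map M).prod := by
    intro l
    induction l with
    | nil => simp
    | cons a l ih =>
      rw [List.map_cons, List.prod_cons, Matrix.conjTranspose_mul, ih, hM a]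
      simp
  unfold wordEval
  rw [FreeMonoid.lift_apply, FreeMonoid.lift_apply]
  exact key _

theorem polyEval_isHermitian {n d : ℕ} (M : Fin n → Matrix (Fin d) (Fin d) ℂ)
    (hM : ∀ i, (M i).IsHermitian) (P : NCPoly n) (hP : polyStar P = P) :
    (polyEval M P).IsHermitian := by
  have h : (polyEval M P).conjTranspose = polyEval M (polyStar P) := by
    rw [polyEval_eq_sum]
    unfold polyStar
    rw [Finsupp.sum, Matrix.conjTranspose_sum, Finsupp.sum]
    unfold polyEval
    rw [map_sum]
    refine Finset.sum_congr rfl fun w _ => ?_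
    rw [Matrix.conjTranspose_smul, MonoidAlgebra.lift_single, wordEval_star M hM]
    rfl
  unfold Matrix.IsHermitian
  rw [h, hP]

section moments
variable {A : Type*} [Ring A] [Algebra ℂ A] {n d : ℕ}

theorem trace_polyEval_close (τ : A →ₗ[ℂ] ℂ) (X : Fin n → A)
    (M : Fin n → Matrix (Fin d) (Fin d) ℂ) (R : NCPoly n) (m : ℕ) (ε : ℝ)
    (hm : ∀ w ∈ R.coeff.support, (FreeMonoid.toList w).length ≤ m)
    (hclose : ∀ w : FreeMonoid (Fin n), (FreeMonoid.toList w).length ≤ m →
      ‖matrixMoment M w - τ (wordEval X w)‖ < ε) :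
    ‖(d : ℂ)⁻¹ * Matrix.trace (polyEval M R) - τ (polyEval X R)‖ ≤
      (R.coeff.sum fun _ c => ‖c‖) * ε := by
  have h1 : (d : ℂ)⁻¹ * Matrix.trace (polyEval M R) - τ (polyEval X R) =
      ∑ w ∈ R.coeff.support, R.coeff w * (matrixMoment M w - τ (wordEval X w)) := by
    rw [polyEval_eq_sum, polyEval_eq_sum, Finsupp.sum, Finsupp.sum, Matrix.trace_sum, map_sum,
      Finset.mul_sum, ← Finset.sum_sub_distrib]
    refine Finset.sum_congr rfl fun w _ => ?_
    rw [Matrix.trace_smul, map_smul, matrixMoment, smul_eq_mul, smul_eq_mul]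
    ring
  rw [h1, Finsupp.sum, Finset.sum_mul]
  refine (norm_sum_le _ _).trans (Finset.sum_le_sum fun w hw => ?_)
  rw [norm_mul]
  exact mul_le_mul_of_nonneg_left (hclose w (hm w hw)).le (norm_nonneg _)

end moments

section shear
variable {n d : ℕ} (isL : Fin n → Prop) [DecidablePred isL]

/-- Extension of letter coordinates by zero. -/
noncomputable def extZ (z : {q : Fin n × (Fin d × Fin d) // isL q.1} → ℝ) :
    EuclideanSpace ℝ (Fin n × (Fin d × Fin d)) :=
  WithLp.toLp 2 fun q => if h : isL q.1 then z ⟨q, h⟩ else 0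

theorem matrixTuple_ext (a : EuclideanSpace ℝ (Fin n × (Fin d × Fin d))) (l : Fin n)
    (hl : isL l) :
    matrixTuple (extZ isL fun j => a j) l = matrixTuple a l := by
  unfold matrixTuple extZ
  congr 2
  funext p
  simp [hl]

theorem wordEval_congr {A : Type*} [Ring A] [Algebra ℂ A] (X Y : Fin n → A)
    (w : FreeMonoid (Fin n)) (h : ∀ l ∈ FreeMonoid.toList w, X l = Y l) :
    wordEval X w = wordEval Y w := by
  unfold wordEval
  rw [FreeMonoid.lift_apply, FreeMonoid.lift_apply]
  congr 1
  exact List.map_congr_left h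

theorem polyEval_congr {A : Type*} [Ring A] [Algebra ℂ A] (X Y : Fin n → A)
    (P : NCPoly n) (h : ∀ w ∈ P.coeff.support, ∀ l ∈ FreeMonoid.toList w, X l = Y l) :
    polyEval X P = polyEval Y P := by
  rw [polyEval_eq_sum, polyEval_eq_sum, Finsupp.sum, Finsupp.sum]
  refine Finset.sum_congr rfl fun w hw => ?_
  rw [wordEval_congr X Y w (h w hw)]

theorem continuous_matrixTuple_ext (l : Fin n) :
    Continuous fun z : {q : Fin n × (Fin d × Fin d) // isL q.1} → ℝ =>
      matrixTuple (extZ isL z) l := by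
  refine continuous_pi fun i => continuous_pi fun j => ?_
  have hc : ∀ p : Fin d × Fin d, Continuous fun z : {q : Fin n × (Fin d × Fin d) // isL q.1} → ℝ =>
      (((extZ isL z) (l, p) : ℝ) : ℂ) := by
    intro p
    unfold extZ
    dsimp only
    by_cases h : isL l
    · simp only [h, dif_pos]
      exact Complex.continuous_ofReal.comp (continuous_apply _)
    · simp only [h, dif_neg, not_false_eq_true]
      exact continuous_const
  have key : ∀ z : {q : Fin n × (Fin d × Fin d) // isL q.1} → ℝ,
      matrixTuple (extZ isL z) l i j = if i = j then (((extZ isL z) (l, (i, i)) : ℝ) : ℂ)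
    else if i < j then ((((extZ isL z) (l, (i, j)) : ℝ) : ℂ) +
      (((extZ isL z) (l, (j, i)) : ℝ) : ℂ) * Complex.I) / (Real.sqrt 2 : ℂ)
    else ((((extZ isL z) (l, (j, i)) : ℝ) : ℂ) -
      (((extZ isL z) (l, (i, j)) : ℝ) : ℂ) * Complex.I) / (Real.sqrt 2 : ℂ) := fun z => rfl
  simp_rw [key]
  by_cases h1 : i = j
  · simp only [h1, if_true]
    exact hc _
  · simp only [h1, if_false]
    by_cases h2 : i < j
    · simp only [h2, if_true]
      exact (((hc (i, j)).add ((hc (j, i)).mul continuous_const)).div_const _)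
    · simp only [h2, if_false]
      exact (((hc (j, i)).sub ((hc (i, j)).mul continuous_const)).div_const _)

theorem continuous_polyEval_ext (P : NCPoly n) :
    Continuous fun z : {q : Fin n × (Fin d × Fin d) // isL q.1} → ℝ =>
      polyEval (matrixTuple (extZ isL z)) P := by
  simp_rw [polyEval_eq_sum, Finsupp.sum]
  refine continuous_finsetSum _ fun w _ => ?_
  have h : Continuous fun z : {q : Fin n × (Fin d × Fin d) // isL q.1} → ℝ =>
      wordEval (matrixTuple (extZ isL z)) w := by
    unfold wordEval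
    simp_rw [FreeMonoid.lift_apply]
    exact continuous_list_prod _ fun l _ => continuous_matrixTuple_ext isL l
  exact h.const_smul (P.coeff w)

theorem continuous_coords (p : Fin d × Fin d) :
    Continuous fun H : Matrix (Fin d) (Fin d) ℂ => coords H p := by
  unfold coords
  split_ifs
  · exact Complex.continuous_re.comp ((continuous_apply p.1).comp (continuous_apply p.1))
  · exact (Complex.continuous_re.comp ((continuous_apply p.2).comp (continuous_apply p.1))).const_mul _
  · exact (Complex.continuous_im.comp ((continuous_apply p.1).comp (continuous_apply p.2))).const_mul _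

/-- The shear function. -/
noncomputable def shearFun (P : Fin n → NCPoly n)
    (z : {q : Fin n × (Fin d × Fin d) // isL q.1} → ℝ) :
    {q : Fin n × (Fin d × Fin d) // ¬ isL q.1} → ℝ :=
  fun q => coords (polyEval (matrixTuple (extZ isL z)) (P q.1.1)) q.1.2

theorem measurable_shearFun (P : Fin n → NCPoly n) :
    Measurable (shearFun (d := d) isL P) := by
  refine measurable_pi_lambda _ fun q => ?_
  exact ((continuous_coords q.1.2).comp (continuous_polyEval_ext isL (P q.1.1))).measurable

end shear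

section vol
variable {n d : ℕ} (isL : Fin n → Prop) [DecidablePred isL]

/-- Residual matrix. -/
noncomputable def resid (P : Fin n → NCPoly n) (a : EuclideanSpace ℝ (Fin n × (Fin d × Fin d)))
    (i : Fin n) : Matrix (Fin d) (Fin d) ℂ :=
  matrixTuple a i - polyEval (matrixTuple a) (P i)

theorem isHermitian_matrixTuple (a : EuclideanSpace ℝ (Fin n × (Fin d × Fin d))) (l : Fin n) :
    (matrixTuple a l).IsHermitian := isHermitian_hermitianOfCoords _

theorem resid_isHermitian (P : Fin n → NCPoly n) (hP : ∀ i, polyStar (P i) = P i)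
    (a : EuclideanSpace ℝ (Fin n × (Fin d × Fin d))) (i : Fin n) :
    (resid P a i).IsHermitian :=
  (isHermitian_matrixTuple a i).sub
    (polyEval_isHermitian _ (fun l => isHermitian_matrixTuple a l) _ (hP i))

theorem volume_le_of_resid (P : Fin n → NCPoly n) (hP : ∀ i, polyStar (P i) = P i)
    (hPL : ∀ i, isL i → P i = 0)
    (hPs : ∀ i, ∀ w ∈ (P i).coeff.support, ∀ l ∈ FreeMonoid.toList w, isL l)
    (hd : 0 < d) (b : Fin n → ℝ) (hb : ∀ i, 0 < b i)
    (S : Set (EuclideanSpace ℝ (Fin n × (Fin d × Fin d))))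
    (hS : ∀ a ∈ S, ∀ i, (Matrix.trace (resid P a i * resid P a i)).re ≤ d * b i) :
    volume S ≤ ENNReal.ofReal (Real.exp ((n : ℝ) * d ^ 2 / 2) *
      ∏ q : Fin n × (Fin d × Fin d), Real.sqrt (π / (d / (2 * b q.1)))) := by
  have hd' : (0 : ℝ) < d := by exact_mod_cast hd
  set lam : Fin n × (Fin d × Fin d) → ℝ := fun q => d / (2 * b q.1) with hlam
  have hlam0 : ∀ q, 0 < lam q := fun q => div_pos hd' (mul_pos two_pos (hb _))
  have hvol : volume S = volume ((WithLp.toLp 2 : (Fin n × (Fin d × Fin d) → ℝ) → _) ⁻¹' S) :=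
    ((PiLp.volume_preserving_toLp _).measure_preimage_emb
      (MeasurableEquiv.toLp 2 (Fin n × (Fin d × Fin d) → ℝ)).measurableEmbedding S).symm
  rw [hvol]
  refine volume_le_of_shear (fun q : Fin n × (Fin d × Fin d) => isL q.1) lam hlam0
    (shearFun isL P) (measurable_shearFun isL P) _ _ ?_
  intro x hx
  set a : EuclideanSpace ℝ (Fin n × (Fin d × Fin d)) := WithLp.toLp 2 x with ha
  have haS : a ∈ S := hx
  -- the quadratic form
  have key : ∀ q : Fin n × (Fin d × Fin d), coords (resid P a q.1) q.2 =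
      x q - coords (polyEval (matrixTuple a) (P q.1)) q.2 := by
    intro q
    unfold resid
    rw [coords_sub]
    congr 1
    unfold matrixTuple
    rw [coords_hermitianOfCoords]
  have hsum : ∑ i : {q : Fin n × (Fin d × Fin d) // isL q.1}, lam i * (x i) ^ 2 +
      ∑ i : {q : Fin n × (Fin d × Fin d) // ¬ isL q.1},
        lam i * (x i - shearFun isL P (fun j => x j) i) ^ 2 =
      ∑ q : Fin n × (Fin d × Fin d), lam q * (coords (resid P a q.1) q.2) ^ 2 := by
    rw [← Fintype.sum_subtype_add_sum_subtype (fun q : Fin n × (Fin d × Fin d) => isL q.1)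
      (fun q => lam q * (coords (resid P a q.1) q.2) ^ 2)]
    congr 1
    · refine Finset.sum_congr rfl fun q _ => ?_
      rw [key]
      have h0 : coords (polyEval (matrixTuple a) (P (q : Fin n × (Fin d × Fin d)).1))
          (q : Fin n × (Fin d × Fin d)).2 = 0 := by
        rw [hPL _ q.2]
        unfold polyEval coords
        rw [map_zero]
        split_ifs <;> simp
      rw [h0, sub_zero]
    · refine Finset.sum_congr rfl fun q _ => ?_
      rw [key]
      unfold shearFun
      have h1 : polyEval (matrixTuple (extZ isL fun j => x j))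
          (P (q : Fin n × (Fin d × Fin d)).1) =
          polyEval (matrixTuple a) (P (q : Fin n × (Fin d × Fin d)).1) := by
        refine polyEval_congr _ _ _ fun w hw l hl => ?_
        exact matrixTuple_ext isL a l (hPs _ w hw l hl)
      rw [h1]
  rw [hsum, Fintype.sum_prod_type]
  have h2 : ∀ i : Fin n, ∑ p : Fin d × Fin d, lam (i, p) * (coords (resid P a i) p) ^ 2 ≤
      d ^ 2 / 2 := by
    intro i
    have h3 : ∑ p : Fin d × Fin d, lam (i, p) * (coords (resid P a i) p) ^ 2 =
        d / (2 * b i) * (Matrix.trace (resid P a i * resid P a i)).re := by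
      rw [← sum_coords_sq _ (resid_isHermitian P hP a i), Finset.mul_sum]
    rw [h3]
    have h4 := hS a haS i
    have hbi := hb i
    calc d / (2 * b i) * (Matrix.trace (resid P a i * resid P a i)).re
        ≤ d / (2 * b i) * (d * b i) :=
          mul_le_mul_of_nonneg_left h4 (div_nonneg hd'.le (by positivity))
      _ = d ^ 2 / 2 := by field_simp
  calc ∑ i : Fin n, ∑ p : Fin d × Fin d, lam (i, p) * (coords (resid P a i) p) ^ 2
      ≤ ∑ _i : Fin n, ((d : ℝ) ^ 2 / 2) := Finset.sum_le_sum fun i _ => h2 i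
    _ = (n : ℝ) * d ^ 2 / 2 := by
        rw [Finset.sum_const, Finset.card_univ, Fintype.card_fin, nsmul_eq_mul]; ring

end vol

section chi
variable {A : Type*} [Ring A] [Algebra ℂ A] {n : ℕ}

/-- The polynomial (xᵢ - Pᵢ)². -/
noncomputable def sqPoly (P : Fin n → NCPoly n) (i : Fin n) : NCPoly n :=
  (MonoidAlgebra.single (FreeMonoid.of i) 1 - P i) * (MonoidAlgebra.single (FreeMonoid.of i) 1 - P i)

theorem polyEval_sqPoly {B : Type*} [Ring B] [Algebra ℂ B] (X : Fin n → B) (P : Fin n → NCPoly n)
    (i : Fin n) :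
    polyEval X (sqPoly P i) = (X i - polyEval X (P i)) * (X i - polyEval X (P i)) := by
  unfold sqPoly polyEval
  rw [map_mul, map_sub, MonoidAlgebra.lift_single, FreeMonoid.lift_eval_of, one_smul]

theorem chiCutoff_le_aux (τ : A →ₗ[ℂ] ℂ) (X : Fin n → A) (isL : Fin n → Prop)
    (P : Fin n → NCPoly n) (hP : ∀ i, polyStar (P i) = P i)
    (hPL : ∀ i, isL i → P i = 0)
    (hPs : ∀ i, ∀ w ∈ (P i).coeff.support, ∀ l ∈ FreeMonoid.toList w, isL l)
    (c : Fin n → ℝ) (hc : ∀ i, 0 < c i)
    (h : ∀ i, (τ ((X i - polyEval X (P i)) * (X i - polyEval X (P i)))).re ≤ c i)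
    (R η : ℝ) (hη : 0 < η) :
    chiCutoff τ X R ≤
      ((∑ i, 1 / 2 * Real.log (2 * π * Real.exp 1 * (c i + η)) : ℝ) : EReal) := by
  classical
  set m : ℕ := Finset.univ.sup fun i => (sqPoly P i).coeff.support.sup fun w =>
    (FreeMonoid.toList w).length with hm
  set C : ℝ := 1 + ∑ i, ((sqPoly P i).coeff.sum fun _ z => ‖z‖) with hC
  have hCnn : ∀ i, 0 ≤ ((sqPoly P i).coeff.sum fun _ z => ‖z‖) := fun i =>
    Finset.sum_nonneg fun w _ => norm_nonneg _
  have hC0 : 0 < C := by
    have := Finset.sum_nonneg fun i (_ : i ∈ Finset.univ) => hCnn i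
    linarith
  have hCi : ∀ i, ((sqPoly P i).coeff.sum fun _ z => ‖z‖) ≤ C := fun i => by
    have := Finset.single_le_sum (fun j _ => hCnn j) (Finset.mem_univ i)
    linarith
  set ε : ℝ := η / C with hε
  have hε0 : 0 < ε := div_pos hη hC0
  have hmi : ∀ i, ∀ w ∈ (sqPoly P i).coeff.support, (FreeMonoid.toList w).length ≤ m := by
    intro i w hw
    refine le_trans ?_ (Finset.le_sup (f := fun i => (sqPoly P i).coeff.support.sup fun w =>
      (FreeMonoid.toList w).length) (Finset.mem_univ i))
    exact Finset.le_sup (f := fun w : FreeMonoid (Fin n) => (FreeMonoid.toList w).length) hw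
  unfold chiCutoff
  refine (iInf_le _ m).trans ((iInf_le _ ε).trans ((iInf_le _ hε0).trans ?_))
  refine Filter.limsup_le_of_le (by isBoundedDefault) ?_
  filter_upwards [Filter.eventually_gt_atTop 0] with d hd
  have hd' : (0 : ℝ) < d := by exact_mod_cast hd
  set b : Fin n → ℝ := fun i => c i + η with hb
  have hb0 : ∀ i, 0 < b i := fun i => add_pos (hc i) hη
  have hS : ∀ a ∈ microstates τ X R m d ε, ∀ i,
      (Matrix.trace (resid P a i * resid P a i)).re ≤ d * b i := by
    intro a ha i
    have h1 := trace_polyEval_close τ X (matrixTuple a) (sqPoly P i) m ε (hmi i) ha.2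
    rw [polyEval_sqPoly, polyEval_sqPoly] at h1
    have h2 : ((d : ℂ)⁻¹ * Matrix.trace (resid P a i * resid P a i) -
        τ ((X i - polyEval X (P i)) * (X i - polyEval X (P i)))).re ≤ η := by
      refine (Complex.re_le_norm _).trans (h1.trans ?_)
      calc ((sqPoly P i).coeff.sum fun _ z => ‖z‖) * ε ≤ C * ε :=
            mul_le_mul_of_nonneg_right (hCi i) hε0.le
        _ = η := by rw [hε]; field_simp
    rw [Complex.sub_re] at h2
    have h3 : ((d : ℂ)⁻¹ * Matrix.trace (resid P a i * resid P a i)).re =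
        (d : ℝ)⁻¹ * (Matrix.trace (resid P a i * resid P a i)).re := by
      rw [show ((d : ℂ)⁻¹) = (((d : ℝ)⁻¹ : ℝ) : ℂ) by push_cast; rfl, Complex.re_ofReal_mul]
    rw [h3] at h2
    have h4 : (d : ℝ)⁻¹ * (Matrix.trace (resid P a i * resid P a i)).re ≤ b i := by
      have := h i
      simp only [hb]
      linarith
    calc (Matrix.trace (resid P a i * resid P a i)).re
        = d * ((d : ℝ)⁻¹ * (Matrix.trace (resid P a i * resid P a i)).re) := by field_simp
      _ ≤ d * b i := mul_le_mul_of_nonneg_left h4 hd'.le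
  have hvol := volume_le_of_resid isL P hP hPL hPs hd b hb0 (microstates τ X R m d ε) hS
  have hpos : 0 < Real.exp ((n : ℝ) * d ^ 2 / 2) *
      ∏ q : Fin n × (Fin d × Fin d), Real.sqrt (π / (d / (2 * b q.1))) := by
    refine mul_pos (Real.exp_pos _) (Finset.prod_pos fun q _ => Real.sqrt_pos.mpr ?_)
    have := hb0 q.1
    positivity
  have hlog : (volume (microstates τ X R m d ε)).log ≤
      ((Real.log (Real.exp ((n : ℝ) * d ^ 2 / 2) *
      ∏ q : Fin n × (Fin d × Fin d), Real.sqrt (π / (d / (2 * b q.1)))) : ℝ) : EReal) := by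
    rw [← ENNReal.log_ofReal_of_pos hpos]
    exact ENNReal.log_monotone hvol
  have hval : Real.log (Real.exp ((n : ℝ) * d ^ 2 / 2) *
      ∏ q : Fin n × (Fin d × Fin d), Real.sqrt (π / (d / (2 * b q.1)))) =
      (d : ℝ) ^ 2 * (∑ i, 1 / 2 * Real.log (2 * π * Real.exp 1 * b i) -
        (n : ℝ) / 2 * Real.log d) := by
    have hpp : ∀ q : Fin n × (Fin d × Fin d), 0 < π / (d / (2 * b q.1)) := fun q => by
      have := hb0 q.1
      positivity
    rw [Real.log_mul (Real.exp_pos _).ne' (Finset.prod_ne_zero_iff.mpr fun q _ =>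
      (Real.sqrt_pos.mpr (hpp q)).ne'), Real.log_exp,
      Real.log_prod (fun q _ => (Real.sqrt_pos.mpr (hpp q)).ne'), Fintype.sum_prod_type]
    have h5 : ∀ i : Fin n, ∑ _p : Fin d × Fin d, Real.log (Real.sqrt (π / (d / (2 * b i)))) =
        (d : ℝ) ^ 2 * (1 / 2 * Real.log (2 * π * Real.exp 1 * b i) - 1 / 2 * Real.log d - 1 / 2) := by
      intro i
      rw [Finset.sum_const, Finset.card_univ, Fintype.card_prod, Fintype.card_fin, nsmul_eq_mul]
      have hbi := hb0 i
      have h6 : Real.log (Real.sqrt (π / (d / (2 * b i)))) =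
          1 / 2 * Real.log (2 * π * Real.exp 1 * b i) - 1 / 2 * Real.log d - 1 / 2 := by
        rw [Real.log_sqrt (by positivity), Real.log_div (by positivity) (by positivity),
          Real.log_div (by positivity) (by positivity), Real.log_mul (by positivity) (by positivity),
          Real.log_mul (by positivity) (by positivity), Real.log_mul (by positivity) (by positivity),
          Real.log_mul (by positivity) (by positivity), Real.log_exp]
        ring
      rw [h6]
      push_cast
      ring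
    simp_rw [h5]
    rw [← Finset.mul_sum, Finset.sum_sub_distrib, Finset.sum_sub_distrib, Finset.sum_const,
      Finset.sum_const, Finset.card_univ, Fintype.card_fin, nsmul_eq_mul, nsmul_eq_mul]
    ring
  have hnn : (0 : EReal) ≤ ((((d : ℝ) ^ 2)⁻¹ : ℝ) : EReal) := by
    exact_mod_cast (by positivity : (0 : ℝ) ≤ ((d : ℝ) ^ 2)⁻¹)
  calc ((((d : ℝ) ^ 2)⁻¹ : ℝ) : EReal) * (volume (microstates τ X R m d ε)).log +
      (((n : ℝ) / 2 * Real.log d : ℝ) : EReal)
      ≤ ((((d : ℝ) ^ 2)⁻¹ : ℝ) : EReal) * (((d : ℝ) ^ 2 *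
        (∑ i, 1 / 2 * Real.log (2 * π * Real.exp 1 * b i) -
        (n : ℝ) / 2 * Real.log d) : ℝ) : EReal) + (((n : ℝ) / 2 * Real.log d : ℝ) : EReal) := by
        gcongr
        rw [← hval]
        exact hlog
    _ = ((∑ i, 1 / 2 * Real.log (2 * π * Real.exp 1 * (c i + η)) : ℝ) : EReal) := by
        rw [← EReal.coe_mul, ← EReal.coe_add]
        congr 1
        have : (d : ℝ) ^ 2 ≠ 0 := by positivity
        simp only [hb]
        field_simp
        ring

/-- **Upper bound for the microstates free entropy.** If the letters `isL` satisfy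
`τ(Xᵢ²) ≤ cᵢ` and the other variables are within `cᵢ` (in squared 2-norm) of self-adjoint
polynomials in the letters, then `χ(X) ≤ ∑ᵢ ½ log(2πe cᵢ)`. -/
theorem chi_le (τ : A →ₗ[ℂ] ℂ) (X : Fin n → A) (isL : Fin n → Prop)
    (P : Fin n → NCPoly n) (hP : ∀ i, polyStar (P i) = P i)
    (hPL : ∀ i, isL i → P i = 0)
    (hPs : ∀ i, ∀ w ∈ (P i).coeff.support, ∀ l ∈ FreeMonoid.toList w, isL l)
    (c : Fin n → ℝ) (hc : ∀ i, 0 < c i)
    (h : ∀ i, (τ ((X i - polyEval X (P i)) * (X i - polyEval X (P i)))).re ≤ c i) :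
    chi τ X ≤ ((∑ i, 1 / 2 * Real.log (2 * π * Real.exp 1 * c i) : ℝ) : EReal) := by
  unfold chi
  refine iSup_le fun R => iSup_le fun _ => ?_
  have hcont : ContinuousAt (fun η : ℝ =>
      (∑ i, 1 / 2 * Real.log (2 * π * Real.exp 1 * (c i + η)) : ℝ)) 0 := by
    refine tendsto_finsetSum _ fun i _ => ?_
    have hne : 2 * π * Real.exp 1 * (c i + 0) ≠ 0 := by
      have := hc i
      positivity
    have : ContinuousAt (fun η : ℝ => 1 / 2 * Real.log (2 * π * Real.exp 1 * (c i + η))) 0 := by
      refine ContinuousAt.mul continuousAt_const (ContinuousAt.log ?_ hne)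
      fun_prop
    exact this
  have hlim : Filter.Tendsto (fun η : ℝ =>
      ((∑ i, 1 / 2 * Real.log (2 * π * Real.exp 1 * (c i + η)) : ℝ) : EReal))
      (nhdsWithin 0 (Set.Ioi 0))
      (nhds ((∑ i, 1 / 2 * Real.log (2 * π * Real.exp 1 * (c i + 0)) : ℝ) : EReal)) :=
    (continuous_coe_real_ereal.tendsto _).comp (hcont.tendsto.mono_left nhdsWithin_le_nhds)
  simp only [add_zero] at hlim
  refine ge_of_tendsto hlim ?_
  filter_upwards [self_mem_nhdsWithin] with η hη
  exact chiCutoff_le_aux τ X isL P hP hPL hPs c hc h R η hη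

end chi

end Crest.Agent.R089.VolUpper
end

-- ▼ part R089/CubicVar
section

/-!
Row 89 (S0118): the second moment of `X_w - P_w(X_letters)` for the cubic words.
-/

set_option autoImplicit false

namespace Crest.Agent.R089.CubicVar
open Crest.Agent.R089 Crest.OpAlg

variable {J : Type*} [DecidableEq J]

section phi
variable {φ : List J → ℝ} (hφ : IsSD φ)
include hφ

theorem phi_single (x : J) : φ [x] = 0 := by
  rw [hφ.cons]; simp

theorem phi_two (x y : J) : φ [x, y] = if x = y then 1 else 0 := by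
  rw [hφ.cons]
  simp [hφ.nil, eq_comm]

theorem phi_four {x y z u : J} (hy : x ≠ y) (hyz : y ≠ z) :
    φ [x, y, z, u] = 0 := by
  rw [hφ.cons]
  simp [Finset.sum_range_succ, hφ.nil, Ne.symm hy, phi_two hφ, hyz, phi_single hφ]

theorem phi_four' {x y z u : J} (hy : x ≠ y) (hz : x ≠ z) (hu : x ≠ u) :
    φ [x, y, z, u] = 0 := by
  rw [hφ.cons]
  simp [Finset.sum_range_succ, Ne.symm hy, Ne.symm hz, Ne.symm hu]

theorem phi_pal4 {y z z' y' : J} (hyz : y ≠ z) (hyz' : y ≠ z') :
    φ [y, z, z', y'] = if z = z' ∧ y = y' then 1 else 0 := by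
  rw [hφ.cons]
  simp [Finset.sum_range_succ, hφ.nil, Ne.symm hyz, Ne.symm hyz', phi_two hφ]
  by_cases h1 : y = y'
  · simp [h1]
  · simp [h1, Ne.symm h1]

theorem phi_six_pal {x y z x' y' z' : J} (hxy : x ≠ y) (hxz : x ≠ z) (hxz' : x ≠ z')
    (hxy' : x ≠ y') (hyz : y ≠ z) (hyz' : y ≠ z') :
    φ [x, y, z, z', y', x'] = if x = x' ∧ y = y' ∧ z = z' then 1 else 0 := by
  rw [hφ.cons]
  simp [Finset.sum_range_succ, hφ.nil, Ne.symm hxy, Ne.symm hxz, Ne.symm hxz', Ne.symm hxy',
    phi_pal4 hφ hyz hyz']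
  by_cases h1 : x = x'
  · subst h1
    by_cases h2 : y = y' <;> by_cases h3 : z = z' <;> simp [h2, h3]
  · simp [h1, Ne.symm h1]

theorem phi_six_zero {x y z x' y' z' : J} (hxy : x ≠ y) (hxz : x ≠ z) (hxz' : x ≠ z')
    (hxy' : x ≠ y') (hyz : y ≠ z) :
    φ [x, y, z, x', y', z'] = 0 := by
  rw [hφ.cons]
  simp [Finset.sum_range_succ, hφ.nil, Ne.symm hxy, Ne.symm hxz, Ne.symm hxz', Ne.symm hxy',
    phi_two hφ, hyz]

end phi

section var
variable {A : Type*} [Ring A] [Algebra ℂ A]

omit [DecidableEq J] in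
/-- Trace of the square of a finite combination of words. -/
theorem trace_sq_sum {K : Type*} [Fintype K] {φ : List J → ℝ} (τ : A →ₗ[ℂ] ℂ) (s : J → A)
    (hτ : ∀ w : List J, τ ((w.map s).prod) = φ w) (c : K → ℂ) (w : K → List J) :
    τ ((∑ k, c k • ((w k).map s).prod) * (∑ k, c k • ((w k).map s).prod)) =
      ∑ k, ∑ l, c k * c l * φ (w k ++ w l) := by
  rw [Finset.sum_mul_sum, map_sum]
  refine Finset.sum_congr rfl fun k _ => ?_
  rw [map_sum]
  refine Finset.sum_congr rfl fun l _ => ?_
  rw [smul_mul_smul_comm, map_smul, smul_eq_mul, ← List.prod_append, ← List.map_append, hτ]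

/-- Three-letter words. -/
def w3 (x y z : Bool → J) : Bool × (Bool × Bool × Bool) → List J := fun t =>
  if t.1 then [z t.2.2.2, y t.2.2.1, x t.2.1] else [x t.2.1, y t.2.2.1, z t.2.2.2]

/-- The coefficient of a three-letter word. -/
noncomputable def cf (e : ℝ) : Bool → ℂ := fun b => if b then (e : ℂ) else 1

theorem cubic_var {φ : List J → ℝ} (hφ : IsSD φ) (τ : A →ₗ[ℂ] ℂ) (s : J → A)
    (hτ : ∀ w : List J, τ ((w.map s).prod) = φ w)
    (x y z : Bool → J) (m : J) (hx : x false ≠ x true) (hy : y false ≠ y true)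
    (hz : z false ≠ z true)
    (hxy : ∀ p q, x p ≠ y q) (hxz : ∀ p q, x p ≠ z q) (hyz : ∀ p q, y p ≠ z q)
    (hmx : ∀ p, m ≠ x p) (hmy : ∀ p, m ≠ y p) (hmz : ∀ p, m ≠ z p)
    (δ δ' : ℝ) (hδ : 0 ≤ δ) (hδ' : 0 ≤ δ') :
    τ ((((Real.sqrt 2 : ℝ) : ℂ)⁻¹ • (s (x false) * s (y false) * s (z false) +
          s (z false) * s (y false) * s (x false)) + ((Real.sqrt δ : ℝ) : ℂ) • s m -
        ((Real.sqrt 2 : ℝ) : ℂ)⁻¹ •
          ((s (x false) + ((Real.sqrt δ' : ℝ) : ℂ) • s (x true)) *
            (s (y false) + ((Real.sqrt δ' : ℝ) : ℂ) • s (y true)) *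
            (s (z false) + ((Real.sqrt δ' : ℝ) : ℂ) • s (z true)) +
          (s (z false) + ((Real.sqrt δ' : ℝ) : ℂ) • s (z true)) *
            (s (y false) + ((Real.sqrt δ' : ℝ) : ℂ) • s (y true)) *
            (s (x false) + ((Real.sqrt δ' : ℝ) : ℂ) • s (x true)))) *
      (((Real.sqrt 2 : ℝ) : ℂ)⁻¹ • (s (x false) * s (y false) * s (z false) +
          s (z false) * s (y false) * s (x false)) + ((Real.sqrt δ : ℝ) : ℂ) • s m -
        ((Real.sqrt 2 : ℝ) : ℂ)⁻¹ •
          ((s (x false) + ((Real.sqrt δ' : ℝ) : ℂ) • s (x true)) *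
            (s (y false) + ((Real.sqrt δ' : ℝ) : ℂ) • s (y true)) *
            (s (z false) + ((Real.sqrt δ' : ℝ) : ℂ) • s (z true)) +
          (s (z false) + ((Real.sqrt δ' : ℝ) : ℂ) • s (z true)) *
            (s (y false) + ((Real.sqrt δ' : ℝ) : ℂ) • s (y true)) *
            (s (x false) + ((Real.sqrt δ' : ℝ) : ℂ) • s (x true))))) =
      ((δ + (1 + δ') ^ 3 - 1 : ℝ) : ℂ) := by
  set e : ℝ := Real.sqrt δ' with he
  set f : ℝ := Real.sqrt δ with hf
  set g : ℂ := ((Real.sqrt 2 : ℝ) : ℂ)⁻¹ with hg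
  have hg2 : g * g = 1 / 2 := by
    rw [hg, ← mul_inv, ← Complex.ofReal_mul, Real.mul_self_sqrt (by norm_num)]
    norm_num
  -- words and coefficients
  set W : Option (Bool × (Bool × Bool × Bool)) → List J := fun o =>
    match o with
    | none => [m]
    | some t => w3 x y z t with hW
  set c3 : Bool × Bool × Bool → ℂ := fun t =>
    if t = (false, false, false) then 0 else cf e t.1 * cf e t.2.1 * cf e t.2.2 with hc3
  set C : Option (Bool × (Bool × Bool × Bool)) → ℂ := fun o =>
    match o with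
    | none => (f : ℂ)
    | some t => -g * c3 t.2 with hC
  have hD : g • (s (x false) * s (y false) * s (z false) +
          s (z false) * s (y false) * s (x false)) + (f : ℂ) • s m -
        g • ((s (x false) + (e : ℂ) • s (x true)) *
            (s (y false) + (e : ℂ) • s (y true)) *
            (s (z false) + (e : ℂ) • s (z true)) +
          (s (z false) + (e : ℂ) • s (z true)) *
            (s (y false) + (e : ℂ) • s (y true)) *
            (s (x false) + (e : ℂ) • s (x true))) =
      ∑ k, C k • ((W k).map s).prod := by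
    rw [Fintype.sum_option]
    simp only [hC, hW, hc3, w3, cf, Fintype.sum_prod_type, Fintype.sum_bool, List.map_cons,
      List.map_nil, List.prod_cons, List.prod_nil, mul_one, if_true, Bool.false_eq_true, if_false,
      Prod.mk.injEq, and_true, and_false, Bool.true_eq_false, and_self, one_mul, mul_zero, zero_smul]
    simp only [smul_add, mul_add, add_mul, smul_mul_assoc, mul_smul_comm, neg_mul, neg_smul,
      smul_smul, mul_assoc]
    module
  rw [hD, trace_sq_sum τ s hτ C W]
  have hmm : φ (W none ++ W none) = 1 := by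
    simp only [hW]
    rw [List.singleton_append, phi_two hφ]
    simp
  have hm3 : ∀ t, φ (W none ++ W (some t)) = 0 := by
    rintro ⟨r, p, q, u⟩
    simp only [hW, w3]
    cases r
    · simp only [Bool.false_eq_true, if_false, List.singleton_append]
      exact phi_four' hφ (hmx _) (hmy _) (hmz _)
    · simp only [if_true, List.singleton_append]
      exact phi_four' hφ (hmz _) (hmy _) (hmx _)
  have h3m : ∀ t, φ (W (some t) ++ W none) = 0 := by
    rintro ⟨r, p, q, u⟩
    simp only [hW, w3]
    cases r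
    · simp only [Bool.false_eq_true, if_false, List.cons_append, List.nil_append]
      exact phi_four hφ (hxy _ _) (hyz _ _)
    · simp only [if_true, List.cons_append, List.nil_append]
      exact phi_four hφ (hyz _ _).symm (hxy _ _).symm
  have hxi : ∀ p q : Bool, x p = x q ↔ p = q := by
    intro p q
    cases p <;> cases q <;> simp [hx, hx.symm]
  have hyi : ∀ p q : Bool, y p = y q ↔ p = q := by
    intro p q
    cases p <;> cases q <;> simp [hy, hy.symm]
  have hzi : ∀ p q : Bool, z p = z q ↔ p = q := by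
    intro p q
    cases p <;> cases q <;> simp [hz, hz.symm]
  have h33 : ∀ (r r' : Bool) (t t' : Bool × Bool × Bool),
      φ (W (some (r, t)) ++ W (some (r', t'))) = if r' = !r ∧ t = t' then 1 else 0 := by
    rintro r r' ⟨p, q, u⟩ ⟨p', q', u'⟩
    simp only [hW, w3]
    cases r <;> cases r'
    · simp only [Bool.false_eq_true, if_false, List.cons_append, List.nil_append, Bool.not_false,
        false_and]
      exact phi_six_zero hφ (hxy _ _) (hxz _ _) (hxz _ _) (hxy _ _) (hyz _ _)
    · simp only [Bool.false_eq_true, if_false, if_true, List.cons_append, List.nil_append,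
        Bool.not_false, true_and]
      rw [phi_six_pal hφ (hxy _ _) (hxz _ _) (hxz _ _) (hxy _ _) (hyz _ _) (hyz _ _)]
      simp only [hxi, hyi, hzi, Prod.mk.injEq]
    · simp only [Bool.false_eq_true, if_false, if_true, List.cons_append, List.nil_append,
        Bool.not_true, true_and]
      rw [phi_six_pal hφ (hyz _ _).symm (hxz _ _).symm (hxz _ _).symm (hyz _ _).symm
        (hxy _ _).symm (hxy _ _).symm]
      simp only [hxi, hyi, hzi, Prod.mk.injEq]
      congr 1
      apply propext
      tauto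
    · simp only [if_true, List.cons_append, List.nil_append, Bool.not_true,
        Bool.true_eq_false, false_and, if_false]
      exact phi_six_zero hφ (hyz _ _).symm (hxz _ _).symm (hxz _ _).symm (hyz _ _).symm
        (hxy _ _).symm
  rw [Fintype.sum_option]
  simp_rw [Fintype.sum_option]
  rw [hmm]
  simp_rw [hm3, h3m]
  simp only [Complex.ofReal_zero, mul_zero, Finset.sum_const_zero, add_zero, zero_add,
    Complex.ofReal_one, mul_one]
  have hrest : ∑ t : Bool × (Bool × Bool × Bool), ∑ t' : Bool × (Bool × Bool × Bool),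
      C (some t) * C (some t') * (φ (W (some t) ++ W (some t')) : ℂ) =
      (((1 + δ') ^ 3 - 1 : ℝ) : ℂ) := by
    have h1 : ∀ t t' : Bool × (Bool × Bool × Bool),
        C (some t) * C (some t') * (φ (W (some t) ++ W (some t')) : ℂ) =
        if t' = (!t.1, t.2) then (1 / 2 : ℂ) * (c3 t.2) ^ 2 else 0 := by
      rintro ⟨r, t⟩ ⟨r', t'⟩
      rw [h33]
      by_cases h : r' = !r ∧ t = t'
      · obtain ⟨h1, h2⟩ := h
        subst h1; subst h2
        simp only [hC, and_self, if_true, Complex.ofReal_one, mul_one]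
        rw [← hg2]
        ring
      · rw [if_neg h, if_neg]
        · simp
        · intro h'
          simp only [Prod.mk.injEq] at h'
          exact h ⟨h'.1, h'.2.symm⟩
    simp_rw [h1]
    simp only [Finset.sum_ite_eq', Finset.sum_ite_eq, Finset.mem_univ, if_true]
    have he2 : (e : ℂ) ^ 2 = (δ' : ℂ) := by
      rw [← Complex.ofReal_pow, he, Real.sq_sqrt hδ']
    simp only [hc3, cf, Fintype.sum_prod_type, Fintype.sum_bool, if_true, Bool.false_eq_true,
      if_false, Prod.mk.injEq, and_true, and_false, Bool.true_eq_false, and_self, mul_one,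
      one_mul]
    push_cast
    have he4 : (e : ℂ) ^ 4 = (δ' : ℂ) ^ 2 := by rw [← he2]; ring
    have he6 : (e : ℂ) ^ 6 = (δ' : ℂ) ^ 3 := by rw [← he2]; ring
    ring_nf
    rw [he2, he4, he6]
  rw [hrest]
  have hf2 : (f : ℂ) * f = (δ : ℂ) := by
    rw [← Complex.ofReal_mul, hf, Real.mul_self_sqrt hδ]
  simp only [hC]
  rw [hf2]
  push_cast
  ring

/-- Second moment of a noisy letter. -/
theorem letter_var {φ : List J → ℝ} (hφ : IsSD φ) (τ : A →ₗ[ℂ] ℂ) (s : J → A)
    (hτ : ∀ w : List J, τ ((w.map s).prod) = φ w) (x n : J) (hxn : x ≠ n) (δ' : ℝ) (hδ' : 0 ≤ δ') :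
    τ ((s x + ((Real.sqrt δ' : ℝ) : ℂ) • s n) * (s x + ((Real.sqrt δ' : ℝ) : ℂ) • s n)) =
      ((1 + δ' : ℝ) : ℂ) := by
  have h2 : ∀ p q : J, τ (s p * s q) = if p = q then 1 else 0 := by
    intro p q
    have := hτ [p, q]
    rw [phi_two hφ] at this
    simp only [List.map_cons, List.map_nil, List.prod_cons, List.prod_nil, mul_one] at this
    rw [this]
    split_ifs <;> simp
  rw [add_mul, mul_add, mul_add, smul_mul_assoc, smul_mul_assoc, mul_smul_comm, mul_smul_comm,
    smul_smul]
  simp only [map_add, map_smul, h2, smul_eq_mul, if_true, hxn, hxn.symm, if_false, mul_zero,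
    mul_one, add_zero, zero_add]
  rw [← Complex.ofReal_mul, Real.mul_self_sqrt hδ']
  push_cast
  ring

end var

end Crest.Agent.R089.CubicVar
end

-- ▼ part R089/ChiUpper

/-!
Row 89 (S0118): upper bound of the microstates entropy for the cubic model.
-/

set_option autoImplicit false

namespace Crest.Agent.R089.ChiUpper
open Crest.Agent.R089 Crest.OpAlg
open Crest.Agent.R089.VolUpper Crest.Agent.R089.CubicVar

theorem polyStar_add {n : ℕ} (P Q : NCPoly n) : polyStar (P + Q) = polyStar P + polyStar Q := by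
  classical
  unfold polyStar
  rw [MonoidAlgebra.coeff_add]
  refine Finsupp.sum_add_index' (fun w => ?_) (fun w a b => ?_)
  · simp
  · rw [map_add, MonoidAlgebra.single_add]

theorem polyStar_single {n : ℕ} (w : FreeMonoid (Fin n)) (c : ℂ) :
    polyStar (MonoidAlgebra.single w c : NCPoly n) =
      MonoidAlgebra.single (FreeMonoid.toList.symm (FreeMonoid.toList w).reverse)
        (starRingEnd ℂ c) := by
  unfold polyStar
  rw [MonoidAlgebra.coeff_single]
  refine Finsupp.sum_single_index ?_
  simp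

theorem polyStar_zero {n : ℕ} : polyStar (0 : NCPoly n) = 0 := by
  unfold polyStar
  simp

/-- The cubic polynomial `(x_i x_j x_k + x_k x_j x_i)/√2`. -/
noncomputable def cubic {n : ℕ} (i j k : Fin n) : NCPoly n :=
  MonoidAlgebra.single (FreeMonoid.ofList [i, j, k]) (((Real.sqrt 2 : ℝ) : ℂ)⁻¹) +
    MonoidAlgebra.single (FreeMonoid.ofList [k, j, i]) (((Real.sqrt 2 : ℝ) : ℂ)⁻¹)

theorem polyStar_cubic {n : ℕ} (i j k : Fin n) : polyStar (cubic i j k) = cubic i j k := by
  unfold cubic
  rw [polyStar_add, polyStar_single, polyStar_single]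
  have h : (starRingEnd ℂ) (((Real.sqrt 2 : ℝ) : ℂ)⁻¹) = ((Real.sqrt 2 : ℝ) : ℂ)⁻¹ := by
    rw [map_inv₀, Complex.conj_ofReal]
  rw [h, add_comm]
  rfl

theorem polyEval_cubic {A : Type*} [Ring A] [Algebra ℂ A] {n : ℕ} (X : Fin n → A) (i j k : Fin n) :
    polyEval X (cubic i j k) =
      ((Real.sqrt 2 : ℝ) : ℂ)⁻¹ • (X i * X j * X k + X k * X j * X i) := by
  unfold cubic polyEval
  rw [map_add, MonoidAlgebra.lift_single, MonoidAlgebra.lift_single, smul_add]
  simp only [FreeMonoid.lift_apply, FreeMonoid.toList_ofList, List.map_cons, List.map_nil,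
    List.prod_cons, List.prod_nil, mul_one, mul_assoc]

theorem mem_support_cubic {n : ℕ} (i j k : Fin n) (w : FreeMonoid (Fin n))
    (hw : w ∈ (cubic i j k).coeff.support) (l : Fin n) (hl : l ∈ FreeMonoid.toList w) :
    l = i ∨ l = j ∨ l = k := by
  classical
  unfold cubic at hw
  rw [MonoidAlgebra.coeff_add] at hw
  have h1 := Finsupp.support_add hw
  rw [Finset.mem_union] at h1
  rcases h1 with h1 | h1
  · rw [MonoidAlgebra.coeff_single] at h1
    have h2 := Finsupp.support_single_subset h1
    rw [Finset.mem_singleton] at h2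
    subst h2
    simpa using hl
  · rw [MonoidAlgebra.coeff_single] at h1
    have h2 := Finsupp.support_single_subset h1
    rw [Finset.mem_singleton] at h2
    subst h2
    have : l = k ∨ l = j ∨ l = i := by simpa using hl
    tauto

theorem chi_model_upper {A : Type*} [Ring A] [Algebra ℂ A] {n r : ℕ}
    (e : Fin n ≃ (Fin 3 × Fin r) ⊕ (Fin r × Fin r × Fin r))
    {J : Type*} [DecidableEq J] {φ : List J → ℝ} (hφ : IsSD φ)
    (τ : A →ₗ[ℂ] ℂ) (s : J → A) (hτ : ∀ w : List J, τ ((w.map s).prod) = φ w)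
    (hid : Fin 3 × Fin r → J) (hhid : Function.Injective hid)
    (noise : Fin n → J) (hnoise : Function.Injective noise) (hdis : ∀ a i, hid a ≠ noise i)
    (δ δ' : ℝ) (hδ : 0 < δ) (hδ' : 0 < δ') (X : Fin n → A)
    (hXl : ∀ a, X (e.symm (Sum.inl a)) =
      s (hid a) + ((Real.sqrt δ' : ℝ) : ℂ) • s (noise (e.symm (Sum.inl a))))
    (hXw : ∀ a b c, X (e.symm (Sum.inr (a, b, c))) =
      ((Real.sqrt 2 : ℝ) : ℂ)⁻¹ • (s (hid (0, a)) * s (hid (1, b)) * s (hid (2, c)) +
        s (hid (2, c)) * s (hid (1, b)) * s (hid (0, a))) +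
      ((Real.sqrt δ : ℝ) : ℂ) • s (noise (e.symm (Sum.inr (a, b, c))))) :
    chi τ X ≤ ((3 * (r : ℝ) * (1 / 2 * Real.log (2 * Real.pi * Real.exp 1 * (1 + δ'))) +
      (r : ℝ) ^ 3 * (1 / 2 * Real.log (2 * Real.pi * Real.exp 1 *
        (δ + ((1 + δ') ^ 3 - 1)))) : ℝ) : EReal) := by
  classical
  set P : Fin n → NCPoly n := fun i =>
    match e i with
    | Sum.inl _ => 0
    | Sum.inr t => cubic (e.symm (Sum.inl (0, t.1))) (e.symm (Sum.inl (1, t.2.1)))
        (e.symm (Sum.inl (2, t.2.2))) with hP
  set c : Fin n → ℝ := fun i =>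
    match e i with
    | Sum.inl _ => 1 + δ'
    | Sum.inr _ => δ + ((1 + δ') ^ 3 - 1) with hc
  have hPl : ∀ a, P (e.symm (Sum.inl a)) = 0 := fun a => by simp [hP]
  have hPr : ∀ t : Fin r × Fin r × Fin r, P (e.symm (Sum.inr t)) =
      cubic (e.symm (Sum.inl (0, t.1))) (e.symm (Sum.inl (1, t.2.1)))
        (e.symm (Sum.inl (2, t.2.2))) := fun t => by simp [hP]
  have hcl : ∀ a, c (e.symm (Sum.inl a)) = 1 + δ' := fun a => by simp [hc]
  have hcr : ∀ t, c (e.symm (Sum.inr t)) = δ + ((1 + δ') ^ 3 - 1) := fun t => by simp [hc]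
  have hcase : ∀ i : Fin n, (∃ a, i = e.symm (Sum.inl a)) ∨ ∃ t, i = e.symm (Sum.inr t) := by
    intro i
    rcases h : e i with a | t
    · exact Or.inl ⟨a, by rw [← h, Equiv.symm_apply_apply]⟩
    · exact Or.inr ⟨t, by rw [← h, Equiv.symm_apply_apply]⟩
  have hcube : 0 < (1 + δ') ^ 3 - 1 := by
    have : (1 + δ') ^ 3 - 1 = 3 * δ' + 3 * δ' ^ 2 + δ' ^ 3 := by ring
    rw [this]; positivity
  have main := chi_le τ X (fun i => ∃ a, e i = Sum.inl a) P ?_ ?_ ?_ c ?_ ?_
  · refine main.trans (le_of_eq ?_)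
    congr 1
    rw [← Equiv.sum_comp e.symm, Fintype.sum_sum_type]
    simp_rw [hcl, hcr]
    rw [Finset.sum_const, Finset.sum_const, Finset.card_univ, Finset.card_univ]
    simp only [Fintype.card_prod, Fintype.card_fin, nsmul_eq_mul]
    push_cast
    ring
  · intro i
    rcases hcase i with ⟨a, rfl⟩ | ⟨t, rfl⟩
    · rw [hPl, polyStar_zero]
    · rw [hPr, polyStar_cubic]
  · rintro i ⟨a, ha⟩
    have : i = e.symm (Sum.inl a) := by rw [← ha, Equiv.symm_apply_apply]
    rw [this, hPl]
  · intro i w hw l hl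
    rcases hcase i with ⟨a, rfl⟩ | ⟨t, rfl⟩
    · rw [hPl] at hw
      simp at hw
    · rw [hPr] at hw
      rcases mem_support_cubic _ _ _ w hw l hl with h | h | h
      · exact ⟨_, by rw [h, Equiv.apply_symm_apply]⟩
      · exact ⟨_, by rw [h, Equiv.apply_symm_apply]⟩
      · exact ⟨_, by rw [h, Equiv.apply_symm_apply]⟩
  · intro i
    rcases hcase i with ⟨a, rfl⟩ | ⟨t, rfl⟩
    · rw [hcl]; positivity
    · rw [hcr]; positivity
  · intro i
    rcases hcase i with ⟨a, rfl⟩ | ⟨t, rfl⟩
    · rw [hcl, hPl]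
      have h0 : polyEval X (0 : NCPoly n) = 0 := by unfold polyEval; rw [map_zero]
      rw [h0, sub_zero, hXl, letter_var hφ τ s hτ _ _ (hdis _ _) δ' hδ'.le, Complex.ofReal_re]
    · obtain ⟨a, b, d⟩ := t
      rw [hcr, hPr, polyEval_cubic, hXw, hXl, hXl, hXl]
      have hinj : ∀ {p q : (Fin 3 × Fin r) ⊕ (Fin r × Fin r × Fin r)}, p ≠ q →
          noise (e.symm p) ≠ noise (e.symm q) := fun h h' =>
        h (e.symm.injective (hnoise h'))
      have hh : ∀ {p q : Fin 3 × Fin r}, p ≠ q → hid p ≠ hid q := fun h h' => h (hhid h')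
      have h01 : ∀ a b : Fin r, ((0 : Fin 3), a) ≠ (1, b) := fun a b h => by simp at h
      have h02 : ∀ a b : Fin r, ((0 : Fin 3), a) ≠ (2, b) := fun a b h => by simp at h
      have h12 : ∀ a b : Fin r, ((1 : Fin 3), a) ≠ (2, b) := fun a b h => by simp at h
      have key := cubic_var hφ τ s hτ
        (fun p => if p then noise (e.symm (Sum.inl (0, a))) else hid (0, a))
        (fun p => if p then noise (e.symm (Sum.inl (1, b))) else hid (1, b))
        (fun p => if p then noise (e.symm (Sum.inl (2, d))) else hid (2, d))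
        (noise (e.symm (Sum.inr (a, b, d))))
        (by simpa using hdis _ _) (by simpa using hdis _ _) (by simpa using hdis _ _)
        (by
          intro p q
          cases p <;> cases q <;> simp only [if_true, Bool.false_eq_true, if_false]
          · exact hh (h01 _ _)
          · exact hdis _ _
          · exact (hdis _ _).symm
          · exact hinj (fun h => h01 _ _ (Sum.inl.inj h)))
        (by
          intro p q
          cases p <;> cases q <;> simp only [if_true, Bool.false_eq_true, if_false]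
          · exact hh (h02 _ _)
          · exact hdis _ _
          · exact (hdis _ _).symm
          · exact hinj (fun h => h02 _ _ (Sum.inl.inj h)))
        (by
          intro p q
          cases p <;> cases q <;> simp only [if_true, Bool.false_eq_true, if_false]
          · exact hh (h12 _ _)
          · exact hdis _ _
          · exact (hdis _ _).symm
          · exact hinj (fun h => h12 _ _ (Sum.inl.inj h)))
        (by
          intro p
          cases p <;> simp only [if_true, Bool.false_eq_true, if_false]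
          · exact (hdis _ _).symm
          · exact hinj (by simp))
        (by
          intro p
          cases p <;> simp only [if_true, Bool.false_eq_true, if_false]
          · exact (hdis _ _).symm
          · exact hinj (by simp))
        (by
          intro p
          cases p <;> simp only [if_true, Bool.false_eq_true, if_false]
          · exact (hdis _ _).symm
          · exact hinj (by simp))
        δ δ' hδ.le hδ'.le
      simp only [if_true, Bool.false_eq_true, if_false] at key
      rw [key, Complex.ofReal_re]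
      linarith

end Crest.Agent.R089.ChiUpper
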