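import Crest.Prelude.Def_CStarRep
import Crest.Prelude.Def_FreeEntropy
import Crest.Agent.R089.GUEDefs

/-! Definitions of the concrete model of row 89 (helper89). -/

set_option autoImplicit false

open Crest.OpAlg
open scoped ENNReal

namespace Crest.Agent.R089.Model

/-- hidden letters: three families of `r` free semicirculars. -/
abbrev Hid (r : ℕ) : Type := Fin 3 × Fin r

/-- coordinates of the tuple `X`: noisy letters and noisy cubic words. -/
abbrev Idx (r : ℕ) : Type := Hid r ⊕ (Fin r × Fin r × Fin r)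

abbrev kk (r : ℕ) : ℕ := Fintype.card (Hid r)

abbrev nn (r : ℕ) : ℕ := Fintype.card (Idx r)

noncomputable def eh (r : ℕ) : Hid r ≃ Fin (kk r) := Fintype.equivFin _

noncomputable def ei (r : ℕ) : Idx r ≃ Fin (nn r) := Fintype.equivFin _

/-- all Fock letters: hidden, noise inside `X`, heat noise. -/
abbrev Jx (r : ℕ) : Type := (Fin (kk r) ⊕ Fin (nn r)) ⊕ Fin (nn r)

/-- The cubic word polynomial `(l a b c + l c b a)/√2` in letters `l`. -/
noncomputable def cubic {k : ℕ} (x y z : Fin k) : NCPoly k :=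
  (((Real.sqrt 2)⁻¹ : ℝ) : ℂ) •
    (MonoidAlgebra.single (FreeMonoid.of x * FreeMonoid.of y * FreeMonoid.of z) 1 +
      MonoidAlgebra.single (FreeMonoid.of z * FreeMonoid.of y * FreeMonoid.of x) 1)

/-- `Y_i` as a polynomial in the hidden letters. -/
noncomputable def Qi (r : ℕ) : Idx r → NCPoly (kk r)
  | Sum.inl h => MonoidAlgebra.single (FreeMonoid.of (eh r h)) 1
  | Sum.inr (a, b, c) => cubic (eh r (0, a)) (eh r (1, b)) (eh r (2, c))

noncomputable def QQ (r : ℕ) (i : Fin (nn r)) : NCPoly (kk r) := Qi r ((ei r).symm i)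



/-- noise levels: `d` for letters, `1/2` for words. -/
noncomputable def delt (r : ℕ) (d : ℝ) (i : Fin (nn r)) : ℝ :=
  match (ei r).symm i with
  | Sum.inl _ => d
  | Sum.inr _ => 1 / 2

/-- The tuple `X`. -/
noncomputable def XX {A : Type*} [Ring A] [Algebra ℂ A] (r : ℕ) (d : ℝ) (s : Jx r → A) :
    Fin (nn r) → A :=
  fun i => polyEval (fun j => s (Sum.inl (Sum.inl j))) (QQ r i) +
    (Real.sqrt (delt r d i) : ℂ) • s (Sum.inl (Sum.inr i))

/-- The heat noise. -/
def SS {A : Type*} (r : ℕ) (s : Jx r → A) : Fin (nn r) → A := fun i => s (Sum.inr i)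

/-- Data of a free semicircular family indexed by `J` in a tracial C⋆-algebra. -/
structure IsModel {J : Type} [DecidableEq J] {A : Type} [CStarAlgebra A] (τ : A →ₗ[ℂ] ℂ)
    (s : J → A) (φ : List J → ℝ) : Prop where
  trace : IsFaithfulTracialState τ
  sa : ∀ g, IsSelfAdjoint (s g)
  sd : IsSD φ
  mom : ∀ w : List J, τ ((w.map s).prod) = (φ w : ℂ)

end Crest.Agent.R089.Model
private theorem rz_5ca2975512 : type_of% @_root_.Crest.Agent.R089.Model.Qi.eq_1 := @_root_.Crest.Agent.R089.Model.Qi.eq_1 -- L38
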