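import Mathlib
import Crest.Prelude.Def_CStarRep
import Crest.Prelude.Def_FreeEntropy
import Crest.Agent.R089.GUEDefs
import Crest.Agent.R089.Cumulant
import Crest.Agent.R089.Model

-- ▼ part R089/Fock
section

/-!
Full Fock space model of a free semicircular family: Hilbert space `H ι = ℓ²(List ι)`,
left/right creation operators, the commutant algebra `Alg ι` of the right field operators with its
vacuum state, which is a faithful tracial state.
-/

set_option autoImplicit false

open scoped InnerProductSpace ENNReal

namespace Crest.Agent.R089.Fock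

/-- Full Fock space with orthonormal basis indexed by words in `ι`. -/
abbrev H (ι : Type) : Type := lp (fun _ : List ι => ℂ) 2

variable {ι : Type} [DecidableEq ι]

/-- basis vector of a word -/
noncomputable def e (w : List ι) : H ι := lp.single 2 w (1 : ℂ)

theorem inner_e_left (w : List ι) (f : H ι) : ⟪e w, f⟫_ℂ = f w := by
  rw [e, lp.inner_single_left]
  simp

theorem inner_e_right (w : List ι) (f : H ι) : ⟪f, e w⟫_ℂ = starRingEnd ℂ (f w) := by
  rw [← inner_conj_symm, inner_e_left]

theorem e_apply (v w : List ι) : (e v : H ι) w = if v = w then 1 else 0 := by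
  rw [e, lp.single_apply]
  by_cases h : v = w
  · subst h; simp
  · rw [if_neg h, Pi.single_eq_of_ne (Ne.symm h)]

theorem norm_e (w : List ι) : ‖(e w : H ι)‖ = 1 := by
  rw [e, lp.norm_single (by norm_num)]
  simp

theorem orthonormal_e : Orthonormal ℂ (e : List ι → H ι) := by
  rw [orthonormal_iff_ite]
  intro i j
  rw [inner_e_left, e_apply]
  by_cases h : j = i
  · subst h; simp
  · rw [if_neg h, if_neg (fun h' => h h'.symm)]

theorem ext_inner_e {f g : H ι} (h : ∀ w, ⟪e w, f⟫_ℂ = ⟪e w, g⟫_ℂ) : f = g := by
  apply lp.ext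
  funext w
  have := h w
  rwa [inner_e_left, inner_e_left] at this

/-- Two bounded operators agreeing on all basis vectors are equal. -/
theorem ext_e {A B : H ι →L[ℂ] H ι} (h : ∀ w, A (e w) = B (e w)) : A = B := by
  apply lp.ext_continuousLinearMap (by norm_num)
  intro w
  ext1
  simpa [e] using h w

/-- isometry induced by an injective map on words -/
noncomputable def push (φ : List ι → List ι) (hφ : Function.Injective φ) : H ι →L[ℂ] H ι :=
  ((orthonormal_e.comp φ hφ).orthogonalFamily).linearIsometry.toContinuousLinearMap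

theorem push_e (φ : List ι → List ι) (hφ : Function.Injective φ) (w : List ι) :
    push φ hφ (e w) = e (φ w) := by
  have := ((orthonormal_e.comp φ hφ).orthogonalFamily).linearIsometry_apply_single
    (i := w) (1 : ℂ)
  rw [push, e]
  simpa using this

open ContinuousLinearMap in
theorem adj_push_apply (φ : List ι → List ι) (hφ : Function.Injective φ) (f : H ι) (w : List ι) :
    (adjoint (push φ hφ) f) w = f (φ w) := by
  rw [← inner_e_left, adjoint_inner_right, push_e, inner_e_left]

/-- left creation operator -/
noncomputable def l (g : ι) : H ι →L[ℂ] H ι := push (fun w => g :: w) (List.cons_injective)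

/-- right creation operator -/
noncomputable def r (g : ι) : H ι →L[ℂ] H ι :=
  push (fun w => w ++ [g]) (List.append_left_injective [g])

theorem l_e (g : ι) (w : List ι) : l g (e w) = e (g :: w) := push_e _ _ _

theorem r_e (g : ι) (w : List ι) : r g (e w) = e (w ++ [g]) := push_e _ _ _

theorem star_l_apply (g : ι) (f : H ι) (w : List ι) : (star (l g) f) w = f (g :: w) :=
  adj_push_apply _ _ _ _

theorem star_r_apply (g : ι) (f : H ι) (w : List ι) : (star (r g) f) w = f (w ++ [g]) :=
  adj_push_apply _ _ _ _

theorem star_l_nil (g : ι) : star (l g) (e ([] : List ι)) = 0 := by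
  apply lp.ext; funext w
  rw [star_l_apply, e_apply]
  simp

theorem star_l_cons (g h : ι) (v : List ι) :
    star (l g) (e (h :: v)) = if g = h then e v else 0 := by
  apply lp.ext; funext w
  rw [star_l_apply, e_apply]
  by_cases hg : g = h
  · subst hg
    simp [e_apply]
  · rw [if_neg hg, if_neg]
    · simp
    · intro h'
      exact hg (List.cons.inj h').1.symm

theorem star_r_nil (g : ι) : star (r g) (e ([] : List ι)) = 0 := by
  apply lp.ext; funext w
  rw [star_r_apply, e_apply]
  simp

theorem star_r_concat (g h : ι) (v : List ι) :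
    star (r g) (e (v ++ [h])) = if g = h then e v else 0 := by
  apply lp.ext; funext w
  rw [star_r_apply, e_apply]
  by_cases hg : g = h
  · subst hg
    simp [e_apply]
  · rw [if_neg hg, if_neg]
    · simp
    · intro h'
      have := List.append_inj_right' h' (by simp)
      exact hg (by simpa using this.symm)

/-- vacuum -/
noncomputable def Om : H ι := e []

/-- The rank-one projection onto the vacuum. -/
noncomputable def vac : H ι →L[ℂ] H ι := (innerSL ℂ (Om : H ι)).smulRight (Om : H ι)

theorem vac_apply (f : H ι) : vac f = ⟪(Om : H ι), f⟫_ℂ • (Om : H ι) := rfl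

theorem vac_e (w : List ι) : vac (e w : H ι) = if w = [] then Om else 0 := by
  rw [vac_apply, Om, inner_e_left, e_apply]
  by_cases h : w = []
  · subst h; simp
  · rw [if_neg h, if_neg h, zero_smul]

/-- left field operator (semicircular) -/
noncomputable def sOp (g : ι) : H ι →L[ℂ] H ι := l g + star (l g)

/-- right field operator -/
noncomputable def tOp (g : ι) : H ι →L[ℂ] H ι := r g + star (r g)

theorem star_sOp (g : ι) : star (sOp g) = (sOp g : H ι →L[ℂ] H ι) := by
  rw [sOp, star_add, star_star, add_comm]

theorem star_tOp (g : ι) : star (tOp g) = (tOp g : H ι →L[ℂ] H ι) := by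
  rw [tOp, star_add, star_star, add_comm]



theorem l_mul_r (g h : ι) : (l g * r h : H ι →L[ℂ] H ι) = r h * l g := by
  apply ext_e
  intro w
  simp [mul_apply_eq_comp, r_e, l_e]

theorem star_r_mul_l (g h : ι) :
    (star (r h) * l g : H ι →L[ℂ] H ι) = l g * star (r h) + if g = h then vac else 0 := by
  apply ext_e
  intro w
  rcases List.eq_nil_or_concat w with rfl | ⟨v, k, rfl⟩
  · rw [mul_apply_eq_comp, add_apply,
      mul_apply_eq_comp, l_e, star_r_nil, map_zero, zero_add]
    have := star_r_concat h g ([] : List ι)
    rw [List.nil_append] at this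
    rw [this]
    by_cases hg : g = h
    · subst hg
      rw [if_pos rfl, if_pos rfl, vac_e, if_pos rfl, Om]
    · rw [if_neg hg, if_neg (fun h' => hg h'.symm)]
      simp
  · simp only [List.concat_eq_append]
    rw [mul_apply_eq_comp, add_apply,
      mul_apply_eq_comp, l_e, ← List.cons_append, star_r_concat, star_r_concat]
    have h0 : (if g = h then (vac : H ι →L[ℂ] H ι) else 0) (e (v ++ [k])) = 0 := by
      by_cases hg : g = h
      · rw [if_pos hg, vac_e, if_neg (by simp)]
      · rw [if_neg hg]; simp
    rw [h0, add_zero]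
    by_cases hk : h = k
    · rw [if_pos hk, if_pos hk, l_e]
    · rw [if_neg hk, if_neg hk, map_zero]

theorem star_vac : star (vac : H ι →L[ℂ] H ι) = vac := by
  rw [ContinuousLinearMap.star_eq_adjoint]
  apply ContinuousLinearMap.ext
  intro f
  apply ext_inner_left ℂ
  intro g
  rw [ContinuousLinearMap.adjoint_inner_right, vac_apply, vac_apply, inner_smul_left,
    inner_smul_right, inner_conj_symm]
  ring

theorem star_l_mul_r (g h : ι) :
    (star (l g) * r h : H ι →L[ℂ] H ι) = r h * star (l g) + if g = h then vac else 0 := by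
  have := congrArg star (star_r_mul_l (ι := ι) g h)
  rw [star_mul, star_star, star_add, star_mul, star_star] at this
  rw [this]
  congr 1
  by_cases hg : g = h
  · simp [hg, star_vac]
  · simp [hg]

theorem star_r_mul_sOp (g h : ι) :
    (star (r h) * sOp g : H ι →L[ℂ] H ι) = sOp g * star (r h) + if g = h then vac else 0 := by
  have h1 : (star (r h) * star (l g) : H ι →L[ℂ] H ι) = star (l g) * star (r h) := by
    rw [← star_mul, ← star_mul, l_mul_r]
  rw [sOp, mul_add, add_mul, star_r_mul_l, h1]
  abel

theorem r_mul_sOp (g h : ι) :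
    (r h * sOp g : H ι →L[ℂ] H ι) + (if g = h then vac else 0) = sOp g * r h := by
  rw [sOp, mul_add, add_mul, star_l_mul_r, l_mul_r]
  abel

/-- The right field operators commute with the left field operators. -/
theorem tOp_mul_sOp (g h : ι) : (tOp h * sOp g : H ι →L[ℂ] H ι) = sOp g * tOp h := by
  rw [tOp, add_mul, mul_add, star_r_mul_sOp, ← r_mul_sOp]
  abel

end Crest.Agent.R089.Fock
end

-- ▼ part R089/FockAlg
section

/-!
The algebra `Alg ι` = commutant of the right field operators on the full Fock space, its vacuum
state `tau`, a faithful tracial state; the self-adjoint generators `s g`; the moment recursion.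
-/

set_option autoImplicit false

open scoped InnerProductSpace ENNReal

namespace Crest.Agent.R089.Fock

variable {ι : Type} [DecidableEq ι]

/-- product of right field operators along a word -/
noncomputable def tWord (w : List ι) : H ι →L[ℂ] H ι := (w.map tOp).prod

/-- product of left field operators along a word -/
noncomputable def sWordOp (w : List ι) : H ι →L[ℂ] H ι := (w.map sOp).prod

theorem star_tWord (w : List ι) : star (tWord w : H ι →L[ℂ] H ι) = tWord w.reverse := by
  induction w with
  | nil => simp [tWord]
  | cons g w ih =>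
    have h1 : (tWord (g :: w) : H ι →L[ℂ] H ι) = tOp g * tWord w := by simp [tWord]
    have h2 : (tWord (g :: w).reverse : H ι →L[ℂ] H ι) = tWord w.reverse * tOp g := by
      simp [tWord, List.map_append, List.prod_append]
    rw [h1, star_mul, ih, star_tOp, h2]

theorem star_sWordOp (w : List ι) : star (sWordOp w : H ι →L[ℂ] H ι) = sWordOp w.reverse := by
  induction w with
  | nil => simp [sWordOp]
  | cons g w ih =>
    have h1 : (sWordOp (g :: w) : H ι →L[ℂ] H ι) = sOp g * sWordOp w := by simp [sWordOp]
    have h2 : (sWordOp (g :: w).reverse : H ι →L[ℂ] H ι) = sWordOp w.reverse * sOp g := by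
      simp [sWordOp, List.map_append, List.prod_append]
    rw [h1, star_mul, ih, star_sOp, h2]

theorem sOp_Om (g : ι) : sOp g (Om : H ι) = e [g] := by
  rw [sOp, add_apply, Om, l_e, star_l_nil, add_zero]

theorem tOp_Om (g : ι) : tOp g (Om : H ι) = e [g] := by
  rw [tOp, add_apply, Om, r_e, star_r_nil, add_zero, List.nil_append]

theorem r_Om (g : ι) : r g (Om : H ι) = e [g] := by
  rw [Om, r_e, List.nil_append]


theorem commute_tWord_sOp (h : ι) (w : List ι) :
    (tWord w * sOp h : H ι →L[ℂ] H ι) = sOp h * tWord w := by
  induction w with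
  | nil => simp [tWord]
  | cons g w ih =>
    have h1 : (tWord (g :: w) : H ι →L[ℂ] H ι) = tOp g * tWord w := by simp [tWord]
    rw [h1, mul_assoc, ih, ← mul_assoc, tOp_mul_sOp, mul_assoc]

/-- `s_w Ω = t_{w reversed} Ω`. -/
theorem sWordOp_Om (w : List ι) : sWordOp w (Om : H ι) = tWord w.reverse Om := by
  induction w with
  | nil => simp [sWordOp, tWord]
  | cons g w ih =>
    have h1 : (sWordOp (g :: w) : H ι →L[ℂ] H ι) = sOp g * sWordOp w := by simp [sWordOp]
    have h2 : (tWord (g :: w).reverse : H ι →L[ℂ] H ι) = tWord w.reverse * tOp g := by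
      simp [tWord, List.map_append, List.prod_append]
    rw [h1, h2, mul_apply_eq_comp, ih, ← mul_apply_eq_comp, ← commute_tWord_sOp,
      mul_apply_eq_comp, mul_apply_eq_comp, sOp_Om, tOp_Om]

/-- vectors killed by the adjoint pairing with all `t`-words vanish -/
theorem eq_zero_of_inner_tWord {f : H ι} (h : ∀ w : List ι, ⟪tWord w (Om : H ι), f⟫_ℂ = 0) :
    f = 0 := by
  have key : ∀ n : ℕ, ∀ (w u : List ι), w.length ≤ n → ⟪tWord u (e w : H ι), f⟫_ℂ = 0 := by
    intro n
    induction n with
    | zero =>
      intro w u hw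
      have : w = [] := List.length_eq_zero_iff.mp (Nat.le_zero.mp hw)
      subst this
      exact h u
    | succ n ih =>
      intro w u hw
      rcases List.eq_nil_or_concat w with rfl | ⟨v, k, rfl⟩
      · exact h u
      · simp only [List.concat_eq_append, List.length_append, List.length_singleton] at hw ⊢
        have h1 : tOp k (e v : H ι) = e (v ++ [k]) + star (r k) (e v) := by
          rw [tOp, add_apply, r_e]
        have h2 : (e (v ++ [k]) : H ι) = tOp k (e v) - star (r k) (e v) := by
          rw [h1]; abel
        have h3 : tWord u (tOp k (e v : H ι)) = tWord (u ++ [k]) (e v) := by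
          simp [tWord, List.map_append, List.prod_append]
        rw [h2, map_sub, h3, inner_sub_left, ih v _ (by omega)]
        rcases List.eq_nil_or_concat v with rfl | ⟨v', k', rfl⟩
        · rw [star_r_nil, map_zero, inner_zero_left, sub_zero]
        · simp only [List.concat_eq_append, List.length_append, List.length_singleton] at hw ⊢
          rw [star_r_concat]
          by_cases hk : k = k'
          · rw [if_pos hk, ih v' u (by omega), sub_zero]
          · rw [if_neg hk, map_zero, inner_zero_left, sub_zero]
  apply ext_inner_e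
  intro w
  have := key w.length w [] le_rfl
  rw [inner_zero_right]
  simpa [tWord] using this

/-- Commutant of the right field operators. -/
noncomputable def comm (ι : Type) [DecidableEq ι] : StarSubalgebra ℂ (H ι →L[ℂ] H ι) :=
  StarSubalgebra.centralizer ℂ (Set.range (tOp : ι → H ι →L[ℂ] H ι))

theorem mem_comm_iff (x : H ι →L[ℂ] H ι) : x ∈ comm ι ↔ ∀ g : ι, tOp g * x = x * tOp g := by
  rw [comm, StarSubalgebra.mem_centralizer_iff]
  constructor
  · intro h g
    exact (h (tOp g) ⟨g, rfl⟩).1
  · rintro h _ ⟨g, rfl⟩
    refine ⟨h g, ?_⟩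
    rw [star_tOp]
    exact h g

instance isClosed_comm : IsClosed (comm ι : Set (H ι →L[ℂ] H ι)) := by
  rw [comm, StarSubalgebra.coe_centralizer]
  exact Set.isClosed_centralizer _

/-- The C*-algebra of the free semicircular family. -/
abbrev Alg (ι : Type) [DecidableEq ι] : Type := ↥(comm ι)

noncomputable instance : CStarAlgebra (Alg ι) := StarSubalgebra.cstarAlgebra (comm ι)

/-- the self-adjoint semicircular generators -/
noncomputable def s (g : ι) : Alg ι := ⟨sOp g, (mem_comm_iff _).2 fun h => tOp_mul_sOp g h⟩


theorem isSelfAdjoint_s (g : ι) : IsSelfAdjoint (s g : Alg ι) := by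
  apply Subtype.ext
  change star (sOp g) = sOp g
  exact star_sOp g

/-- vacuum vector map -/
noncomputable def vec (x : Alg ι) : H ι := (x : H ι →L[ℂ] H ι) Om

/-- The vacuum state. -/
noncomputable def tau : Alg ι →ₗ[ℂ] ℂ where
  toFun x := ⟪(Om : H ι), vec x⟫_ℂ
  map_add' x y := by
    change ⟪(Om : H ι), ((x : H ι →L[ℂ] H ι) + (y : H ι →L[ℂ] H ι)) Om⟫_ℂ = _
    rw [add_apply, inner_add_right]; rfl
  map_smul' c x := by
    change ⟪(Om : H ι), (c • (x : H ι →L[ℂ] H ι)) Om⟫_ℂ = _
    rw [smul_apply, inner_smul_right]; rfl

theorem tau_apply (x : Alg ι) : tau x = ⟪(Om : H ι), (x : H ι →L[ℂ] H ι) Om⟫_ℂ := rfl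

theorem commute_tWord (x : Alg ι) (w : List ι) :
    (tWord w * (x : H ι →L[ℂ] H ι)) = (x : H ι →L[ℂ] H ι) * tWord w := by
  induction w with
  | nil => simp [tWord]
  | cons g w ih =>
    have h1 : (tWord (g :: w) : H ι →L[ℂ] H ι) = tOp g * tWord w := by simp [tWord]
    rw [h1, mul_assoc, ih, ← mul_assoc, (mem_comm_iff _).1 x.2 g, mul_assoc]

theorem tau_star_mul (x y : Alg ι) :
    tau (star x * y) = ⟪vec x, vec y⟫_ℂ := by
  rw [tau_apply]
  change ⟪(Om : H ι), (star (x : H ι →L[ℂ] H ι) * (y : H ι →L[ℂ] H ι)) Om⟫_ℂ = _
  rw [mul_apply_eq_comp, ContinuousLinearMap.star_eq_adjoint,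
    ContinuousLinearMap.adjoint_inner_right]
  rfl

/-- Faithfulness: the vacuum is separating. -/
theorem eq_zero_of_vec_eq_zero {x : Alg ι} (hx : vec x = 0) : x = 0 := by
  apply Subtype.ext
  change (x : H ι →L[ℂ] H ι) = 0
  -- enough: x† f = 0 for all f... use adjoint pairing with t-words
  have h : ∀ w : List ι, (x : H ι →L[ℂ] H ι) (tWord w Om) = 0 := by
    intro w
    rw [← mul_apply_eq_comp, ← commute_tWord, mul_apply_eq_comp]
    change tWord w (vec x) = 0
    rw [hx, map_zero]
  have h2 : ∀ f : H ι, star (x : H ι →L[ℂ] H ι) f = 0 := by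
    intro f
    apply eq_zero_of_inner_tWord
    intro w
    rw [ContinuousLinearMap.star_eq_adjoint, ContinuousLinearMap.adjoint_inner_right, h w,
      inner_zero_left]
  have h3 : star (x : H ι →L[ℂ] H ι) = 0 := ContinuousLinearMap.ext h2
  rw [← star_star (x : H ι →L[ℂ] H ι), h3, star_zero]

theorem inner_Om_Om : ⟪(Om : H ι), Om⟫_ℂ = 1 := by
  rw [Om, inner_e_left, e_apply, if_pos rfl]

theorem tau_one : tau (1 : Alg ι) = 1 := by
  rw [tau_apply]
  change ⟪(Om : H ι), (1 : H ι →L[ℂ] H ι) Om⟫_ℂ = 1
  rw [one_apply_eq_self, inner_Om_Om]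

/-- `⟨x* Ω, t_w Ω⟩ = ⟨s_w Ω, x Ω⟩`. -/
theorem inner_vec_star (x : Alg ι) (w : List ι) :
    ⟪vec (star x), tWord w (Om : H ι)⟫_ℂ = ⟪sWordOp w (Om : H ι), vec x⟫_ℂ := by
  change ⟪(star (x : H ι →L[ℂ] H ι)) Om, tWord w (Om : H ι)⟫_ℂ = _
  rw [ContinuousLinearMap.star_eq_adjoint, ContinuousLinearMap.adjoint_inner_left,
    ← mul_apply_eq_comp, ← commute_tWord, mul_apply_eq_comp, sWordOp_Om, ← star_tWord,
    ContinuousLinearMap.star_eq_adjoint, ContinuousLinearMap.adjoint_inner_left]
  rfl

theorem l_apply_nil (g : ι) (f : H ι) : (l g f) ([] : List ι) = 0 := by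
  rw [← inner_e_left, ← ContinuousLinearMap.adjoint_inner_left,
    ← ContinuousLinearMap.star_eq_adjoint, star_l_nil, inner_zero_left]

theorem l_apply_cons (g h : ι) (v : List ι) (f : H ι) :
    (l g f) (h :: v) = if g = h then f v else 0 := by
  rw [← inner_e_left, ← ContinuousLinearMap.adjoint_inner_left,
    ← ContinuousLinearMap.star_eq_adjoint, star_l_cons]
  by_cases hg : g = h
  · rw [if_pos hg, if_pos hg, inner_e_left]
  · rw [if_neg hg, if_neg hg, inner_zero_left]

theorem r_apply_nil (g : ι) (f : H ι) : (r g f) ([] : List ι) = 0 := by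
  rw [← inner_e_left, ← ContinuousLinearMap.adjoint_inner_left,
    ← ContinuousLinearMap.star_eq_adjoint, star_r_nil, inner_zero_left]

theorem r_apply_concat (g h : ι) (v : List ι) (f : H ι) :
    (r g f) (v ++ [h]) = if g = h then f v else 0 := by
  rw [← inner_e_left, ← ContinuousLinearMap.adjoint_inner_left,
    ← ContinuousLinearMap.star_eq_adjoint, star_r_concat]
  by_cases hg : g = h
  · rw [if_pos hg, if_pos hg, inner_e_left]
  · rw [if_neg hg, if_neg hg, inner_zero_left]

/-- reversal as a permutation of words -/
def revEquiv (ι : Type) : List ι ≃ List ι where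
  toFun := List.reverse
  invFun := List.reverse
  left_inv := List.reverse_reverse
  right_inv := List.reverse_reverse

/-- the antiunitary reversing words -/
noncomputable def J (f : H ι) : H ι :=
  ⟨fun w => starRingEnd ℂ (f w.reverse), by
    have hf := lp.memℓp f
    change Memℓp (fun w : List ι => starRingEnd ℂ (f w.reverse)) 2
    rw [memℓp_gen_iff (by norm_num)] at hf ⊢
    have := (revEquiv ι).summable_iff.2 hf
    refine this.congr fun w => ?_
    simp [revEquiv]⟩

theorem J_apply (f : H ι) (w : List ι) : (J f) w = starRingEnd ℂ (f w.reverse) := rfl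

theorem inner_J_J (f g : H ι) : ⟪J f, J g⟫_ℂ = ⟪g, f⟫_ℂ := by
  rw [lp.inner_eq_tsum, lp.inner_eq_tsum, ← (revEquiv ι).tsum_eq]
  apply tsum_congr
  intro w
  simp only [revEquiv, Equiv.coe_fn_mk, J_apply, List.reverse_reverse, RCLike.inner_apply,
    Complex.conj_conj]
  ring

theorem J_Om : J (Om : H ι) = Om := by
  apply lp.ext; funext w
  rw [J_apply, Om, e_apply, e_apply]
  by_cases h : w = []
  · subst h; simp
  · rw [if_neg, if_neg (fun h' => h h'.symm), map_zero]
    intro h'
    apply h
    have := congrArg List.reverse h'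
    simpa using this.symm

theorem J_J (f : H ι) : J (J f) = f := by
  apply lp.ext; funext w
  rw [J_apply, J_apply, List.reverse_reverse, Complex.conj_conj]

theorem J_sOp (g : ι) (f : H ι) : J (sOp g f) = tOp g (J f) := by
  apply lp.ext; funext w
  rw [J_apply, sOp, add_apply, tOp, add_apply, lp.coeFn_add, lp.coeFn_add, Pi.add_apply,
    Pi.add_apply, star_l_apply, star_r_apply, J_apply, map_add, List.reverse_append]
  congr 1
  rcases List.eq_nil_or_concat w with rfl | ⟨v, k, rfl⟩
  · rw [List.reverse_nil, l_apply_nil, r_apply_nil, map_zero]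
  · simp only [List.concat_eq_append, List.reverse_append, List.reverse_singleton,
      List.singleton_append]
    rw [l_apply_cons, r_apply_concat]
    by_cases hg : g = k
    · rw [if_pos hg, if_pos hg, J_apply]
    · rw [if_neg hg, if_neg hg, map_zero]

theorem J_sWordOp_Om (w : List ι) : J (sWordOp w (Om : H ι)) = tWord w Om := by
  induction w with
  | nil => simp [sWordOp, tWord, J_Om]
  | cons g w ih =>
    have h1 : (sWordOp (g :: w) : H ι →L[ℂ] H ι) = sOp g * sWordOp w := by simp [sWordOp]
    have h2 : (tWord (g :: w) : H ι →L[ℂ] H ι) = tOp g * tWord w := by simp [tWord]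
    rw [h1, h2, mul_apply_eq_comp, mul_apply_eq_comp, J_sOp, ih]

theorem vec_star (x : Alg ι) : vec (star x) = J (vec x) := by
  rw [← sub_eq_zero]
  apply eq_zero_of_inner_tWord
  intro w
  rw [inner_sub_right, sub_eq_zero, ← inner_conj_symm, inner_vec_star, inner_conj_symm,
    ← J_sWordOp_Om, inner_J_J]

/-- The vacuum state is tracial. -/
theorem tau_mul_comm (x y : Alg ι) : tau (x * y) = tau (y * x) := by
  have h1 : tau (x * y) = ⟪vec (star x), vec y⟫_ℂ := by
    rw [← tau_star_mul, star_star]
  have h2 : tau (y * x) = ⟪vec (star y), vec x⟫_ℂ := by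
    rw [← tau_star_mul, star_star]
  rw [h1, h2, vec_star, vec_star, ← inner_J_J, J_J]

theorem isFaithfulTracialState_tau :
    Crest.OpAlg.IsFaithfulTracialState (tau : Alg ι →ₗ[ℂ] ℂ) := by
  refine ⟨tau_one, fun a => ?_, fun a ha => ?_, tau_mul_comm⟩
  · rw [tau_star_mul]
    refine ⟨inner_self_im (𝕜 := ℂ) _, ?_⟩
    exact inner_self_nonneg (𝕜 := ℂ)
  · rw [tau_star_mul, inner_self_eq_zero] at ha
    exact eq_zero_of_vec_eq_zero ha

/-- product of generators along a word -/
noncomputable def sWord (w : List ι) : Alg ι := (w.map s).prod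

theorem coe_sWord (w : List ι) : ((sWord w : Alg ι) : H ι →L[ℂ] H ι) = sWordOp w := by
  induction w with
  | nil => simp [sWord, sWordOp]
  | cons g w ih =>
    have h1 : (sWordOp (g :: w) : H ι →L[ℂ] H ι) = sOp g * sWordOp w := by simp [sWordOp]
    have h2 : (sWord (g :: w) : Alg ι) = s g * sWord w := by simp [sWord]
    rw [h1, h2, ← ih]
    rfl

theorem star_sWord (w : List ι) : star (sWord w : Alg ι) = sWord w.reverse := by
  apply Subtype.ext
  change star ((sWord w : Alg ι) : H ι →L[ℂ] H ι) = _
  rw [coe_sWord, coe_sWord, star_sWordOp]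

/-- moment functional of the free semicircular family -/
noncomputable def phi (w : List ι) : ℂ := tau (sWord w : Alg ι)

theorem phi_nil : phi ([] : List ι) = 1 := by
  rw [phi, sWord, List.map_nil, List.prod_nil, tau_one]

theorem phi_eq (w : List ι) : phi w = ⟪(Om : H ι), sWordOp w Om⟫_ℂ := by
  rw [phi, tau_apply, coe_sWord]

/-- `r_g† s_w Ω` is the sum over the occurrences of `g` in `w`. -/
theorem star_r_sWordOp_Om (g : ι) (w : List ι) :
    star (r g) (sWordOp w (Om : H ι)) =
      ∑ k ∈ Finset.range w.length,
        if w[k]? = some g then phi (w.drop (k + 1)) • sWordOp (w.take k) (Om : H ι) else 0 := by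
  induction w with
  | nil =>
    simp only [sWordOp, List.map_nil, List.prod_nil, List.length_nil, Finset.range_zero,
      Finset.sum_empty]
    exact star_r_nil g
  | cons h w ih =>
    have h1 : (sWordOp (h :: w) : H ι →L[ℂ] H ι) = sOp h * sWordOp w := by simp [sWordOp]
    rw [List.length_cons, Finset.sum_range_succ', h1, mul_apply_eq_comp, ← mul_apply_eq_comp,
      star_r_mul_sOp, add_apply, mul_apply_eq_comp, ih, map_sum]
    congr 1
    · apply Finset.sum_congr rfl
      intro k _
      simp only [List.getElem?_cons_succ, List.drop_succ_cons, List.take_succ_cons]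
      by_cases hk : w[k]? = some g
      · rw [if_pos hk, if_pos hk, map_smul]
        have h2 : (sWordOp (h :: w.take k) : H ι →L[ℂ] H ι) = sOp h * sWordOp (w.take k) := by
          simp [sWordOp]
        rw [h2, mul_apply_eq_comp]
      · rw [if_neg hk, if_neg hk, map_zero]
    · simp only [List.getElem?_cons_zero, Option.some.injEq, zero_add, List.drop_succ_cons,
        List.drop_zero, List.take_zero]
      by_cases hg : h = g
      · rw [if_pos hg, if_pos hg, vac_apply, phi_eq]
        simp [sWordOp]
      · rw [if_neg hg, if_neg hg]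
        simp

/-- **Moment recursion** (Schwinger–Dyson equation) of the free semicircular family. -/
theorem phi_cons (g : ι) (w : List ι) :
    phi (g :: w) = ∑ k ∈ Finset.range w.length,
      if w[k]? = some g then phi (w.take k) * phi (w.drop (k + 1)) else 0 := by
  have h1 : (sWordOp (g :: w) : H ι →L[ℂ] H ι) = sOp g * sWordOp w := by simp [sWordOp]
  have h2 : ⟪(Om : H ι), sOp g (sWordOp w Om)⟫_ℂ = ⟪(Om : H ι), star (r g) (sWordOp w Om)⟫_ℂ := by
    rw [ContinuousLinearMap.star_eq_adjoint, ContinuousLinearMap.adjoint_inner_right, r_Om,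
      ← sOp_Om, ← ContinuousLinearMap.adjoint_inner_left, ← ContinuousLinearMap.star_eq_adjoint,
      star_sOp]
  rw [phi_eq, h1, mul_apply_eq_comp, h2, star_r_sWordOp_Om, inner_sum]
  apply Finset.sum_congr rfl
  intro k _
  by_cases hk : w[k]? = some g
  · rw [if_pos hk, if_pos hk, inner_smul_right, phi_eq (w.take k)]
    ring
  · rw [if_neg hk, if_neg hk, inner_zero_right]

end Crest.Agent.R089.Fock
end

-- ▼ part R089/FockMoments
section

/-!
Real moments of the Fock-space semicircular family; the Schwinger-Dyson structures `IsSD`, `IsSC`;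
Catalan moments.
-/

set_option autoImplicit false

open scoped InnerProductSpace ENNReal

namespace Crest.Agent.R089.Fock

variable {ι : Type} [DecidableEq ι]

/-- real moments of the free semicircular family -/
noncomputable def mom (w : List ι) : ℝ := (phi w).re

theorem phi_im (w : List ι) : (phi w).im = 0 := by
  induction' hn : w.length using Nat.strong_induction_on with n ih generalizing w
  cases w with
  | nil => rw [phi_nil]; rfl
  | cons g w =>
    rw [phi_cons, Complex.im_sum]
    apply Finset.sum_eq_zero
    intro k hk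
    rw [Finset.mem_range] at hk
    rw [List.length_cons] at hn
    by_cases h : w[k]? = some g
    · rw [if_pos h, Complex.mul_im, ih (w.take k).length (by simp; omega) _ rfl,
        ih (w.drop (k + 1)).length (by simp; omega) _ rfl]
      ring
    · rw [if_neg h]; rfl

theorem phi_eq_mom (w : List ι) : phi w = (mom w : ℂ) :=
  Complex.ext rfl (by rw [phi_im]; rfl)

theorem tau_sWord (w : List ι) : tau (sWord w : Alg ι) = (mom w : ℂ) := phi_eq_mom w

theorem mom_nil : mom ([] : List ι) = 1 := by
  rw [mom, phi_nil]; rfl

theorem mom_cons (g : ι) (w : List ι) :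
    mom (g :: w) = ∑ k ∈ Finset.range w.length,
      if w[k]? = some g then mom (w.take k) * mom (w.drop (k + 1)) else 0 := by
  have h := phi_cons g w
  simp only [phi_eq_mom] at h
  have h2 : ((mom (g :: w) : ℝ) : ℂ) = ((∑ k ∈ Finset.range w.length,
      if w[k]? = some g then mom (w.take k) * mom (w.drop (k + 1)) else 0 : ℝ) : ℂ) := by
    rw [h]
    push_cast
    apply Finset.sum_congr rfl
    intro k _
    split_ifs <;> simp
  exact_mod_cast h2

/-- The moments satisfy the Schwinger-Dyson recursion. -/
theorem isSD_mom : IsSD (mom : List ι → ℝ) := ⟨mom_nil, mom_cons⟩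

theorem sWord_append (u v : List ι) : (sWord (u ++ v) : Alg ι) = sWord u * sWord v := by
  rw [sWord, List.map_append, List.prod_append]; rfl

theorem sWord_cons (g : ι) (v : List ι) : (sWord (g :: v) : Alg ι) = s g * sWord v := by
  rw [sWord, List.map_cons, List.prod_cons]; rfl





theorem sum_range_odd (m : ℕ) (f : ℕ → ℝ) (hf : ∀ i, f (2 * i + 1) = 0) :
    ∑ k ∈ Finset.range (2 * m + 1), f k = ∑ i ∈ Finset.range (m + 1), f (2 * i) := by
  induction m with
  | zero => simp
  | succ m ih =>
    rw [show 2 * (m + 1) + 1 = 2 * m + 1 + 1 + 1 by ring, Finset.sum_range_succ,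
      Finset.sum_range_succ, ih, hf m, add_zero, Finset.sum_range_succ _ (m + 1)]
    rfl





end Crest.Agent.R089.Fock
end

-- ▼ part R089/FockModel

/-!
`exists_model` (A) and `model_semicircular` (A3) of the main skeleton; coordinate formulas for the
left field operators.
-/

set_option autoImplicit false

open Crest.OpAlg
open scoped InnerProductSpace ENNReal

namespace Crest.Agent.R089.Fock

variable {ι : Type} [DecidableEq ι]

/-- coordinate formula for the field operator at the empty word -/
theorem sOp_apply_nil (g : ι) (f : H ι) : (sOp g f) ([] : List ι) = f [g] := by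
  rw [sOp, add_apply, lp.coeFn_add, Pi.add_apply, l_apply_nil, star_l_apply, zero_add]

/-- coordinate formula for the field operator at a nonempty word -/
theorem sOp_apply_cons (g h : ι) (z : List ι) (f : H ι) :
    (sOp g f) (h :: z) = (if g = h then f z else 0) + f (g :: h :: z) := by
  rw [sOp, add_apply, lp.coeFn_add, Pi.add_apply, l_apply_cons, star_l_apply]

theorem Om_apply (w : List ι) : (Om : H ι) w = if w = [] then 1 else 0 := by
  rw [Om, e_apply]
  by_cases h : w = []
  · rw [if_pos h, if_pos h.symm]
  · rw [if_neg h, if_neg (fun h' => h h'.symm)]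

end Crest.Agent.R089.Fock

namespace Crest.Agent.R089

open Model


/-- Catalan moments from the Schwinger-Dyson recursion. -/
theorem IsSD.replicate {J : Type*} [DecidableEq J] {φ : List J → ℝ} (h : IsSD φ) (g : J) (n : ℕ) :
    φ (List.replicate n g) = if Even n then (catalan (n / 2) : ℝ) else 0 := by
  induction' n using Nat.strong_induction_on with n ih
  cases n with
  | zero => simp [h.nil]
  | succ n =>
    rw [List.replicate_succ, h.cons, List.length_replicate]
    have e1 : ∀ k ∈ Finset.range n, (if (List.replicate n g)[k]? = some g then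
        φ ((List.replicate n g).take k) * φ ((List.replicate n g).drop (k + 1)) else 0) =
        (if Even k then (catalan (k / 2) : ℝ) else 0) *
          (if Even (n - (k + 1)) then (catalan ((n - (k + 1)) / 2) : ℝ) else 0) := by
      intro k hk
      rw [Finset.mem_range] at hk
      rw [if_pos (by rw [List.getElem?_replicate, if_pos hk]), List.take_replicate,
        List.drop_replicate, min_eq_left hk.le, ih k (by omega), ih (n - (k + 1)) (by omega)]
    rw [Finset.sum_congr rfl e1]
    rcases Nat.even_or_odd n with hn | hn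
    · rw [if_neg (by rw [Nat.even_add_one]; simpa using hn)]
      apply Finset.sum_eq_zero
      intro k hk
      rw [Finset.mem_range] at hk
      by_cases hk2 : Even k
      · rw [if_neg (c := Even (n - (k + 1))), mul_zero]
        intro h
        have : Even ((n - (k + 1)) + (k + 1)) := by rwa [Nat.sub_add_cancel (by omega)]
        rw [Nat.even_add] at this
        have h3 := this.1 h
        rw [Nat.even_add_one] at h3
        exact h3 hk2
      · rw [if_neg hk2, zero_mul]
    · obtain ⟨m, rfl⟩ := hn
      rw [if_pos (by exact ⟨m + 1, by ring⟩)]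
      have h2 : (2 * m + 1 + 1) / 2 = m + 1 := by omega
      rw [h2, catalan_succ, Finset.sum_fin_eq_sum_range]
      push_cast
      rw [Fock.sum_range_odd]
      · apply Finset.sum_congr rfl
        intro i hi
        rw [Finset.mem_range] at hi
        have h5 : 2 * m - 2 * i = 2 * (m - i) := by omega
        have h3 : 2 * i / 2 = i := by omega
        have h4 : 2 * (m - i) / 2 = m - i := by omega
        rw [h5, if_pos ⟨i, by ring⟩, if_pos (c := Even (2 * (m - i))) ⟨m - i, by ring⟩, dif_pos hi,
          h3, h4]
        push_cast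
        rfl
      · intro i
        rw [if_neg (by rw [Nat.even_add_one]; simp), zero_mul]

/-- (A3) Catalan moments. -/
theorem model_semicircular' {J : Type} [DecidableEq J] {n : ℕ} {A : Type} [CStarAlgebra A]
    (τ : A →ₗ[ℂ] ℂ) (s : J → A) (φ : List J → ℝ) (h : IsModel τ s φ) (f : Fin n → J) :
    IsStandardSemicircular τ (fun i => s (f i)) := by
  have key : ∀ (g : J) (n : ℕ), τ (s g ^ n) = if Even n then (catalan (n / 2) : ℂ) else 0 := by
    intro g n
    have := h.mom (List.replicate n g)
    rw [List.map_replicate, List.prod_replicate, h.sd.replicate] at this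
    rw [this]
    split_ifs <;> simp
  refine ⟨fun i => h.sa _, fun i k => ⟨?_, ?_⟩⟩
  · rw [key, if_pos ⟨k, by ring⟩]
    congr 2
    omega
  · rw [key, if_neg]
    rw [Nat.even_add_one]; simp

/-- (A3) Catalan moments, in the form of the skeleton. -/
theorem model_semicircular {K : Type} [DecidableEq K] {n : ℕ} {A : Type} [CStarAlgebra A]
    (τ : A →ₗ[ℂ] ℂ) (s : K ⊕ Fin n → A) (φ : List (K ⊕ Fin n) → ℝ) (h : IsModel τ s φ) :
    IsStandardSemicircular τ (fun i => s (Sum.inr i)) :=
  model_semicircular' τ s φ h Sum.inr

end Crest.Agent.R089
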