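import Mathlib
import Crest.Agent.R089.GUEDefs

-- ▼ part R089/GUE1
section

/-! Combinatorics of splittings of words and the abstract loop recursion (row 89). -/

set_option autoImplicit false

namespace Crest.Agent.R089.GUE

variable {α : Type*} [DecidableEq α]

/-- All ways of writing `w = u ++ l :: v`, as pairs `(u, v)`. -/
def splits (l : α) : List α → List (List α × List α)
  | [] => []
  | (a :: w) => (if a = l then [([], w)] else []) ++ (splits l w).map (fun p => (a :: p.1, p.2))

@[simp] lemma splits_nil (l : α) : splits l [] = [] := rfl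

lemma splits_cons (l a : α) (w : List α) :
    splits l (a :: w) = (if a = l then [([], w)] else []) ++
      (splits l w).map (fun p => (a :: p.1, p.2)) := rfl

lemma mem_splits {l : α} {w : List α} {p : List α × List α} :
    p ∈ splits l w ↔ w = p.1 ++ l :: p.2 := by
  induction w generalizing p with
  | nil => simp
  | cons a w ih =>
    obtain ⟨u, v⟩ := p
    rw [splits_cons, List.mem_append, List.mem_map]
    constructor
    · rintro (h | ⟨q, hq, hqe⟩)
      · split_ifs at h with hal
        · simp at h
          obtain ⟨rfl, rfl⟩ := h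
          simp [hal]
        · simp at h
      · rw [ih] at hq
        simp only [Prod.mk.injEq] at hqe
        obtain ⟨rfl, rfl⟩ := hqe
        simp [hq]
    · intro h
      cases u with
      | nil =>
        simp at h
        obtain ⟨rfl, rfl⟩ := h
        left; simp
      | cons b u =>
        simp only [List.cons_append, List.cons.injEq] at h
        obtain ⟨rfl, h⟩ := h
        right
        exact ⟨(u, v), ih.2 h, rfl⟩

lemma length_of_mem_splits {l : α} {w : List α} {p : List α × List α} (h : p ∈ splits l w) :
    w.length = p.1.length + p.2.length + 1 := by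
  rw [mem_splits] at h
  rw [h]; simp; ring

/-- All ways of cutting one of the words of `ws` at a letter `l` and merging it with `v`. -/
def merges (l : α) (v : List α) : List (List α) → List (List (List α))
  | [] => []
  | (w :: ws) => (splits l w).map (fun p => (v ++ p.2 ++ p.1) :: ws) ++
      (merges l v ws).map (fun us => w :: us)

/-- Total length of a list of words. -/
def tot (ws : List (List α)) : ℕ := (ws.map List.length).sum

omit [DecidableEq α] in
@[simp] lemma tot_nil : tot ([] : List (List α)) = 0 := rfl
omit [DecidableEq α] in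
@[simp] lemma tot_cons (w : List α) (ws : List (List α)) : tot (w :: ws) = w.length + tot ws := by
  simp [tot]

lemma tot_of_mem_merges {l : α} {v : List α} {ws us : List (List α)} (h : us ∈ merges l v ws) :
    tot us + 1 = v.length + tot ws := by
  induction ws generalizing us with
  | nil => simp [merges] at h
  | cons w ws ih =>
    rw [merges, List.mem_append, List.mem_map, List.mem_map] at h
    rcases h with ⟨p, hp, rfl⟩ | ⟨us', h', rfl⟩
    · have := length_of_mem_splits hp
      simp; omega
    · have := ih h'
      simp; omega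

lemma length_of_mem_merges {l : α} {v : List α} {ws us : List (List α)} (h : us ∈ merges l v ws) :
    us.length = ws.length := by
  induction ws generalizing us with
  | nil => simp [merges] at h
  | cons w ws ih =>
    rw [merges, List.mem_append, List.mem_map, List.mem_map] at h
    rcases h with ⟨p, hp, rfl⟩ | ⟨us', h', rfl⟩
    · simp
    · simp [ih h']

end Crest.Agent.R089.GUE
private theorem rz_cbf55bb767 : type_of% @_root_.Crest.Agent.R089.GUE.merges.eq_def := @_root_.Crest.Agent.R089.GUE.merges.eq_def -- L58
private theorem rz_890bd4f64f : type_of% @_root_.Crest.Agent.R089.GUE.merges.eq_1 := @_root_.Crest.Agent.R089.GUE.merges.eq_1 -- L58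
end

-- ▼ part R089/GUE2
section

/-! Algebraic loop equations (row 89). -/

set_option autoImplicit false

namespace Crest.Agent.R089.GUE

open Matrix

variable {R : Type*} [CommRing R]
variable {α : Type*} [DecidableEq α] {d : ℕ}

lemma finset_sum_list_sum {ι β M : Type*} [AddCommMonoid M] (s : Finset ι) (L : List β)
    (f : ι → β → M) :
    ∑ c ∈ s, (L.map (f c)).sum = (L.map (fun x => ∑ c ∈ s, f c x)).sum := by
  induction L with
  | nil => simp
  | cons a L ih => simp [Finset.sum_add_distrib, ih]

/-- Word in a tuple of matrices. -/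
def wm (X : α → Matrix (Fin d) (Fin d) R) : List α → Matrix (Fin d) (Fin d) R
  | [] => 1
  | (i :: w) => X i * wm X w

omit [DecidableEq α] in
@[simp] lemma wm_nil (X : α → Matrix (Fin d) (Fin d) R) : wm X [] = 1 := rfl
omit [DecidableEq α] in
@[simp] lemma wm_cons (X : α → Matrix (Fin d) (Fin d) R) (i : α) (w : List α) :
    wm X (i :: w) = X i * wm X w := rfl

omit [DecidableEq α] in
lemma wm_append (X : α → Matrix (Fin d) (Fin d) R) (u v : List α) :
    wm X (u ++ v) = wm X u * wm X v := by
  induction u with
  | nil => simp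
  | cons a u ih => simp [ih, Matrix.mul_assoc]

/-- An additive map satisfying the Leibniz rule and killing `1`, with prescribed values on the
matrix entries. -/
structure IsEntryDer (X : α → Matrix (Fin d) (Fin d) R) (D : R → R) (l : α) (p q : Fin d) : Prop where
  map_add : ∀ x y, D (x + y) = D x + D y
  map_mul : ∀ x y, D (x * y) = D x * y + x * D y
  map_one : D 1 = 0
  entry : ∀ l' a b, D (X l' a b) = if l = l' ∧ p = b ∧ q = a then 1 else 0

/-- Product of traces of words. -/
def tp (X : α → Matrix (Fin d) (Fin d) R) (ws : List (List α)) : R :=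
  (ws.map (fun w => trace (wm X w))).prod

omit [DecidableEq α] in
@[simp] lemma tp_nil (X : α → Matrix (Fin d) (Fin d) R) : tp X [] = 1 := rfl
omit [DecidableEq α] in
@[simp] lemma tp_cons (X : α → Matrix (Fin d) (Fin d) R) (w : List α) (ws : List (List α)) :
    tp X (w :: ws) = trace (wm X w) * tp X ws := by simp [tp]

namespace IsEntryDer

variable {X : α → Matrix (Fin d) (Fin d) R} {D : R → R} {l : α} {p q : Fin d}

omit [DecidableEq α] in
lemma map_zero [DecidableEq α] (h : IsEntryDer X D l p q) : D 0 = 0 := by
  have := h.map_add 0 0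
  simpa using this

lemma map_sum (h : IsEntryDer X D l p q) {ι : Type*} (s : Finset ι) (f : ι → R) :
    D (∑ i ∈ s, f i) = ∑ i ∈ s, D (f i) := by
  classical
  induction s using Finset.induction_on with
  | empty => simp [h.map_zero]
  | insert a s ha ih => rw [Finset.sum_insert ha, h.map_add, ih, Finset.sum_insert ha]

lemma word (h : IsEntryDer X D l p q) (w : List α) (a b : Fin d) :
    D (wm X w a b) = ((splits l w).map (fun s => wm X s.1 a q * wm X s.2 p b)).sum := by
  induction w generalizing a b with
  | nil =>
    simp only [wm_nil, splits_nil, List.map_nil, List.sum_nil, Matrix.one_apply]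
    split_ifs
    · exact h.map_one
    · exact h.map_zero
  | cons i w ih =>
    rw [wm_cons, Matrix.mul_apply, h.map_sum]
    simp_rw [h.map_mul, h.entry, ih]
    rw [Finset.sum_add_distrib, splits_cons, List.map_append, List.sum_append]
    congr 1
    · by_cases hil : i = l
      · subst hil
        simp only [true_and, ite_mul, one_mul, zero_mul, if_true, List.map_cons, List.map_nil,
          List.sum_cons, List.sum_nil, add_zero, wm_nil, Matrix.one_apply]
        by_cases hqa : q = a
        · subst hqa
          simp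
        · simp [hqa, Ne.symm hqa]
      · simp [hil, Ne.symm hil]
    · rw [List.map_map]
      simp only [Function.comp_def, wm_cons, Matrix.mul_apply]
      simp_rw [Finset.sum_mul, mul_assoc]
      rw [← finset_sum_list_sum]
      refine Finset.sum_congr rfl fun c _ => ?_
      rw [List.sum_map_mul_left]

lemma trace_word (h : IsEntryDer X D l p q) (w : List α) :
    D (trace (wm X w)) = ((splits l w).map (fun s => wm X (s.2 ++ s.1) p q)).sum := by
  rw [Matrix.trace, h.map_sum]
  simp only [Matrix.diag_apply]
  simp_rw [h.word, wm_append, Matrix.mul_apply]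
  rw [finset_sum_list_sum]
  congr 1
  refine List.map_congr_left fun s _ => ?_
  exact Finset.sum_congr rfl fun a _ => mul_comm _ _

end IsEntryDer

/-- Family of entry derivations. -/
def IsEntryDerFamily (X : α → Matrix (Fin d) (Fin d) R) (D : α → Fin d → Fin d → R → R) : Prop :=
  ∀ l p q, IsEntryDer X (D l p q) l p q

lemma merge_formula {X : α → Matrix (Fin d) (Fin d) R} {D : α → Fin d → Fin d → R → R}
    (h : IsEntryDerFamily X D) (l : α) (v : List α) (ws : List (List α)) :
    ∑ p, ∑ q, wm X v q p * D l p q (tp X ws) = ((merges l v ws).map (tp X)).sum := by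
  induction ws with
  | nil =>
    simp [merges, (h l _ _).map_one]
  | cons w ws ih =>
    simp_rw [tp_cons, (h l _ _).map_mul, mul_add, Finset.sum_add_distrib]
    rw [merges, List.map_append, List.sum_append]
    congr 1
    · simp_rw [(h l _ _).trace_word]
      rw [List.map_map]
      have : ∀ p q, wm X v q p * ((List.map (fun s => wm X (s.2 ++ s.1) p q) (splits l w)).sum * tp X ws)
          = ((splits l w).map (fun s => wm X v q p * wm X (s.2 ++ s.1) p q * tp X ws)).sum := by
        intro p q
        rw [← mul_assoc, ← List.sum_map_mul_left, List.sum_map_mul_right]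
      simp_rw [this]
      simp_rw [finset_sum_list_sum]
      congr 1
      refine List.map_congr_left fun s _ => ?_
      simp only [Function.comp_def, tp_cons]
      rw [List.append_assoc, wm_append X v, Matrix.trace, Finset.sum_comm, Finset.sum_mul]
      refine Finset.sum_congr rfl fun q _ => ?_
      rw [Matrix.diag_apply, Matrix.mul_apply, Finset.sum_mul]
    · rw [List.map_map]
      simp only [Function.comp_def, tp_cons]
      rw [List.sum_map_mul_left, ← ih, Finset.mul_sum]
      refine Finset.sum_congr rfl fun p _ => ?_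
      rw [Finset.mul_sum]
      refine Finset.sum_congr rfl fun q _ => ?_
      ring

lemma split_formula {X : α → Matrix (Fin d) (Fin d) R} {D : α → Fin d → Fin d → R → R}
    (h : IsEntryDerFamily X D) (l : α) (v : List α) (ws : List (List α)) :
    ∑ p, ∑ q, D l p q (wm X v q p) * tp X ws
      = ((splits l v).map (fun s => tp X (s.1 :: s.2 :: ws))).sum := by
  simp_rw [(h l _ _).word]
  have : ∀ p q : Fin d, (List.map (fun s => wm X s.1 q q * wm X s.2 p p) (splits l v)).sum * tp X ws
      = ((splits l v).map (fun s => wm X s.1 q q * wm X s.2 p p * tp X ws)).sum := by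
    intro p q
    rw [List.sum_map_mul_right]
  simp_rw [this]
  simp_rw [finset_sum_list_sum]
  congr 1
  refine List.map_congr_left fun s _ => ?_
  simp only [tp_cons, Matrix.trace, Matrix.diag_apply]
  rw [Finset.sum_comm, Finset.sum_mul]
  refine Finset.sum_congr rfl fun q _ => ?_
  rw [← mul_assoc, Finset.mul_sum, Finset.sum_mul]

variable [Algebra ℂ R]

/-- **Algebraic loop equation.** -/
lemma loop_formula {X : α → Matrix (Fin d) (Fin d) R} {D : α → Fin d → Fin d → R → R}
    (h : IsEntryDerFamily X D) (E : R →ₗ[ℂ] ℂ) (c : ℂ)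
    (ibp : ∀ l p q Q, E (X l p q * Q) = c * E (D l p q Q)) (l : α) (v : List α)
    (ws : List (List α)) :
    E (tp X ((l :: v) :: ws)) = c * (((splits l v).map (fun s => E (tp X (s.1 :: s.2 :: ws)))).sum
      + ((merges l v ws).map (fun us => E (tp X us))).sum) := by
  have h1 : tp X ((l :: v) :: ws) = ∑ p, ∑ q, X l p q * (wm X v q p * tp X ws) := by
    rw [tp_cons, wm_cons, Matrix.trace, Finset.sum_mul]
    refine Finset.sum_congr rfl fun p _ => ?_
    rw [Matrix.diag_apply, Matrix.mul_apply, Finset.sum_mul]
    refine Finset.sum_congr rfl fun q _ => ?_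
    ring
  rw [h1]
  simp_rw [map_sum, ibp, (h l _ _).map_mul, map_add]
  simp_rw [← Finset.mul_sum, Finset.sum_add_distrib, ← map_sum]
  rw [split_formula h, merge_formula h]
  rw [map_list_sum, map_list_sum, List.map_map, List.map_map]
  rfl

end Crest.Agent.R089.GUE
end

-- ▼ part R089/GUE3
section

/-! The abstract loop recursion: limits and bounds (row 89). -/

set_option autoImplicit false

open Filter Topology

namespace Crest.Agent.R089.GUE

variable {α : Type*} [DecidableEq α]

/-- The loop recursion satisfied by the normalised trace moments of GUE matrices. -/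
structure LoopRec (T : ℕ → List (List α) → ℂ) : Prop where
  nil : ∀ d, 1 ≤ d → T d [] = 1
  empty : ∀ d, 1 ≤ d → ∀ ws, T d ([] :: ws) = T d ws
  loop : ∀ d, 1 ≤ d → ∀ l v ws, T d ((l :: v) :: ws) =
    ((splits l v).map (fun s => T d (s.1 :: s.2 :: ws))).sum +
      ((d : ℂ) ^ 2)⁻¹ * ((merges l v ws).map (fun us => T d us)).sum

/-- The moment recursion in the limit. -/
structure SplitRec (τ : List α → ℂ) : Prop where
  nil : τ [] = 1
  cons : ∀ l v, τ (l :: v) = ((splits l v).map (fun s => τ s.1 * τ s.2)).sum

lemma tendsto_list_sum_map {β : Type*} (L : List β) (f : ℕ → β → ℂ) (g : β → ℂ)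
    (h : ∀ x ∈ L, Tendsto (fun d => f d x) atTop (𝓝 (g x))) :
    Tendsto (fun d => (L.map (f d)).sum) atTop (𝓝 (L.map g).sum) := by
  induction L with
  | nil => simp
  | cons a L ih =>
    simp only [List.map_cons, List.sum_cons]
    exact (h a (by simp)).add (ih fun x hx => h x (by simp [hx]))

lemma LoopRec.tendsto {T : ℕ → List (List α) → ℂ} (hT : LoopRec T) {τ : List α → ℂ}
    (hτ : SplitRec τ) (ws : List (List α)) :
    Tendsto (fun d => T d ws) atTop (𝓝 (ws.map τ).prod) := by
  induction' hm : tot ws + ws.length using Nat.strong_induction_on with m ih generalizing ws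
  match ws with
  | [] =>
    simp only [List.map_nil, List.prod_nil]
    refine tendsto_const_nhds.congr' ?_
    filter_upwards [eventually_ge_atTop 1] with d hd
    rw [hT.nil d hd]
  | [] :: ws =>
    have h1 := ih (tot ws + ws.length) (by simp at hm; omega) ws rfl
    simp only [List.map_cons, List.prod_cons, hτ.nil, one_mul]
    refine h1.congr' ?_
    filter_upwards [eventually_ge_atTop 1] with d hd
    rw [hT.empty d hd]
  | (l :: v) :: ws =>
    simp only [tot_cons, List.length_cons] at hm
    have hs : Tendsto (fun d => ((splits l v).map (fun s => T d (s.1 :: s.2 :: ws))).sum) atTop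
        (𝓝 ((splits l v).map (fun s => τ s.1 * τ s.2 * (ws.map τ).prod)).sum) := by
      refine tendsto_list_sum_map _ _ _ fun s hs => ?_
      have hlen := length_of_mem_splits hs
      have := ih (tot (s.1 :: s.2 :: ws) + (s.1 :: s.2 :: ws).length) (by simp; omega)
        (s.1 :: s.2 :: ws) rfl
      simpa [mul_assoc] using this
    have hmg : Tendsto (fun d : ℕ => ((d : ℂ) ^ 2)⁻¹ * ((merges l v ws).map (fun us => T d us)).sum)
        atTop (𝓝 (0 * ((merges l v ws).map (fun us => (us.map τ).prod)).sum)) := by
      refine Tendsto.mul ?_ ?_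
      · have h2 : Tendsto (fun d : ℕ => (((d : ℝ) ^ 2)⁻¹ : ℝ)) atTop (𝓝 0) := by
          refine tendsto_inv_atTop_zero.comp ?_
          exact (tendsto_pow_atTop (by norm_num)).comp tendsto_natCast_atTop_atTop
        have h3 := (Complex.continuous_ofReal.tendsto 0).comp h2
        refine (h3.congr fun d => ?_)
        simp
      · refine tendsto_list_sum_map _ _ _ fun us hus => ?_
        have h1 := tot_of_mem_merges hus
        have h2 := length_of_mem_merges hus
        exact ih (tot us + us.length) (by omega) us rfl
    have := hs.add hmg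
    rw [zero_mul, add_zero, List.sum_map_mul_right, ← hτ.cons] at this
    simp only [List.map_cons, List.prod_cons]
    refine this.congr' ?_
    filter_upwards [eventually_ge_atTop 1] with d hd
    rw [hT.loop d hd]

/-! ### A uniform bound -/

/-- Product of Catalan numbers of the lengths. -/
def cp (ws : List (List α)) : ℝ := (ws.map (fun w => (catalan w.length : ℝ))).prod

omit [DecidableEq α] in
@[simp] lemma cp_nil : cp ([] : List (List α)) = 1 := rfl
omit [DecidableEq α] in
@[simp] lemma cp_cons (w : List α) (ws : List (List α)) :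
    cp (w :: ws) = catalan w.length * cp ws := by simp [cp]

lemma catalan_pos (n : ℕ) : 0 < catalan n := by
  have h := succ_mul_catalan_eq_centralBinom n
  have h2 := Nat.centralBinom_pos n
  rcases Nat.eq_zero_or_pos (catalan n) with h0 | h0
  · rw [h0] at h; omega
  · exact h0

omit [DecidableEq α] in
lemma cp_pos (ws : List (List α)) : 0 < cp ws := by
  induction ws with
  | nil => simp
  | cons w ws ih =>
    rw [cp_cons]
    have := catalan_pos w.length
    positivity

lemma catalan_le_four_pow (n : ℕ) : catalan n ≤ 4 ^ n := by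
  have h := succ_mul_catalan_eq_centralBinom n
  have h2 : n.centralBinom ≤ 4 ^ n := by
    rw [Nat.centralBinom_eq_two_mul_choose]
    calc (2 * n).choose n ≤ 2 ^ (2 * n) := Nat.choose_le_two_pow _ _
      _ = 4 ^ n := by rw [pow_mul]; norm_num
  nlinarith [Nat.zero_le (catalan n)]

lemma four_pow_le_catalan (n : ℕ) : 4 ^ n ≤ 2 * (n + 1) ^ 2 * catalan n := by
  rcases Nat.eq_zero_or_pos n with rfl | hn
  · simp
  · have h := succ_mul_catalan_eq_centralBinom n
    have h2 := Nat.four_pow_le_two_mul_self_mul_centralBinom n hn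
    rw [← h] at h2
    calc 4 ^ n ≤ 2 * n * ((n + 1) * catalan n) := h2
      _ ≤ 2 * (n + 1) * ((n + 1) * catalan n) := by gcongr; omega
      _ = 2 * (n + 1) ^ 2 * catalan n := by ring

lemma catalan_mono_succ (n : ℕ) : catalan n ≤ catalan (n + 1) := by
  rw [catalan_succ]
  have : catalan (0 : Fin n.succ) * catalan (n - (0 : Fin n.succ)) ≤
      ∑ i : Fin n.succ, catalan i * catalan (n - i) :=
    Finset.single_le_sum (f := fun i : Fin n.succ => catalan i * catalan (n - i))
      (fun i _ => Nat.zero_le _) (Finset.mem_univ 0)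
  simpa using this

/-- The merging bound for Catalan numbers. -/
lemma catalan_merge (a b : ℕ) (hb : 1 ≤ b) :
    catalan (a + b - 1) ≤ (a + b + 1) ^ 4 * (catalan (a + 1) * catalan b) := by
  have h1 := catalan_le_four_pow (a + b - 1)
  have h2 := four_pow_le_catalan (a + 1)
  have h3 := four_pow_le_catalan b
  have h4 : 4 ^ (a + 1) * 4 ^ b = 16 * 4 ^ (a + b - 1) := by
    rw [← pow_add, show a + 1 + b = (a + b - 1) + 2 by omega, pow_add]
    norm_num; ring
  have h5 : 16 * 4 ^ (a + b - 1) ≤
      (2 * (a + 1 + 1) ^ 2 * catalan (a + 1)) * (2 * (b + 1) ^ 2 * catalan b) := by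
    rw [← h4]; exact Nat.mul_le_mul h2 h3
  have h6 : ((a + 1 + 1) ^ 2) * ((b + 1) ^ 2) ≤ 4 * (a + b + 1) ^ 4 := by
    have : (a + 1 + 1) * (b + 1) ≤ 2 * (a + b + 1) ^ 2 := by nlinarith
    calc ((a + 1 + 1) ^ 2) * ((b + 1) ^ 2) = ((a + 1 + 1) * (b + 1)) ^ 2 := by ring
      _ ≤ (2 * (a + b + 1) ^ 2) ^ 2 := Nat.pow_le_pow_left this 2
      _ = _ := by ring
  have h7 : (2 * (a + 1 + 1) ^ 2 * catalan (a + 1)) * (2 * (b + 1) ^ 2 * catalan b)
      ≤ 16 * ((a + b + 1) ^ 4 * (catalan (a + 1) * catalan b)) := by
    calc (2 * (a + 1 + 1) ^ 2 * catalan (a + 1)) * (2 * (b + 1) ^ 2 * catalan b)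
        = 4 * (((a + 1 + 1) ^ 2) * ((b + 1) ^ 2)) * (catalan (a + 1) * catalan b) := by ring
      _ ≤ 4 * (4 * (a + b + 1) ^ 4) * (catalan (a + 1) * catalan b) := by gcongr
      _ = _ := by ring
  omega

lemma sum_splits_le (f : ℕ → ℕ → ℝ) (hf : ∀ a b, 0 ≤ f a b) (l : α) (v : List α) :
    ((splits l v).map (fun s => f s.1.length s.2.length)).sum ≤
      ∑ k ∈ Finset.range v.length, f k (v.length - 1 - k) := by
  induction v generalizing f with
  | nil => simp
  | cons a w ih =>
    rw [splits_cons, List.map_append, List.sum_append, List.map_map, List.length_cons,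
      Finset.sum_range_succ']
    have h1 : ((if a = l then [(([] : List α), w)] else []).map
        (fun s => f s.1.length s.2.length)).sum ≤ f 0 w.length := by
      split_ifs
      · simp
      · simpa using hf 0 w.length
    have h2 := ih (fun a b => f (a + 1) b) (fun a b => hf _ _)
    have h3 : ∑ k ∈ Finset.range w.length, f (k + 1) (w.length - 1 - k) =
        ∑ k ∈ Finset.range w.length, f (k + 1) (w.length + 1 - 1 - (k + 1)) := by
      refine Finset.sum_congr rfl fun k hk => ?_
      congr 1
      omega
    simp only [Function.comp_def, List.length_cons] at *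
    rw [h3] at h2
    have h4 : w.length + 1 - 1 - 0 = w.length := by omega
    rw [h4]
    linarith

lemma sum_splits_catalan (l : α) (v : List α) :
    ((splits l v).map (fun s => ((catalan s.1.length : ℝ) * catalan s.2.length))).sum ≤
      catalan (v.length + 1) := by
  refine (sum_splits_le (fun a b => (catalan a : ℝ) * catalan b) (fun a b => by positivity) l v).trans ?_
  rcases Nat.eq_zero_or_pos v.length with h0 | h0
  · rw [h0]; simp
  · obtain ⟨n, hn⟩ : ∃ n, v.length = n + 1 := ⟨v.length - 1, by omega⟩
    rw [hn]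
    have h1 : ∑ k ∈ Finset.range (n + 1), (catalan k : ℝ) * catalan (n + 1 - 1 - k) = catalan (n + 1) := by
      rw [catalan_succ, Finset.sum_range]
      push_cast
      rfl
    rw [h1]
    exact_mod_cast catalan_mono_succ (n + 1)

lemma length_splits_le (l : α) (v : List α) : (splits l v).length ≤ v.length := by
  induction v with
  | nil => simp
  | cons a w ih =>
    rw [splits_cons, List.length_append, List.length_map, List.length_cons]
    have : (if a = l then [(([] : List α), w)] else []).length ≤ 1 := by
      split_ifs <;> simp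
    omega

lemma sum_merges_cp (l : α) (v : List α) (K : ℕ) (ws : List (List α))
    (hK : v.length + tot ws + 1 ≤ K) :
    ((merges l v ws).map cp).sum ≤ (tot ws : ℝ) * (K : ℝ) ^ 4 * (catalan (v.length + 1) * cp ws) := by
  induction ws with
  | nil => simp [merges]
  | cons w ws ih =>
    rw [merges, List.map_append, List.sum_append, List.map_map, List.map_map]
    simp only [tot_cons] at hK
    have h1 : ((splits l w).map (cp ∘ fun p => (v ++ p.2 ++ p.1) :: ws)).sum ≤
        (w.length : ℝ) * ((K : ℝ) ^ 4 * (catalan (v.length + 1) * cp (w :: ws))) := by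
      have hb : ∀ x ∈ (splits l w).map (cp ∘ fun p => (v ++ p.2 ++ p.1) :: ws),
          x ≤ (K : ℝ) ^ 4 * (catalan (v.length + 1) * cp (w :: ws)) := by
        intro x hx
        rw [List.mem_map] at hx
        obtain ⟨p, hp, rfl⟩ := hx
        have hl := length_of_mem_splits hp
        have hlen : (v ++ p.2 ++ p.1).length = v.length + w.length - 1 := by
          simp; omega
        simp only [Function.comp_def, cp_cons, hlen]
        have hm := catalan_merge v.length w.length (by omega)
        have hm2 : (catalan (v.length + w.length - 1) : ℝ) ≤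
            ((v.length + w.length + 1 : ℕ) : ℝ) ^ 4 * (catalan (v.length + 1) * catalan w.length) := by
          exact_mod_cast hm
        have hK4 : ((v.length + w.length + 1 : ℕ) : ℝ) ^ 4 ≤ (K : ℝ) ^ 4 := by
          have : ((v.length + w.length + 1 : ℕ) : ℝ) ≤ K := by exact_mod_cast (by omega)
          gcongr
        have hcp := cp_pos ws
        calc (catalan (v.length + w.length - 1) : ℝ) * cp ws
            ≤ (((v.length + w.length + 1 : ℕ) : ℝ) ^ 4 * (catalan (v.length + 1) * catalan w.length)) * cp ws := by
              gcongr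
          _ ≤ ((K : ℝ) ^ 4 * (catalan (v.length + 1) * catalan w.length)) * cp ws := by gcongr
          _ = _ := by ring
      have h2 := List.sum_le_card_nsmul _ _ hb
      rw [List.length_map, nsmul_eq_mul] at h2
      refine h2.trans ?_
      have h3 : ((splits l w).length : ℝ) ≤ w.length := by exact_mod_cast length_splits_le l w
      have h4 := cp_pos (w :: ws)
      gcongr
    have h2 : ((merges l v ws).map (cp ∘ fun us => w :: us)).sum ≤
        (tot ws : ℝ) * ((K : ℝ) ^ 4 * (catalan (v.length + 1) * cp (w :: ws))) := by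
      have h3 : (cp ∘ fun us => w :: us) = fun us => (catalan w.length : ℝ) * cp us := by
        funext us; simp
      rw [h3, List.sum_map_mul_left]
      have h4 := ih (by omega)
      calc (catalan w.length : ℝ) * ((merges l v ws).map cp).sum
          ≤ catalan w.length * ((tot ws : ℝ) * (K : ℝ) ^ 4 * (catalan (v.length + 1) * cp ws)) := by
            gcongr
        _ = _ := by rw [cp_cons]; ring
    rw [tot_cons]
    push_cast
    calc _ ≤ (w.length : ℝ) * ((K : ℝ) ^ 4 * (catalan (v.length + 1) * cp (w :: ws))) +
        (tot ws : ℝ) * ((K : ℝ) ^ 4 * (catalan (v.length + 1) * cp (w :: ws))) := add_le_add h1 h2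
      _ = _ := by ring

lemma norm_list_sum_le {β : Type*} (L : List β) (f : β → ℂ) (g : β → ℝ)
    (h : ∀ x ∈ L, ‖f x‖ ≤ g x) : ‖(L.map f).sum‖ ≤ (L.map g).sum := by
  induction L with
  | nil => simp
  | cons a L ih =>
    simp only [List.map_cons, List.sum_cons]
    exact (norm_add_le _ _).trans (add_le_add (h a (by simp)) (ih fun x hx => h x (by simp [hx])))


/-- **Uniform bound** for the solutions of the loop recursion. -/
lemma LoopRec.bound {T : ℕ → List (List α) → ℂ} (hT : LoopRec T) (t0 d : ℕ) (hd : 1 ≤ d)
    (ws : List (List α)) (hws : tot ws ≤ t0) :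
    ‖T d ws‖ ≤ (1 + (t0 : ℝ) * ((t0 : ℝ) + 1) ^ 4 / (d : ℝ) ^ 2) ^ (tot ws) * cp ws := by
  set κ : ℝ := (t0 : ℝ) * ((t0 : ℝ) + 1) ^ 4 / (d : ℝ) ^ 2 with hκ
  have hκ0 : 0 ≤ κ := by positivity
  induction' hm : tot ws + ws.length using Nat.strong_induction_on with m ih generalizing ws
  match ws with
  | [] => rw [hT.nil d hd]; simp
  | [] :: ws =>
    rw [hT.empty d hd]
    have h1 := ih (tot ws + ws.length) (by simp at hm; omega) ws (by simpa using hws) rfl
    simpa using h1
  | (l :: v) :: ws =>
    simp only [tot_cons, List.length_cons] at hm hws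
    rw [hT.loop d hd, tot_cons, List.length_cons, cp_cons, List.length_cons]
    have hcp := cp_pos ws
    have hcat : (0 : ℝ) < catalan (v.length + 1) := by exact_mod_cast catalan_pos _
    set B : ℝ := (1 + κ) ^ (v.length - 1 + tot ws) with hB
    have hBpos : 0 < B := by positivity
    have hs : ‖((splits l v).map (fun s => T d (s.1 :: s.2 :: ws))).sum‖ ≤
        B * (catalan (v.length + 1) * cp ws) := by
      have h1 : ‖((splits l v).map (fun s => T d (s.1 :: s.2 :: ws))).sum‖ ≤
          ((splits l v).map (fun s => ((catalan s.1.length : ℝ) * catalan s.2.length) *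
            (B * cp ws))).sum := by
        refine norm_list_sum_le _ _ _ fun s hs => ?_
        have hlen := length_of_mem_splits hs
        have h2 := ih (tot (s.1 :: s.2 :: ws) + (s.1 :: s.2 :: ws).length) (by simp; omega)
          (s.1 :: s.2 :: ws) (by simp; omega) rfl
        refine h2.trans (le_of_eq ?_)
        have h3 : tot (s.1 :: s.2 :: ws) = v.length - 1 + tot ws := by
          simp; omega
        rw [h3, cp_cons, cp_cons, hB]
        ring
      rw [List.sum_map_mul_right] at h1
      refine h1.trans ?_
      calc _ ≤ (catalan (v.length + 1) : ℝ) * (B * cp ws) := by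
            have := sum_splits_catalan l v
            gcongr
        _ = _ := by ring
    have hmg : ‖((d : ℂ) ^ 2)⁻¹ * ((merges l v ws).map (fun us => T d us)).sum‖ ≤
        B * (κ * (catalan (v.length + 1) * cp ws)) := by
      have h1 : ‖((merges l v ws).map (fun us => T d us)).sum‖ ≤
          ((merges l v ws).map (fun us => B * cp us)).sum := by
        refine norm_list_sum_le _ _ _ fun us hus => ?_
        have h1 := tot_of_mem_merges hus
        have h2 := length_of_mem_merges hus
        have h3 := ih (tot us + us.length) (by omega) us (by omega) rfl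
        refine h3.trans ?_
        have h4 : tot us ≤ v.length - 1 + tot ws := by omega
        have h5 : (1 + κ) ^ tot us ≤ B := pow_le_pow_right₀ (by linarith) h4
        have := cp_pos us
        gcongr
      rw [List.sum_map_mul_left] at h1
      have h2 := sum_merges_cp l v (t0 + 1) ws (by omega)
      have h3 : ‖((d : ℂ) ^ 2)⁻¹‖ = ((d : ℝ) ^ 2)⁻¹ := by simp
      rw [norm_mul, h3]
      have hd' : (0 : ℝ) < (d : ℝ) ^ 2 := by positivity
      have h4 : (tot ws : ℝ) ≤ t0 := by exact_mod_cast (by omega)
      calc ((d : ℝ) ^ 2)⁻¹ * ‖((merges l v ws).map (fun us => T d us)).sum‖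
          ≤ ((d : ℝ) ^ 2)⁻¹ * (B * ((tot ws : ℝ) * ((t0 + 1 : ℕ) : ℝ) ^ 4 *
            (catalan (v.length + 1) * cp ws))) := by
            have := h1.trans (mul_le_mul_of_nonneg_left h2 hBpos.le)
            gcongr
        _ ≤ ((d : ℝ) ^ 2)⁻¹ * (B * ((t0 : ℝ) * ((t0 + 1 : ℕ) : ℝ) ^ 4 *
            (catalan (v.length + 1) * cp ws))) := by gcongr
        _ = _ := by rw [hκ]; push_cast; field_simp
    have hfin : B * (catalan (v.length + 1) * cp ws) + B * (κ * (catalan (v.length + 1) * cp ws)) ≤
        (1 + κ) ^ (v.length + 1 + tot ws) * (catalan (v.length + 1) * cp ws) := by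
      have h1 : B * (1 + κ) ≤ (1 + κ) ^ (v.length + 1 + tot ws) := by
        rw [hB, ← pow_succ]
        exact pow_le_pow_right₀ (by linarith) (by omega)
      calc _ = (B * (1 + κ)) * (catalan (v.length + 1) * cp ws) := by ring
        _ ≤ _ := by gcongr
    exact (norm_add_le _ _).trans ((add_le_add hs hmg).trans hfin)

end Crest.Agent.R089.GUE
end

-- ▼ part R089/GUE4

/-! Gaussian integration by parts for polynomials (row 89). -/

set_option autoImplicit false

open MeasureTheory ProbabilityTheory Filter Topology
open scoped ENNReal NNReal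

namespace Crest.Agent.R089.GUE

lemma integrable_pow_gaussianReal (v : ℝ≥0) (k : ℕ) :
    Integrable (fun x : ℝ => x ^ k) (gaussianReal 0 v) := by
  rcases Nat.eq_zero_or_pos k with rfl | hk
  · simp
  · have h := (memLp_id_gaussianReal' (μ := 0) (v := v) (k : ℝ≥0∞) (by simp)).integrable_norm_pow
      hk.ne'
    refine h.mono (by fun_prop) (Filter.Eventually.of_forall fun x => ?_)
    simp

lemma integrable_pow_pdf {v : ℝ≥0} (hv : v ≠ 0) (k : ℕ) :
    Integrable (fun x : ℝ => gaussianPDFReal 0 v x * x ^ k) := by
  have h := integrable_pow_gaussianReal v k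
  rw [gaussianReal_of_var_ne_zero _ hv,
    integrable_withDensity_iff_integrable_smul' (measurable_gaussianPDF _ _)
      (ae_of_all _ fun _ => gaussianPDF_lt_top)] at h
  simpa using h

lemma hasDerivAt_gaussianPDFReal {v : ℝ≥0} (hv : v ≠ 0) (x : ℝ) :
    HasDerivAt (gaussianPDFReal 0 v) (-(x / v) * gaussianPDFReal 0 v x) x := by
  have hv' : (v : ℝ) ≠ 0 := by exact_mod_cast hv
  have h1 : HasDerivAt (fun y : ℝ => -y ^ 2 / (2 * (v : ℝ))) (-(x / v)) x := by
    have h2 : HasDerivAt (fun y : ℝ => y ^ 2) (2 * x) x := by
      simpa using hasDerivAt_pow 2 x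
    have h3 := (h2.neg).div_const (2 * (v : ℝ))
    have h4 : -(2 * x) / (2 * (v : ℝ)) = -(x / v) := by
      field_simp
    rw [h4] at h3
    exact h3
  have h2 := (h1.exp).const_mul ((√(2 * Real.pi * v))⁻¹)
  have h3 : gaussianPDFReal 0 v = fun y => (√(2 * Real.pi * v))⁻¹ * Real.exp (-y ^ 2 / (2 * (v : ℝ))) := by
    rw [gaussianPDFReal_def]
    funext y
    simp
  rw [h3]
  refine h2.congr_deriv ?_
  simp only
  ring

lemma integral_pow_succ_gaussianReal {v : ℝ≥0} (hv : v ≠ 0) (k : ℕ) :
    ∫ x, x ^ (k + 1) ∂(gaussianReal 0 v) = (v : ℝ) * (k * ∫ x, x ^ (k - 1) ∂(gaussianReal 0 v)) := by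
  have hv' : (v : ℝ) ≠ 0 := by exact_mod_cast hv
  rw [integral_gaussianReal_eq_integral_smul hv, integral_gaussianReal_eq_integral_smul hv]
  simp only [smul_eq_mul]
  have h := integral_mul_deriv_eq_deriv_mul_of_integrable (A := ℝ)
    (u := fun x : ℝ => x ^ k) (v := gaussianPDFReal 0 v)
    (u' := fun x : ℝ => k * x ^ (k - 1)) (v' := fun x => -(x / v) * gaussianPDFReal 0 v x)
    (fun x _ => hasDerivAt_pow k x) (fun x _ => hasDerivAt_gaussianPDFReal hv x)
    ?_ ?_ ?_
  · have h1 : ∫ x, gaussianPDFReal 0 v x * x ^ (k + 1) =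
        -(v : ℝ) * ∫ x : ℝ, x ^ k * (-(x / v) * gaussianPDFReal 0 v x) := by
      rw [← integral_const_mul]
      congr 1
      funext x
      field_simp
      ring
    rw [h1, h]
    have h2 : ∫ x : ℝ, (k : ℝ) * x ^ (k - 1) * gaussianPDFReal 0 v x =
        k * ∫ x : ℝ, gaussianPDFReal 0 v x * x ^ (k - 1) := by
      rw [← integral_const_mul]
      congr 1
      funext x
      ring
    rw [h2]
    ring
  · have h1 := (integrable_pow_pdf hv (k + 1)).const_mul (-(v : ℝ)⁻¹)
    refine h1.congr (Filter.Eventually.of_forall fun x => ?_)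
    simp only [Pi.mul_apply]
    field_simp
    ring
  · have h1 := (integrable_pow_pdf hv (k - 1)).const_mul (k : ℝ)
    refine h1.congr (Filter.Eventually.of_forall fun x => ?_)
    simp only [Pi.mul_apply]
    ring
  · have h1 := (integrable_pow_pdf hv k)
    refine h1.congr (Filter.Eventually.of_forall fun x => ?_)
    simp only [Pi.mul_apply]
    ring

/-- One-dimensional Gaussian moments, as complex numbers. -/
noncomputable def mom (v : ℝ≥0) (k : ℕ) : ℂ := ∫ x : ℝ, (x : ℂ) ^ k ∂(gaussianReal 0 v)

lemma mom_zero (v : ℝ≥0) : mom v 0 = 1 := by simp [mom]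

lemma mom_eq (v : ℝ≥0) (k : ℕ) : mom v k = ((∫ x : ℝ, x ^ k ∂(gaussianReal 0 v) : ℝ) : ℂ) := by
  rw [mom, ← integral_complex_ofReal]
  simp

lemma mom_succ {v : ℝ≥0} (hv : v ≠ 0) (k : ℕ) : mom v (k + 1) = (v : ℂ) * (k * mom v (k - 1)) := by
  rw [mom_eq, integral_pow_succ_gaussianReal hv, mom_eq]
  push_cast
  rfl

section functional

variable {ι : Type*} [Fintype ι]

open MvPolynomial

lemma integrable_eval (v : ℝ≥0) (p : MvPolynomial ι ℂ) :
    Integrable (fun ω : ι → ℝ => eval (fun i => (ω i : ℂ)) p)
      (Measure.pi fun _ => gaussianReal 0 v) := by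
  induction p using MvPolynomial.induction_on' with
  | monomial m c =>
    simp only [eval_monomial]
    refine Integrable.const_mul ?_ c
    simp_rw [Finsupp.prod_pow]
    refine Integrable.fintype_prod (f := fun i (x : ℝ) => (x : ℂ) ^ m i) fun i => ?_
    have := (integrable_pow_gaussianReal v (m i)).ofReal (𝕜 := ℂ)
    simpa using this
  | add p q hp hq =>
    simp only [map_add]
    exact hp.add hq

/-- The Gaussian expectation of polynomials. -/
noncomputable def gexp (v : ℝ≥0) : MvPolynomial ι ℂ →ₗ[ℂ] ℂ where
  toFun p := ∫ ω : ι → ℝ, eval (fun i => (ω i : ℂ)) p ∂(Measure.pi fun _ => gaussianReal 0 v)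
  map_add' p q := by
    simp only [map_add]
    exact integral_add (integrable_eval v p) (integrable_eval v q)
  map_smul' c p := by
    simp only [smul_eval, RingHom.id_apply, smul_eq_mul]
    exact integral_const_mul _ _

lemma gexp_apply (v : ℝ≥0) (p : MvPolynomial ι ℂ) :
    gexp v p = ∫ ω : ι → ℝ, eval (fun i => (ω i : ℂ)) p ∂(Measure.pi fun _ => gaussianReal 0 v) :=
  rfl

lemma gexp_one (v : ℝ≥0) : gexp v (1 : MvPolynomial ι ℂ) = 1 := by
  simp [gexp_apply]

lemma gexp_monomial (v : ℝ≥0) (m : ι →₀ ℕ) (c : ℂ) :
    gexp v (monomial m c) = c * ∏ i, mom v (m i) := by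
  rw [gexp_apply]
  simp only [eval_monomial]
  rw [integral_const_mul]
  congr 1
  simp_rw [Finsupp.prod_pow]
  exact integral_fintype_prod_eq_prod (f := fun i (x : ℝ) => (x : ℂ) ^ m i)

lemma gexp_ibp {v : ℝ≥0} (hv : v ≠ 0) (i : ι) (p : MvPolynomial ι ℂ) :
    gexp v (X i * p) = (v : ℂ) * gexp v (pderiv i p) := by
  classical
  induction p using MvPolynomial.induction_on' with
  | monomial m c =>
    rw [pderiv_monomial, gexp_monomial, X, monomial_mul, gexp_monomial, one_mul]
    rw [← Finset.mul_prod_erase _ _ (Finset.mem_univ i), ← Finset.mul_prod_erase _ _ (Finset.mem_univ i)]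
    have h1 : ∏ x ∈ Finset.univ.erase i, mom v ((Finsupp.single i 1 + m : ι →₀ ℕ) x) =
        ∏ x ∈ Finset.univ.erase i, mom v ((m - Finsupp.single i 1 : ι →₀ ℕ) x) := by
      refine Finset.prod_congr rfl fun x hx => ?_
      have hxi : x ≠ i := (Finset.mem_erase.1 hx).1
      simp [hxi.symm]
    rw [h1]
    have h2 : (Finsupp.single i 1 + m : ι →₀ ℕ) i = m i + 1 := by simp [add_comm]
    have h3 : (m - Finsupp.single i 1 : ι →₀ ℕ) i = m i - 1 := by simp
    rw [h2, h3, mom_succ hv]
    ring
  | add p q hp hq =>
    rw [mul_add, map_add, map_add, map_add, hp, hq, mul_add]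

end functional

end Crest.Agent.R089.GUE
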