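import Mathlib
import Crest.Prelude.Def_FreeEntropy
import Crest.Prelude.Def_CStarRep
import Crest.Agent.R089.GUEDefs

-- ▼ part R089/Fisher
section

set_option autoImplicit false
set_option linter.unusedSectionVars false

namespace Crest.Agent.R089

open Crest.OpAlg MeasureTheory Set
open scoped ENNReal InnerProductSpace

section algebra
variable {A : Type*} [Ring A] [Algebra ℂ A] {n : ℕ}

theorem polyEval_eq_sum (X : Fin n → A) (P : NCPoly n) :
    polyEval X P = P.coeff.sum fun w c => c • wordEval X w := by
  simp [polyEval, MonoidAlgebra.lift_apply, wordEval]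

@[simp] theorem polyEval_single (X : Fin n → A) (w : FreeMonoid (Fin n)) (c : ℂ) :
    polyEval X (MonoidAlgebra.single w c) = c • wordEval X w := by
  simp [polyEval, wordEval]

@[simp] theorem polyEval_add (X : Fin n → A) (P Q : NCPoly n) :
    polyEval X (P + Q) = polyEval X P + polyEval X Q := by
  simp [polyEval]

@[simp] theorem polyEval_mul (X : Fin n → A) (P Q : NCPoly n) :
    polyEval X (P * Q) = polyEval X P * polyEval X Q := by
  simp [polyEval]

@[simp] theorem polyEval_smul (X : Fin n → A) (c : ℂ) (P : NCPoly n) :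
    polyEval X (c • P) = c • polyEval X P := by
  simp [polyEval]

@[simp] theorem polyEval_zero (X : Fin n → A) : polyEval X (0 : NCPoly n) = 0 := by
  simp [polyEval]

@[simp] theorem polyEval_one (X : Fin n → A) : polyEval X (1 : NCPoly n) = 1 := by
  simp [polyEval]

@[simp] theorem wordEval_one (X : Fin n → A) : wordEval X (1 : FreeMonoid (Fin n)) = 1 := by
  simp [wordEval]

@[simp] theorem wordEval_mul (X : Fin n → A) (v w : FreeMonoid (Fin n)) :
    wordEval X (v * w) = wordEval X v * wordEval X w := by
  simp [wordEval]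

@[simp] theorem wordEval_of (X : Fin n → A) (i : Fin n) :
    wordEval X (FreeMonoid.of i) = X i := by
  simp [wordEval]

theorem wordEval_eq_prod (X : Fin n → A) (w : FreeMonoid (Fin n)) :
    wordEval X w = ((FreeMonoid.toList w).map X).prod := by
  simp [wordEval, FreeMonoid.lift_apply]

/-- The splitting functional on a single word. -/
noncomputable def splitWord (τ : A →ₗ[ℂ] ℂ) (X : Fin n → A) (i : Fin n)
    (w : FreeMonoid (Fin n)) : ℂ :=
  ∑ k ∈ Finset.range (FreeMonoid.toList w).length,
    if (FreeMonoid.toList w)[k]? = some i then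
      τ (wordEval X (FreeMonoid.toList.symm ((FreeMonoid.toList w).take k))) *
        τ (wordEval X (FreeMonoid.toList.symm ((FreeMonoid.toList w).drop (k + 1))))
    else 0

theorem splitPairing_eq_sum (τ : A →ₗ[ℂ] ℂ) (X : Fin n → A) (i : Fin n) (P : NCPoly n) :
    splitPairing τ X i P = P.coeff.sum fun w c => c * splitWord τ X i w := rfl


@[simp] theorem splitWord_of_self (τ : A →ₗ[ℂ] ℂ) (hτ : τ 1 = 1) (X : Fin n → A) (i : Fin n) :
    splitWord τ X i (FreeMonoid.of i) = 1 := by
  simp [splitWord, hτ]

end algebra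

section star
variable {A : Type*} [Ring A] [Algebra ℂ A] [StarRing A] [StarModule ℂ A] {n : ℕ}

theorem star_wordEval (X : Fin n → A) (hX : ∀ i, IsSelfAdjoint (X i)) (w : FreeMonoid (Fin n)) :
    star (wordEval X w) =
      wordEval X (FreeMonoid.toList.symm (FreeMonoid.toList w).reverse) := by
  rw [wordEval_eq_prod, wordEval_eq_prod]
  simp only [Equiv.apply_symm_apply]
  generalize FreeMonoid.toList w = l
  induction l with
  | nil => simp
  | cons a l ih => simp [star_mul, ih, (hX a).star_eq]

theorem polyEval_polyStar (X : Fin n → A) (hX : ∀ i, IsSelfAdjoint (X i)) (P : NCPoly n) :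
    polyEval X (polyStar P) = star (polyEval X P) := by
  rw [polyStar, polyEval_eq_sum X P, Finsupp.sum, Finsupp.sum, star_sum]
  have : polyEval X (∑ a ∈ P.coeff.support, MonoidAlgebra.single
      (FreeMonoid.toList.symm (FreeMonoid.toList a).reverse) ((starRingEnd ℂ) (P.coeff a)))
      = ∑ a ∈ P.coeff.support, polyEval X (MonoidAlgebra.single
      (FreeMonoid.toList.symm (FreeMonoid.toList a).reverse) ((starRingEnd ℂ) (P.coeff a))) := by
    simp only [polyEval, map_sum]
  rw [this]
  refine Finset.sum_congr rfl fun w _ => ?_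
  rw [polyEval_single, star_smul, star_wordEval X hX]
  rfl

theorem isSelfAdjoint_polyEval (X : Fin n → A) (hX : ∀ i, IsSelfAdjoint (X i)) (P : NCPoly n)
    (hP : polyStar P = P) : IsSelfAdjoint (polyEval X P) := by
  rw [isSelfAdjoint_iff, ← polyEval_polyStar X hX, hP]

end star

section upper
variable {A : Type*} [Ring A] [Algebra ℂ A] [StarRing A] [StarModule ℂ A] {n : ℕ}
variable {H : Type*} [NormedAddCommGroup H] [InnerProductSpace ℂ H]


end upper

section lower
variable {A : Type*} [Ring A] [Algebra ℂ A] {n : ℕ}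



end lower

section congr
variable {A : Type*} [Ring A] [Algebra ℂ A] {B : Type*} [Ring B] [Algebra ℂ B] {n : ℕ}

theorem splitWord_congr (τ : A →ₗ[ℂ] ℂ) (τ' : B →ₗ[ℂ] ℂ) (Z : Fin n → A) (Z' : Fin n → B)
    (h : ∀ w, τ (wordEval Z w) = τ' (wordEval Z' w)) (i : Fin n) (w : FreeMonoid (Fin n)) :
    splitWord τ Z i w = splitWord τ' Z' i w := by
  unfold splitWord
  simp only [h]

theorem trace_polyEval_congr (τ : A →ₗ[ℂ] ℂ) (τ' : B →ₗ[ℂ] ℂ) (Z : Fin n → A) (Z' : Fin n → B)
    (h : ∀ w, τ (wordEval Z w) = τ' (wordEval Z' w)) (P : NCPoly n) :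
    τ (polyEval Z P) = τ' (polyEval Z' P) := by
  rw [polyEval_eq_sum, polyEval_eq_sum, Finsupp.sum, Finsupp.sum, map_sum, map_sum]
  refine Finset.sum_congr rfl fun w _ => ?_
  rw [map_smul, map_smul, h]

theorem splitPairing_congr (τ : A →ₗ[ℂ] ℂ) (τ' : B →ₗ[ℂ] ℂ) (Z : Fin n → A) (Z' : Fin n → B)
    (h : ∀ w, τ (wordEval Z w) = τ' (wordEval Z' w)) (i : Fin n) (P : NCPoly n) :
    splitPairing τ Z i P = splitPairing τ' Z' i P := by
  rw [splitPairing_eq_sum, splitPairing_eq_sum]
  simp only [splitWord_congr τ τ' Z Z' h]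

/-- The free Fisher information depends only on the word moments. -/
theorem freeFisher_congr (τ : A →ₗ[ℂ] ℂ) (τ' : B →ₗ[ℂ] ℂ) (Z : Fin n → A) (Z' : Fin n → B)
    (h : ∀ w, τ (wordEval Z w) = τ' (wordEval Z' w)) :
    freeFisher τ Z = freeFisher τ' Z' := by
  unfold freeFisher
  simp only [← polyEval_mul, splitPairing_congr τ τ' Z Z' h, trace_polyEval_congr τ τ' Z Z' h]

end congr

section upper2
variable {A : Type*} [Ring A] [Algebra ℂ A] {n : ℕ}

/-- Scalar form of the variational upper bound: it suffices that, for every formally self-adjoint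
polynomial `P`, `2 Re (splitPairing) - Re τ(P(Z)²) ≤ C i`. -/
theorem freeFisher_le_of_forall (τ : A →ₗ[ℂ] ℂ) (Z : Fin n → A) (C : Fin n → ℝ)
    (h : ∀ i (P : NCPoly n), polyStar P = P →
      (2 * splitPairing τ Z i P - τ (polyEval Z P * polyEval Z P)).re ≤ C i) :
    freeFisher τ Z ≤ ENNReal.ofReal (∑ i, C i) := by
  unfold freeFisher
  refine iSup_le fun P => iSup_le fun hP => ?_
  apply ENNReal.ofReal_le_ofReal
  rw [Complex.re_sum]
  exact Finset.sum_le_sum fun i _ => h i (P i) (hP i)


end upper2

end Crest.Agent.R089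
end

-- ▼ part R089/HeatLaw

/-! Law of a rotated free semicircular family (helper585): if `u : J → A` has word moments given by
an `IsSD` functional and `T j = ∑ g, c j g • u g` with orthonormal real rows `c`, then `T` has word
moments given by the `IsSD` functional on its own index type. Application: the law of
`heatTuple (Q(a) + √δ b) c t` is that of `Q(a) + √(δ+t) b`. -/

set_option autoImplicit false
set_option linter.unusedSectionVars false

namespace Crest.Agent.R089

open Crest.OpAlg


/-- Abstract Fock-like structure carrying the Schwinger-Dyson relations. -/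
structure SDStruct (J : Type*) [DecidableEq J] (M : Type*) [AddCommGroup M] [Module ℂ M] where
  Om : M
  om : M →ₗ[ℂ] ℂ
  L : J → M →ₗ[ℂ] M
  R : J → M →ₗ[ℂ] M
  om_Om : om Om = 1
  R_L : ∀ g h x, R g (L h x) = L h (R g x) + (if h = g then om x else 0) • Om
  R_Om : ∀ g, R g Om = 0
  om_L : ∀ g x, om (L g x) = om (R g x)

namespace SDStruct

variable {J : Type*} [DecidableEq J] {M : Type*} [AddCommGroup M] [Module ℂ M]

/-- Vector of a word. -/
def vec (S : SDStruct J M) (w : List J) : M := w.foldr (fun j x => S.L j x) S.Om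

@[simp] theorem vec_nil (S : SDStruct J M) : S.vec [] = S.Om := rfl
@[simp] theorem vec_cons (S : SDStruct J M) (j : J) (w : List J) :
    S.vec (j :: w) = S.L j (S.vec w) := rfl

theorem R_vec (S : SDStruct J M) (g : J) (w : List J) :
    S.R g (S.vec w) = ∑ k ∈ Finset.range w.length,
      if w[k]? = some g then S.om (S.vec (w.drop (k + 1))) • S.vec (w.take k) else 0 := by
  induction w with
  | nil => simp [S.R_Om]
  | cons h w ih =>
    rw [vec_cons, S.R_L, ih, List.length_cons, Finset.sum_range_succ', map_sum]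
    congr 1
    · refine Finset.sum_congr rfl fun k _ => ?_
      by_cases hk : w[k]? = some g
      · simp [hk]
      · simp [hk]
    · by_cases hg : h = g
      · simp [hg]
      · simp [hg]

theorem om_vec_cons (S : SDStruct J M) (g : J) (w : List J) :
    S.om (S.vec (g :: w)) = ∑ k ∈ Finset.range w.length,
      if w[k]? = some g then S.om (S.vec (w.take k)) * S.om (S.vec (w.drop (k + 1))) else 0 := by
  rw [vec_cons, S.om_L, R_vec, map_sum]
  refine Finset.sum_congr rfl fun k _ => ?_
  split_ifs
  · rw [map_smul, smul_eq_mul, mul_comm]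
  · rw [map_zero]

theorem om_vec_eq (S : SDStruct J M) {φ : List J → ℝ} (hφ : IsSD φ) (w : List J) :
    S.om (S.vec w) = (φ w : ℂ) := by
  have key : ∀ (n : ℕ) (w : List J), w.length ≤ n → S.om (S.vec w) = (φ w : ℂ) := by
    intro n
    induction n with
    | zero =>
      intro w hw
      have : w = [] := List.eq_nil_of_length_eq_zero (Nat.le_zero.mp hw)
      rw [this, hφ.nil, vec_nil, S.om_Om]
      simp
    | succ n ih =>
      intro w hw
      match w, hw with
      | [], _ => rw [hφ.nil, vec_nil, S.om_Om]; simp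
      | j :: w, hw =>
        have hw' : w.length ≤ n := by simpa using hw
        rw [om_vec_cons, hφ.cons]
        push_cast
        refine Finset.sum_congr rfl fun k hk => ?_
        have hk' : k < w.length := Finset.mem_range.mp hk
        rw [ih (w.take k) (by rw [List.length_take]; omega),
          ih (w.drop (k + 1)) (by rw [List.length_drop]; omega)]
        split_ifs <;> simp
  exact key w.length w le_rfl

/-- The structure is stable under orthonormal real linear combinations of the generators. -/
noncomputable def rotate [Fintype J] (S : SDStruct J M) {K : Type*} [DecidableEq K] (c : K → J → ℝ)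
    (hc : ∀ j k, ∑ g, c j g * c k g = if j = k then 1 else 0) : SDStruct K M where
  Om := S.Om
  om := S.om
  L := fun k => ∑ g, (c k g : ℂ) • S.L g
  R := fun k => ∑ g, (c k g : ℂ) • S.R g
  om_Om := S.om_Om
  R_Om := fun k => by simp [LinearMap.sum_apply, S.R_Om]
  om_L := fun k x => by
    simp [LinearMap.sum_apply, map_sum, S.om_L]
  R_L := fun j k x => by
    have h1 : (∑ g, (c j g : ℂ) • S.R g) ((∑ h, (c k h : ℂ) • S.L h) x) =
        ∑ g, ∑ h, ((c j g : ℂ) * (c k h : ℂ)) • (S.L h (S.R g x) +
          (if h = g then S.om x else 0) • S.Om) := by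
      simp only [LinearMap.sum_apply, LinearMap.smul_apply, map_sum, map_smul, S.R_L,
        Finset.smul_sum, smul_smul]
      rw [Finset.sum_comm]
      refine Finset.sum_congr rfl fun g _ => Finset.sum_congr rfl fun h _ => ?_
      rw [mul_comm]
    have h2 : (∑ h, (c k h : ℂ) • S.L h) ((∑ g, (c j g : ℂ) • S.R g) x) =
        ∑ g, ∑ h, ((c j g : ℂ) * (c k h : ℂ)) • (S.L h (S.R g x)) := by
      simp only [LinearMap.sum_apply, LinearMap.smul_apply, map_sum, map_smul,
        Finset.smul_sum, smul_smul]
    rw [h1, h2]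
    simp only [smul_add, Finset.sum_add_distrib]
    congr 1
    have h3 : ∀ g, ∑ h, ((c j g : ℂ) * (c k h : ℂ)) • ((if h = g then S.om x else 0) • S.Om) =
        (((c j g * c k g : ℝ) : ℂ) * S.om x) • S.Om := by
      intro g
      rw [Finset.sum_eq_single g]
      · simp [smul_smul]
      · intro b _ hb
        simp [hb]
      · simp
    simp only [h3]
    rw [← Finset.sum_smul, ← Finset.sum_mul, ← Complex.ofReal_sum, hc j k]
    by_cases hjk : j = k
    · simp [hjk]
    · have hkj : ¬ (k = j) := fun h => hjk h.symm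
      simp [hjk, hkj]

/-- The free structure attached to a Schwinger-Dyson functional. -/
noncomputable def free {φ : List J → ℝ} (hφ : IsSD φ) : SDStruct J (List J →₀ ℂ) where
  Om := Finsupp.single [] 1
  om := Finsupp.linearCombination ℂ (fun w => (φ w : ℂ))
  L := fun j => Finsupp.lmapDomain ℂ ℂ (fun w => j :: w)
  R := fun g => Finsupp.linearCombination ℂ (fun w => ∑ k ∈ Finset.range w.length,
    if w[k]? = some g then (φ (w.drop (k + 1)) : ℂ) • Finsupp.single (w.take k) (1 : ℂ) else 0)
  om_Om := by simp [hφ.nil]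
  R_Om := fun g => by simp
  om_L := fun g x => by
    induction x using Finsupp.induction_linear with
    | zero => simp
    | add x y hx hy => simp only [map_add, hx, hy]
    | single w a =>
      simp only [Finsupp.lmapDomain_apply, Finsupp.mapDomain_single,
        Finsupp.linearCombination_single, map_smul, map_sum]
      congr 1
      rw [hφ.cons]
      push_cast
      refine Finset.sum_congr rfl fun k _ => ?_
      split_ifs
      · simp [mul_comm]
      · simp
  R_L := fun g h x => by
    induction x using Finsupp.induction_linear with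
    | zero => simp
    | add x y hx hy =>
      simp only [map_add, hx, hy]
      split_ifs
      · rw [add_smul]; abel
      · simp
    | single w a =>
      simp only [Finsupp.lmapDomain_apply, Finsupp.mapDomain_single,
        Finsupp.linearCombination_single, map_smul, map_sum]
      rw [List.length_cons, Finset.sum_range_succ', smul_add]
      congr 1
      · congr 1
        refine Finset.sum_congr rfl fun k _ => ?_
        split_ifs with h1 h2 h2
        · simp [Finsupp.mapDomain_single]
        · simp at h1; exact absurd h1 h2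
        · simp at h1; exact absurd h2 h1
        · simp
      · by_cases hg : h = g
        · simp [hg]
        · simp [hg]

end SDStruct

section rotation
variable {A : Type*} [Ring A] [Algebra ℂ A]

/-- Rotation invariance of the law of a free semicircular family. -/
theorem rotation_law {J K : Type*} [Fintype J] [DecidableEq J] [DecidableEq K]
    (τ : A →ₗ[ℂ] ℂ) (u : J → A) {φ : List J → ℝ} (hφ : IsSD φ)
    (hτ : ∀ w : List J, τ ((w.map u).prod) = (φ w : ℂ))
    (c : K → J → ℝ) (hc : ∀ j k, ∑ g, c j g * c k g = if j = k then 1 else 0)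
    {ψ : List K → ℝ} (hψ : IsSD ψ) (w : List K) :
    τ ((w.map fun k => ∑ g, (c k g : ℂ) • u g).prod) = (ψ w : ℂ) := by
  set ev : (List J →₀ ℂ) →ₗ[ℂ] A := Finsupp.linearCombination ℂ (fun w => (w.map u).prod) with hev
  set S := SDStruct.free hφ with hS
  set S' := S.rotate c hc with hS'
  have h1 : ∀ x, τ (ev x) = S.om x := by
    intro x
    induction x using Finsupp.induction_linear with
    | zero => simp
    | add x y hx hy => simp only [map_add, hx, hy]
    | single w a =>
      simp only [hev, hS, SDStruct.free, Finsupp.linearCombination_single, map_smul, hτ]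
  have h2 : ∀ j x, ev (S.L j x) = u j * ev x := by
    intro j x
    induction x using Finsupp.induction_linear with
    | zero => simp
    | add x y hx hy => simp only [map_add, hx, hy, mul_add]
    | single w a =>
      simp only [hev, hS, SDStruct.free, Finsupp.lmapDomain_apply, Finsupp.mapDomain_single,
        Finsupp.linearCombination_single, List.map_cons, List.prod_cons, mul_smul_comm]
  have h3 : ∀ k x, ev (S'.L k x) = (∑ g, (c k g : ℂ) • u g) * ev x := by
    intro k x
    have : S'.L k x = ∑ g, (c k g : ℂ) • S.L g x := by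
      simp [hS', SDStruct.rotate, LinearMap.sum_apply]
    rw [this, map_sum, Finset.sum_mul]
    refine Finset.sum_congr rfl fun g _ => ?_
    rw [map_smul, h2, smul_mul_assoc]
  have h4 : ∀ w : List K, ev (S'.vec w) = (w.map fun k => ∑ g, (c k g : ℂ) • u g).prod := by
    intro w
    induction w with
    | nil =>
      have : S'.vec [] = Finsupp.single [] 1 := rfl
      rw [this]
      simp [hev]
    | cons k w ih =>
      rw [SDStruct.vec_cons, h3, ih, List.map_cons, List.prod_cons]
  rw [← h4, h1]
  exact S'.om_vec_eq hψ w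

end rotation

section existence

/-- The canonical Schwinger-Dyson functional (joint moments of a free standard semicircular
family). -/
noncomputable def sdFun {J : Type*} [DecidableEq J] : List J → ℝ
  | [] => 1
  | j :: w => ∑ k : Fin w.length,
      if w[k]? = some j then sdFun (w.take k) * sdFun (w.drop (k + 1)) else 0
termination_by w => w.length
decreasing_by
  all_goals simp_wf

theorem isSD_sdFun (J : Type*) [DecidableEq J] : IsSD (sdFun (J := J)) where
  nil := by rw [sdFun]
  cons := fun j w => by
    rw [sdFun, Finset.sum_range]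
    rfl

/-- Restriction of a Schwinger-Dyson functional along an injective map of letters. -/
theorem IsSD.comap {J K : Type*} [DecidableEq J] [DecidableEq K] {φ : List J → ℝ} (hφ : IsSD φ)
    (f : K → J) (hf : Function.Injective f) : IsSD (fun w : List K => φ (w.map f)) where
  nil := by simp [hφ.nil]
  cons := fun j w => by
    simp only [List.map_cons, List.map_take, List.map_drop]
    rw [hφ.cons, List.length_map]
    refine Finset.sum_congr rfl fun k _ => ?_
    have : ((w.map f)[k]? = some (f j)) ↔ (w[k]? = some j) := by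
      rw [List.getElem?_map]
      cases h : w[k]? with
      | none => simp
      | some x => simp [hf.eq_iff]
    simp only [this]

end existence

section polycongr
variable {A : Type*} [Ring A] [Algebra ℂ A] {B : Type*} [Ring B] [Algebra ℂ B] {J : Type*}

/-- Evaluation of polynomials in letters of an arbitrary type. -/
noncomputable def evalJ (u : J → A) : MonoidAlgebra ℂ (FreeMonoid J) →ₐ[ℂ] A :=
  MonoidAlgebra.lift ℂ A (FreeMonoid J) (FreeMonoid.lift u)

theorem evalJ_single (u : J → A) (w : FreeMonoid J) (c : ℂ) :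
    evalJ u (MonoidAlgebra.single w c) = c • ((FreeMonoid.toList w).map u).prod := by
  simp [evalJ, FreeMonoid.lift_apply]

theorem trace_evalJ_congr (τ : A →ₗ[ℂ] ℂ) (τ' : B →ₗ[ℂ] ℂ) (u : J → A) (u' : J → B)
    (h : ∀ w : List J, τ ((w.map u).prod) = τ' ((w.map u').prod))
    (P : MonoidAlgebra ℂ (FreeMonoid J)) : τ (evalJ u P) = τ' (evalJ u' P) := by
  induction P using MonoidAlgebra.induction_linear with
  | zero => simp
  | add P Q hP hQ => rw [map_add, map_add, map_add, map_add, hP, hQ]
  | single w c => rw [evalJ_single, evalJ_single, map_smul, map_smul, h]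

theorem wordEval_evalJ {n : ℕ} (u : J → A) (P : Fin n → MonoidAlgebra ℂ (FreeMonoid J))
    (w : FreeMonoid (Fin n)) :
    wordEval (fun i => evalJ u (P i)) w = evalJ u (wordEval P w) := by
  rw [wordEval_eq_prod, wordEval_eq_prod, map_list_prod, List.map_map]
  rfl

/-- Word moments of polynomials in families with equal word moments are equal. -/
theorem word_moment_congr {n : ℕ} (τ : A →ₗ[ℂ] ℂ) (τ' : B →ₗ[ℂ] ℂ) (u : J → A) (u' : J → B)
    (h : ∀ w : List J, τ ((w.map u).prod) = τ' ((w.map u').prod))
    (P : Fin n → MonoidAlgebra ℂ (FreeMonoid J)) (w : FreeMonoid (Fin n)) :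
    τ (wordEval (fun i => evalJ u (P i)) w) = τ' (wordEval (fun i => evalJ u' (P i)) w) := by
  rw [wordEval_evalJ, wordEval_evalJ]
  exact trace_evalJ_congr τ τ' u u' h _

/-- Inclusion of polynomials in the left letters. -/
noncomputable def inlPoly {k : ℕ} (I : Type*) (Q : NCPoly k) :
    MonoidAlgebra ℂ (FreeMonoid (Fin k ⊕ I)) :=
  evalJ (fun i : Fin k => MonoidAlgebra.single (FreeMonoid.of (Sum.inl i)) (1 : ℂ)) Q

theorem evalJ_inlPoly {k : ℕ} {I : Type*} (a : Fin k → A) (b : I → A) (Q : NCPoly k) :
    evalJ (Sum.elim a b) (inlPoly I Q) = polyEval a Q := by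
  unfold inlPoly
  induction Q using MonoidAlgebra.induction_linear with
  | zero => simp [evalJ, polyEval]
  | add P Q hP hQ => rw [map_add, map_add, hP, hQ, polyEval_add]
  | single w c =>
    rw [evalJ_single, map_smul, map_list_prod, List.map_map, polyEval_single, wordEval_eq_prod]
    congr 3
    funext i
    simp [evalJ_single]

/-- The tuple `Q(a) + c • b` as a polynomial in the letters. -/
theorem noisy_eq_evalJ {k n : ℕ} (a : Fin k → A) (b : Fin n → A) (Q : Fin n → NCPoly k)
    (c : Fin n → ℝ) :
    (fun i => polyEval a (Q i) + (c i : ℂ) • b i) =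
      fun i => evalJ (Sum.elim a b) (inlPoly (Fin n) (Q i) +
        (c i : ℂ) • MonoidAlgebra.single (FreeMonoid.of (Sum.inr i)) (1 : ℂ)) := by
  funext i
  rw [map_add, evalJ_inlPoly, map_smul, evalJ_single]
  simp

end polycongr

section heat
variable {A : Type*} [Ring A] [Algebra ℂ A] {B : Type*} [Ring B] [Algebra ℂ B]

/-- The combined noise letter. -/
noncomputable def combNoise {n : ℕ} (b c : Fin n → A) (δ : Fin n → ℝ) (t : ℝ) (i : Fin n) : A :=
  ((Real.sqrt (δ i) / Real.sqrt (δ i + t) : ℝ) : ℂ) • b i +
    ((Real.sqrt t / Real.sqrt (δ i + t) : ℝ) : ℂ) • c i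

/-- The letters `a` together with the combined noise letters are again a free standard
semicircular family. -/
theorem combNoise_law {k n : ℕ} (τ : A →ₗ[ℂ] ℂ) (a : Fin k → A) (b c : Fin n → A)
    {φ : List (Fin k ⊕ Fin n ⊕ Fin n) → ℝ} (hφ : IsSD φ)
    (hτ : ∀ w : List (Fin k ⊕ Fin n ⊕ Fin n),
      τ ((w.map (Sum.elim a (Sum.elim b c))).prod) = (φ w : ℂ))
    (δ : Fin n → ℝ) (hδ : ∀ i, 0 < δ i) (t : ℝ) (ht : 0 ≤ t)
    {ψ : List (Fin k ⊕ Fin n) → ℝ} (hψ : IsSD ψ) (w : List (Fin k ⊕ Fin n)) :
    τ ((w.map (Sum.elim a (combNoise b c δ t))).prod) = (ψ w : ℂ) := by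
  let C : (Fin k ⊕ Fin n) → (Fin k ⊕ Fin n ⊕ Fin n) → ℝ := fun x y =>
    match x, y with
    | Sum.inl i, Sum.inl j => if i = j then 1 else 0
    | Sum.inl _, Sum.inr _ => 0
    | Sum.inr _, Sum.inl _ => 0
    | Sum.inr i, Sum.inr (Sum.inl j) => if i = j then Real.sqrt (δ i) / Real.sqrt (δ i + t) else 0
    | Sum.inr i, Sum.inr (Sum.inr j) => if i = j then Real.sqrt t / Real.sqrt (δ i + t) else 0
  have hC : ∀ x y, ∑ g, C x g * C y g = if x = y then 1 else 0 := by
    intro x y
    rw [Fintype.sum_sum_type, Fintype.sum_sum_type]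
    rcases x with i | i <;> rcases y with j | j
    · simp only [C]
      simp [Finset.sum_ite_eq]
    · simp [C]
    · simp [C]
    · have hs : 0 < δ i + t := by have := hδ i; linarith
      by_cases hij : i = j
      · subst hij
        simp only [C]
        simp only [mul_zero, Finset.sum_const_zero, zero_add, ite_mul, zero_mul,
          mul_ite, Finset.sum_ite_eq, Finset.mem_univ, if_true]
        rw [div_mul_div_comm, div_mul_div_comm, Real.mul_self_sqrt (hδ i).le,
          Real.mul_self_sqrt ht, Real.mul_self_sqrt hs.le, ← add_div, div_self hs.ne']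
      · simp only [C]
        simp only [mul_zero, Finset.sum_const_zero, zero_add, ite_mul, zero_mul,
          mul_ite, Finset.sum_ite_eq, Finset.mem_univ, if_true]
        simp [hij]
  have h1 : Sum.elim a (combNoise b c δ t) =
      fun x => ∑ g, (C x g : ℂ) • (Sum.elim a (Sum.elim b c)) g := by
    funext x
    rw [Fintype.sum_sum_type, Fintype.sum_sum_type]
    rcases x with i | i
    · simp [C]
    · simp only [C, combNoise, Sum.elim_inr, Sum.elim_inl, Complex.ofReal_zero, zero_smul,
        Finset.sum_const_zero, zero_add]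
      congr 1
      · rw [Finset.sum_eq_single i]
        · simp only [if_true]
        · intro j _ hj
          rw [if_neg (Ne.symm hj), Complex.ofReal_zero, zero_smul]
        · intro h; exact absurd (Finset.mem_univ _) h
      · rw [Finset.sum_eq_single i]
        · simp only [if_true]
        · intro j _ hj
          rw [if_neg (Ne.symm hj), Complex.ofReal_zero, zero_smul]
        · intro h; exact absurd (Finset.mem_univ _) h
  rw [h1]
  exact rotation_law τ _ hφ hτ C hC hψ w

/-- Rewriting of the heat tuple through the combined noise. -/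
theorem heatTuple_eq {k n : ℕ} (a : Fin k → A) (b c : Fin n → A) (Q : Fin n → NCPoly k)
    (δ : Fin n → ℝ) (hδ : ∀ i, 0 < δ i) (t : ℝ) (ht : 0 ≤ t) :
    heatTuple (fun i => polyEval a (Q i) + (Real.sqrt (δ i) : ℂ) • b i) c t =
      fun i => polyEval a (Q i) + (Real.sqrt (δ i + t) : ℂ) • combNoise b c δ t i := by
  funext i
  have hs : 0 < δ i + t := by have := hδ i; linarith
  have hs' : Real.sqrt (δ i + t) ≠ 0 := (Real.sqrt_pos.mpr hs).ne'
  unfold heatTuple combNoise
  rw [smul_add, smul_smul, smul_smul, ← Complex.ofReal_mul, ← Complex.ofReal_mul,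
    mul_div_cancel₀ _ hs', mul_div_cancel₀ _ hs', add_assoc]

/-- Law of the heat tuple: its word moments are those of `Q(a') + √(δ+t) b'` for any free standard
semicircular family `(a', b')`. -/
theorem heatTuple_moments {k n : ℕ} (τ : A →ₗ[ℂ] ℂ) (a : Fin k → A) (b c : Fin n → A)
    {φ : List (Fin k ⊕ Fin n ⊕ Fin n) → ℝ} (hφ : IsSD φ)
    (hτ : ∀ w : List (Fin k ⊕ Fin n ⊕ Fin n),
      τ ((w.map (Sum.elim a (Sum.elim b c))).prod) = (φ w : ℂ))
    (Q : Fin n → NCPoly k) (δ : Fin n → ℝ) (hδ : ∀ i, 0 < δ i) (t : ℝ) (ht : 0 ≤ t)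
    (τ' : B →ₗ[ℂ] ℂ) (a' : Fin k → B) (b' : Fin n → B)
    {ψ : List (Fin k ⊕ Fin n) → ℝ} (hψ : IsSD ψ)
    (hτ' : ∀ w : List (Fin k ⊕ Fin n), τ' ((w.map (Sum.elim a' b')).prod) = (ψ w : ℂ))
    (w : FreeMonoid (Fin n)) :
    τ (wordEval (heatTuple (fun i => polyEval a (Q i) + (Real.sqrt (δ i) : ℂ) • b i) c t) w) =
      τ' (wordEval (fun i => polyEval a' (Q i) + (Real.sqrt (δ i + t) : ℂ) • b' i) w) := by
  rw [heatTuple_eq a b c Q δ hδ t ht,
    noisy_eq_evalJ a (combNoise b c δ t) Q (fun i => Real.sqrt (δ i + t)),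
    noisy_eq_evalJ a' b' Q (fun i => Real.sqrt (δ i + t))]
  refine word_moment_congr τ τ' _ _ (fun w => ?_) _ w
  rw [combNoise_law τ a b c hφ hτ δ hδ t ht hψ, hτ']

/-- The free Fisher information along the heat path, in the reduced model. -/
theorem freeFisher_heatTuple {k n : ℕ} (τ : A →ₗ[ℂ] ℂ) (a : Fin k → A) (b c : Fin n → A)
    {φ : List (Fin k ⊕ Fin n ⊕ Fin n) → ℝ} (hφ : IsSD φ)
    (hτ : ∀ w : List (Fin k ⊕ Fin n ⊕ Fin n),
      τ ((w.map (Sum.elim a (Sum.elim b c))).prod) = (φ w : ℂ))
    (Q : Fin n → NCPoly k) (δ : Fin n → ℝ) (hδ : ∀ i, 0 < δ i) (t : ℝ) (ht : 0 ≤ t)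
    (τ' : B →ₗ[ℂ] ℂ) (a' : Fin k → B) (b' : Fin n → B)
    {ψ : List (Fin k ⊕ Fin n) → ℝ} (hψ : IsSD ψ)
    (hτ' : ∀ w : List (Fin k ⊕ Fin n), τ' ((w.map (Sum.elim a' b')).prod) = (ψ w : ℂ)) :
    freeFisher τ (heatTuple (fun i => polyEval a (Q i) + (Real.sqrt (δ i) : ℂ) • b i) c t) =
      freeFisher τ' (fun i => polyEval a' (Q i) + (Real.sqrt (δ i + t) : ℂ) • b' i) :=
  freeFisher_congr _ _ _ _
    (heatTuple_moments τ a b c hφ hτ Q δ hδ t ht τ' a' b' hψ hτ')

end heat

section second
variable {A : Type*} [Ring A] [Algebra ℂ A]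


theorem trace_noise_sq {k n : ℕ} (τ : A →ₗ[ℂ] ℂ) (a : Fin k → A) (b : Fin n → A)
    {ψ : List (Fin k ⊕ Fin n) → ℝ} (hψ : IsSD ψ)
    (hτ : ∀ w : List (Fin k ⊕ Fin n), τ ((w.map (Sum.elim a b)).prod) = (ψ w : ℂ))
    (i : Fin n) : τ (b i * b i) = 1 := by
  have h := hτ [Sum.inr i, Sum.inr i]
  rw [hψ.cons] at h
  simp [hψ.nil] at h
  exact h




end second

end Crest.Agent.R089
private theorem rz_b1ffe736fc : type_of% @_root_.Crest.Agent.R089.sdFun.eq_1 := @_root_.Crest.Agent.R089.sdFun.eq_1 -- L257
private theorem rz_f26ba559a7 : type_of% @_root_.Crest.Agent.R089.sdFun.eq_def := @_root_.Crest.Agent.R089.sdFun.eq_def -- L257
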