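import Mathlib
import Crest.Prelude.Def_CStarRep
import Crest.Agent.R089.HeatLaw
import Crest.Agent.R089.Model
import Crest.Agent.R089.GUEDefs
import Crest.Agent.R089.ChiStar

-- ▼ part R089/FisherSmall
section

/-! Small-noise Fisher bound (helper585): `Φ*(Q(a) + c b) ≤ ∑ 1/c i ^ 2`, hence
`MainSkel.fisher_le`. -/

set_option autoImplicit false
set_option linter.unusedSectionVars false

namespace Crest.Agent.R089

open Crest.OpAlg

section generic
variable {M : Type*} [AddCommGroup M] [Module ℂ M] {K : Type*} [DecidableEq K]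

theorem ann_foldr (R : M →ₗ[ℂ] M) (Z : K → M →ₗ[ℂ] M) (Om : M) (om : M →ₗ[ℂ] ℂ) (i : K) (c : ℂ)
    (h0 : R Om = 0)
    (h1 : ∀ j x, R (Z j x) = Z j (R x) + (if j = i then c * om x else 0) • Om) (w : List K) :
    R (w.foldr (fun j x => Z j x) Om) = ∑ k ∈ Finset.range w.length,
      if w[k]? = some i then (c * om ((w.drop (k + 1)).foldr (fun j x => Z j x) Om)) •
        ((w.take k).foldr (fun j x => Z j x) Om) else 0 := by
  induction w with
  | nil => simp [h0]
  | cons h w ih =>
    rw [List.foldr_cons, h1, ih, List.length_cons, Finset.sum_range_succ', map_sum]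
    congr 1
    · refine Finset.sum_congr rfl fun k _ => ?_
      by_cases hk : w[k]? = some i
      · simp [hk]
      · simp [hk]
    · by_cases hg : h = i
      · simp [hg]
      · simp [hg]

end generic

namespace SDStruct
variable {J : Type*} [DecidableEq J] {M : Type*} [AddCommGroup M] [Module ℂ M]

/-- Action of polynomials on the module of an `SDStruct`. -/
noncomputable def act (S : SDStruct J M) : MonoidAlgebra ℂ (FreeMonoid J) →ₐ[ℂ] Module.End ℂ M :=
  evalJ (fun j => (S.L j : Module.End ℂ M))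

theorem act_single (S : SDStruct J M) (w : FreeMonoid J) (c : ℂ) (x : M) :
    S.act (MonoidAlgebra.single w c) x =
      c • (FreeMonoid.toList w).foldr (fun j x => S.L j x) x := by
  unfold act
  rw [evalJ_single, LinearMap.smul_apply]
  congr 1
  generalize FreeMonoid.toList w = l
  induction l with
  | nil => simp
  | cons j l ih => rw [List.map_cons, List.prod_cons, Module.End.mul_apply, ih, List.foldr_cons]

end SDStruct

section noise
variable {k n : ℕ}

theorem R_inr_act_inl {M : Type*} [AddCommGroup M] [Module ℂ M]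
    (S : SDStruct (Fin k ⊕ Fin n) M) (i : Fin n) (Q : NCPoly k) (x : M) :
    S.R (Sum.inr i) (S.act (inlPoly (Fin n) Q) x) =
      S.act (inlPoly (Fin n) Q) (S.R (Sum.inr i) x) := by
  unfold inlPoly
  induction Q using MonoidAlgebra.induction_linear with
  | zero => simp
  | add P Q hP hQ => simp only [map_add, LinearMap.add_apply, hP, hQ]
  | single w c =>
    rw [evalJ_single, map_smul, LinearMap.smul_apply, LinearMap.smul_apply, map_smul]
    congr 1
    generalize FreeMonoid.toList w = l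
    induction l with
    | nil => simp
    | cons j l ih =>
      rw [List.map_cons, List.prod_cons, map_mul, Module.End.mul_apply, Module.End.mul_apply,
        SDStruct.act_single, SDStruct.act_single]
      simp only [one_smul, FreeMonoid.toList_of, List.foldr_cons, List.foldr_nil]
      rw [S.R_L, ih]
      simp

/-- Operator of the noisy coordinate. -/
noncomputable def zop {M : Type*} [AddCommGroup M] [Module ℂ M]
    (S : SDStruct (Fin k ⊕ Fin n) M) (Q : Fin n → NCPoly k) (c : Fin n → ℝ) (j : Fin n) :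
    M →ₗ[ℂ] M :=
  S.act (inlPoly (Fin n) (Q j) + (c j : ℂ) • MonoidAlgebra.single (FreeMonoid.of (Sum.inr j)) (1 : ℂ))

theorem R_zop {M : Type*} [AddCommGroup M] [Module ℂ M]
    (S : SDStruct (Fin k ⊕ Fin n) M) (Q : Fin n → NCPoly k) (c : Fin n → ℝ) (i j : Fin n) (x : M) :
    S.R (Sum.inr i) (zop S Q c j x) = zop S Q c j (S.R (Sum.inr i) x) +
      (if j = i then (c i : ℂ) * S.om x else 0) • S.Om := by
  unfold zop
  rw [map_add, map_smul, LinearMap.add_apply, LinearMap.add_apply, map_add, R_inr_act_inl,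
    LinearMap.smul_apply, LinearMap.smul_apply, map_smul, SDStruct.act_single,
    SDStruct.act_single]
  simp only [one_smul, FreeMonoid.toList_of, List.foldr_cons, List.foldr_nil]
  rw [S.R_L, smul_add, smul_smul, add_assoc]
  congr 2
  by_cases h : j = i
  · simp [h]
  · simp [h]

variable {A : Type*} [Ring A] [Algebra ℂ A]

/-- Evaluation map of the free structure. -/
noncomputable def evList {J : Type*} (u : J → A) : (List J →₀ ℂ) →ₗ[ℂ] A :=
  Finsupp.linearCombination ℂ (fun w => (w.map u).prod)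

theorem evList_L {J : Type*} [DecidableEq J] (u : J → A) {φ : List J → ℝ} (hφ : IsSD φ) (j : J)
    (x : List J →₀ ℂ) : evList u ((SDStruct.free hφ).L j x) = u j * evList u x := by
  induction x using Finsupp.induction_linear with
  | zero => simp
  | add x y hx hy => simp only [map_add, hx, hy, mul_add]
  | single w a =>
    simp only [evList, SDStruct.free, Finsupp.lmapDomain_apply, Finsupp.mapDomain_single,
      Finsupp.linearCombination_single, List.map_cons, List.prod_cons, mul_smul_comm]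

theorem evList_act {J : Type*} [DecidableEq J] (u : J → A) {φ : List J → ℝ} (hφ : IsSD φ)
    (P : MonoidAlgebra ℂ (FreeMonoid J)) (x : List J →₀ ℂ) :
    evList u ((SDStruct.free hφ).act P x) = evalJ u P * evList u x := by
  induction P using MonoidAlgebra.induction_linear with
  | zero => simp
  | add P Q hP hQ => simp only [map_add, LinearMap.add_apply, hP, hQ, add_mul]
  | single w c =>
    rw [SDStruct.act_single, evalJ_single, map_smul, smul_mul_assoc]
    congr 1
    generalize FreeMonoid.toList w = l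
    induction l with
    | nil => simp
    | cons j l ih => rw [List.foldr_cons, evList_L, ih, List.map_cons, List.prod_cons, mul_assoc]

theorem trace_evList {J : Type*} [DecidableEq J] (τ : A →ₗ[ℂ] ℂ) (u : J → A) {φ : List J → ℝ}
    (hφ : IsSD φ) (hτ : ∀ w : List J, τ ((w.map u).prod) = (φ w : ℂ)) (x : List J →₀ ℂ) :
    τ (evList u x) = (SDStruct.free hφ).om x := by
  induction x using Finsupp.induction_linear with
  | zero => simp
  | add x y hx hy => simp only [map_add, hx, hy]
  | single w a =>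
    simp only [evList, SDStruct.free, Finsupp.linearCombination_single, map_smul, hτ]

/-- Schwinger-Dyson relation for noisy tuples: `τ(b i · Z_w) = c i · (τ ⊗ τ)(∂ᵢ w (Z))`. -/
theorem trace_noise_word (τ : A →ₗ[ℂ] ℂ) (a : Fin k → A) (b : Fin n → A)
    {ψ : List (Fin k ⊕ Fin n) → ℝ} (hψ : IsSD ψ)
    (hτ : ∀ w : List (Fin k ⊕ Fin n), τ ((w.map (Sum.elim a b)).prod) = (ψ w : ℂ))
    (Q : Fin n → NCPoly k) (c : Fin n → ℝ) (i : Fin n) (w : FreeMonoid (Fin n)) :
    τ (b i * wordEval (fun i => polyEval a (Q i) + (c i : ℂ) • b i) w) =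
      (c i : ℂ) * splitWord τ (fun i => polyEval a (Q i) + (c i : ℂ) • b i) i w := by
  set u := Sum.elim a b with hu
  set S := SDStruct.free hψ with hS
  set Z : Fin n → A := fun i => polyEval a (Q i) + (c i : ℂ) • b i with hZ
  have hev : ∀ l : List (Fin n), evList u (l.foldr (fun j x => zop S Q c j x) S.Om) =
      (l.map Z).prod := by
    intro l
    induction l with
    | nil =>
      have : S.Om = Finsupp.single [] 1 := rfl
      simp [this, evList]
    | cons j l ih =>
      rw [List.foldr_cons, List.map_cons, List.prod_cons, ← ih]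
      unfold zop
      rw [hS, evList_act]
      congr 1
      rw [hZ, map_add, hu, evalJ_inlPoly, map_smul, evalJ_single]
      simp
  have hom : ∀ l : List (Fin n), S.om (l.foldr (fun j x => zop S Q c j x) S.Om) =
      τ (wordEval Z (FreeMonoid.toList.symm l)) := by
    intro l
    rw [wordEval_eq_prod, Equiv.apply_symm_apply, ← hev, trace_evList τ u hψ hτ]
  have h1 : τ (b i * wordEval Z w) = S.om (S.L (Sum.inr i)
      ((FreeMonoid.toList w).foldr (fun j x => zop S Q c j x) S.Om)) := by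
    rw [← trace_evList τ u hψ hτ, evList_L, hev, wordEval_eq_prod]
    rfl
  rw [h1, S.om_L, ann_foldr (S.R (Sum.inr i)) (zop S Q c) S.Om S.om i (c i : ℂ) (S.R_Om _)
    (fun j x => R_zop S Q c i j x), map_sum, splitWord, Finset.mul_sum]
  refine Finset.sum_congr rfl fun m _ => ?_
  split_ifs
  · rw [map_smul, smul_eq_mul, hom, hom]
    ring
  · simp

/-- Polynomial version of the Schwinger-Dyson relation. -/
theorem trace_noise_poly (τ : A →ₗ[ℂ] ℂ) (a : Fin k → A) (b : Fin n → A)
    {ψ : List (Fin k ⊕ Fin n) → ℝ} (hψ : IsSD ψ)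
    (hτ : ∀ w : List (Fin k ⊕ Fin n), τ ((w.map (Sum.elim a b)).prod) = (ψ w : ℂ))
    (Q : Fin n → NCPoly k) (c : Fin n → ℝ) (i : Fin n) (P : NCPoly n) :
    τ (b i * polyEval (fun i => polyEval a (Q i) + (c i : ℂ) • b i) P) =
      (c i : ℂ) * splitPairing τ (fun i => polyEval a (Q i) + (c i : ℂ) • b i) i P := by
  rw [polyEval_eq_sum, splitPairing_eq_sum, Finsupp.sum, Finsupp.sum, Finset.mul_sum, map_sum,
    Finset.mul_sum]
  refine Finset.sum_congr rfl fun w _ => ?_
  rw [mul_smul_comm, map_smul, trace_noise_word τ a b hψ hτ, smul_eq_mul]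
  ring

end noise

section bound
variable {A : Type*} [Ring A] [Algebra ℂ A] [StarRing A] [StarModule ℂ A] {k n : ℕ}

/-- Small-noise Fisher bound. -/
theorem freeFisher_noisy_le (τ : A →ₗ[ℂ] ℂ) (htr : ∀ x y : A, τ (x * y) = τ (y * x))
    (hpos : ∀ x : A, 0 ≤ (τ (star x * x)).re) (a : Fin k → A) (b : Fin n → A)
    (hb : ∀ i, IsSelfAdjoint (b i))
    {ψ : List (Fin k ⊕ Fin n) → ℝ} (hψ : IsSD ψ)
    (hτ : ∀ w : List (Fin k ⊕ Fin n), τ ((w.map (Sum.elim a b)).prod) = (ψ w : ℂ))
    (Q : Fin n → NCPoly k) (c : Fin n → ℝ) (hc : ∀ i, 0 < c i)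
    (hZ : ∀ i, IsSelfAdjoint (polyEval a (Q i) + (c i : ℂ) • b i)) :
    freeFisher τ (fun i => polyEval a (Q i) + (c i : ℂ) • b i) ≤
      ENNReal.ofReal (∑ i, 1 / (c i) ^ 2) := by
  refine freeFisher_le_of_forall τ _ _ fun i P hP => ?_
  set Z : Fin n → A := fun i => polyEval a (Q i) + (c i : ℂ) • b i with hZdef
  set p := polyEval Z P with hp
  have hsa : IsSelfAdjoint p := isSelfAdjoint_polyEval Z hZ P hP
  have h1 : τ (b i * p) = (c i : ℂ) * splitPairing τ Z i P := trace_noise_poly τ a b hψ hτ Q c i P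
  have h2 : τ (p * b i) = (c i : ℂ) * splitPairing τ Z i P := by rw [htr, h1]
  have h3 : τ (b i * b i) = 1 := trace_noise_sq τ a b hψ hτ i
  set e : ℝ := (c i)⁻¹ with he
  have hce : (c i) * e = 1 := mul_inv_cancel₀ (hc i).ne'
  have hceC : (c i : ℂ) * (e : ℂ) = 1 := by exact_mod_cast hce
  have h4 := hpos ((e : ℂ) • b i - p)
  have h5 : star ((e : ℂ) • b i - p) = (e : ℂ) • b i - p := by
    rw [star_sub, star_smul, (hb i).star_eq, hsa.star_eq]
    simp
  rw [h5, sub_mul, mul_sub, mul_sub, smul_mul_smul_comm, smul_mul_assoc, mul_smul_comm, map_sub,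
    map_sub, map_sub, map_smul, map_smul, map_smul, h1, h2, h3] at h4
  have h6 : ((e : ℂ) • ((c i : ℂ) * splitPairing τ Z i P)) = splitPairing τ Z i P := by
    rw [smul_eq_mul, ← mul_assoc, mul_comm (e : ℂ), hceC, one_mul]
  rw [h6] at h4
  have h7 : (((e : ℂ) * (e : ℂ)) • (1 : ℂ)).re = 1 / (c i) ^ 2 := by
    rw [smul_eq_mul, mul_one, ← Complex.ofReal_mul, Complex.ofReal_re, he, one_div, pow_two,
      mul_inv]
  simp only [Complex.sub_re] at h4 ⊢
  rw [h7] at h4
  have h8 : (2 * splitPairing τ Z i P).re = 2 * (splitPairing τ Z i P).re := by simp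
  rw [h8]
  linarith

end bound

section model

open Crest.Agent.R089.Model

theorem polyStar_add {n : ℕ} (P Q : NCPoly n) : polyStar (P + Q) = polyStar P + polyStar Q := by
  unfold polyStar
  rw [MonoidAlgebra.coeff_add]
  refine Finsupp.sum_add_index' (fun w => ?_) (fun w a b => ?_)
  · simp
  · rw [map_add]
    simp [MonoidAlgebra.single_add]

theorem polyStar_single {n : ℕ} (w : FreeMonoid (Fin n)) (c : ℂ) :
    polyStar (MonoidAlgebra.single w c : NCPoly n) =
      MonoidAlgebra.single (FreeMonoid.toList.symm (FreeMonoid.toList w).reverse)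
        (starRingEnd ℂ c) := by
  unfold polyStar
  simp

theorem polyStar_cubic {k : ℕ} (x y z : Fin k) : polyStar (cubic x y z) = cubic x y z := by
  unfold cubic
  rw [smul_add, MonoidAlgebra.smul_single, MonoidAlgebra.smul_single, polyStar_add,
    polyStar_single, polyStar_single, add_comm]
  congr 1
  · congr 1
    simp
  · congr 1
    simp

theorem polyStar_QQ (r : ℕ) (i : Fin (nn r)) : polyStar (QQ r i) = QQ r i := by
  unfold QQ
  rcases (ei r).symm i with h | ⟨a, b, c⟩
  · simp only [Qi]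
    rw [polyStar_single]
    simp
  · exact polyStar_cubic _ _ _

theorem delt_pos (r : ℕ) (d : ℝ) (hd : 0 < d) (i : Fin (nn r)) : 0 < delt r d i := by
  unfold delt
  rcases (ei r).symm i with h | h
  · exact hd
  · norm_num

/-- (T4) small-noise Fisher bound for the concrete model. -/
theorem fisher_le (r : ℕ) (d : ℝ) (hd : 0 < d) {A : Type} [CStarAlgebra A]
    (τ : A →ₗ[ℂ] ℂ) (s : Jx r → A) (φ : List (Jx r) → ℝ) (h : IsModel τ s φ)
    (t : ℝ) (ht : 0 < t) :
    freeFisher τ (heatTuple (XX r d s) (SS r s) t) ≤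
      ENNReal.ofReal (∑ i, 1 / (delt r d i + t)) := by
  obtain ⟨⟨-, hpos, -, htr⟩, hsa, hsd, hmom⟩ := h
  set a : Fin (kk r) → A := fun j => s (Sum.inl (Sum.inl j)) with ha
  set b : Fin (nn r) → A := fun j => s (Sum.inl (Sum.inr j)) with hb
  set c : Fin (nn r) → A := fun j => s (Sum.inr j) with hc
  let e : (Fin (kk r) ⊕ Fin (nn r) ⊕ Fin (nn r)) ≃ Jx r :=
    (Equiv.sumAssoc (Fin (kk r)) (Fin (nn r)) (Fin (nn r))).symm
  have hφ' : IsSD (fun w : List (Fin (kk r) ⊕ Fin (nn r) ⊕ Fin (nn r)) => φ (w.map e)) :=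
    hsd.comap e e.injective
  have hτ' : ∀ w : List (Fin (kk r) ⊕ Fin (nn r) ⊕ Fin (nn r)),
      τ ((w.map (Sum.elim a (Sum.elim b c))).prod) = ((φ (w.map e) : ℝ) : ℂ) := by
    intro w
    rw [← hmom, List.map_map]
    congr 3
    funext x
    rcases x with x | x | x <;> rfl
  have hδ := delt_pos r d hd
  have hs : ∀ i, 0 < delt r d i + t := fun i => add_pos (hδ i) ht
  have hψ := isSD_sdFun (Fin (kk r) ⊕ Fin (nn r))
  have hlaw := combNoise_law τ a b c hφ' hτ' (delt r d) hδ t ht.le hψ
  have heq : heatTuple (XX r d s) (SS r s) t =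
      fun i => polyEval a (QQ r i) + (Real.sqrt (delt r d i + t) : ℂ) •
        combNoise b c (delt r d) t i :=
    heatTuple_eq a b c (QQ r) (delt r d) hδ t ht.le
  have hbs : ∀ i, IsSelfAdjoint (combNoise b c (delt r d) t i) := by
    intro i
    unfold combNoise
    refine IsSelfAdjoint.add ?_ ?_
    · exact IsSelfAdjoint.smul (by simp [isSelfAdjoint_iff]) (hsa _)
    · exact IsSelfAdjoint.smul (by simp [isSelfAdjoint_iff]) (hsa _)
  rw [heq]
  have hbound := freeFisher_noisy_le τ htr (fun x => (hpos x).2) a (combNoise b c (delt r d) t) hbs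
    hψ hlaw (QQ r) (fun i => Real.sqrt (delt r d i + t)) (fun i => Real.sqrt_pos.mpr (hs i))
    (fun i => IsSelfAdjoint.add
      (isSelfAdjoint_polyEval a (fun j => hsa _) (QQ r i) (polyStar_QQ r i))
      (IsSelfAdjoint.smul (by simp [isSelfAdjoint_iff]) (hbs i)))
  refine hbound.trans (le_of_eq ?_)
  congr 1
  refine Finset.sum_congr rfl fun i _ => ?_
  rw [Real.sq_sqrt (hs i).le]

end model

end Crest.Agent.R089
end

-- ▼ part R089/GUEDensity
section

/-! G3a: density bound (helper952). -/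

set_option autoImplicit false

open MeasureTheory ProbabilityTheory Filter Topology
open Crest.OpAlg
open scoped ENNReal NNReal

namespace Crest.Agent.R089

theorem pi_le_smul_pi {ι : Type*} [Fintype ι] {α : ι → Type*} [∀ i, MeasurableSpace (α i)]
    (μ ν : ∀ i, Measure (α i)) [∀ i, SigmaFinite (μ i)] [∀ i, SigmaFinite (ν i)]
    (c : ι → ℝ≥0∞) (hc : ∀ i, c i ≠ ∞)
    (h : ∀ i, μ i ≤ c i • ν i) : Measure.pi μ ≤ (∏ i, c i) • Measure.pi ν := by
  have hsf : ∀ i, SigmaFinite (c i • ν i) := fun i => by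
    have hci := (ENNReal.coe_toNNReal (hc i)).symm
    rw [hci]
    exact inferInstanceAs (SigmaFinite ((c i).toNNReal • ν i))
  have h1 : Measure.pi (fun i => c i • ν i) = (∏ i, c i) • Measure.pi ν := by
    symm
    have := hsf
    refine (Measure.pi_eq fun s hs => ?_).symm
    simp [Measure.pi_pi, Finset.prod_mul_distrib]
  rw [← h1]
  have h2 : (Measure.pi μ).toOuterMeasure ≤
      OuterMeasure.pi (fun i => (c i • ν i).toOuterMeasure) := by
    rw [OuterMeasure.le_pi]
    intro s _
    have := Measure.pi_pi μ s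
    calc (Measure.pi μ).toOuterMeasure (Set.pi Set.univ s) = ∏ i, μ i (s i) := this
      _ ≤ ∏ i, (c i • ν i) (s i) := Finset.prod_le_prod' fun i _ => h i (s i)
  refine Measure.le_iff.mpr fun s hs => ?_
  calc Measure.pi μ s ≤ OuterMeasure.pi (fun i => (c i • ν i).toOuterMeasure) s := h2 s
    _ = Measure.pi (fun i => c i • ν i) s := by
        rw [Measure.pi, toMeasure_apply _ _ hs]

theorem gaussianReal_le_smul (m : ℝ) (v : ℝ≥0) (hv : v ≠ 0) :
    gaussianReal m v ≤ ENNReal.ofReal ((Real.sqrt (2 * Real.pi * v))⁻¹) • (volume : Measure ℝ) := by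
  rw [gaussianReal_of_var_ne_zero m hv]
  rw [← withDensity_const]
  apply withDensity_mono
  refine Eventually.of_forall fun x => ?_
  rw [gaussianPDF, gaussianPDFReal]
  apply ENNReal.ofReal_le_ofReal
  have h1 : Real.exp (-(x - m) ^ 2 / (2 * v)) ≤ 1 := by
    rw [Real.exp_le_one_iff]
    have : (0:ℝ) ≤ v := v.2
    have h3 : 0 ≤ (x - m) ^ 2 / (2 * v) := by positivity
    rw [neg_div]; linarith
  have h2 : 0 ≤ (Real.sqrt (2 * Real.pi * v))⁻¹ := by positivity
  calc _ ≤ (Real.sqrt (2 * Real.pi * v))⁻¹ * 1 := by gcongr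
    _ = _ := mul_one _

/-- merging letter and noise coordinates -/
def mergeCoords {K N P : Type*} (z : (K × P → ℝ) × (N × P → ℝ)) : (K ⊕ N) × P → ℝ :=
  fun q => Sum.elim (fun k => z.1 (k, q.2)) (fun i => z.2 (i, q.2)) q.1

theorem measurePreserving_mergeCoords {K N P : Type*} [Fintype K] [Fintype N] [Fintype P]
    (μ : Measure ℝ) [SigmaFinite μ] :
    MeasurePreserving (mergeCoords (K := K) (N := N) (P := P))
      ((Measure.pi fun _ => μ).prod (Measure.pi fun _ => μ)) (Measure.pi fun _ => μ) := by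
  have hm : Measurable (mergeCoords (K := K) (N := N) (P := P)) := by
    refine measurable_pi_lambda _ fun q => ?_
    rcases q with ⟨q | q, p⟩
    · exact (measurable_pi_apply (q, p)).comp measurable_fst
    · exact (measurable_pi_apply (q, p)).comp measurable_snd
  refine ⟨hm, (Measure.pi_eq fun s hs => ?_).symm⟩
  rw [Measure.map_apply hm (MeasurableSet.univ_pi hs)]
  have : mergeCoords ⁻¹' (Set.pi Set.univ s) =
      (Set.pi Set.univ fun q : K × P => s (Sum.inl q.1, q.2)) ×ˢ
      (Set.pi Set.univ fun q : N × P => s (Sum.inr q.1, q.2)) := by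
    ext z
    simp only [Set.mem_preimage, Set.mem_pi, Set.mem_univ, true_implies, Set.mem_prod,
      mergeCoords, Prod.forall, Sum.forall, Sum.elim_inl, Sum.elim_inr]
  rw [this, Measure.prod_prod, Measure.pi_pi, Measure.pi_pi]
  simp [Fintype.prod_prod_type, Fintype.prod_sum_type]

theorem affine_map_le {N P : Type*} [Fintype N] [Fintype P] (v : ℝ≥0) (hv : v ≠ 0) (δ : N → ℝ)
    (hδ : ∀ i, 0 < δ i) (b : N × P → ℝ) (S : Set (N × P → ℝ)) (hS : MeasurableSet S) :
    (Measure.pi fun _ : N × P => gaussianReal 0 v)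
      {y | (fun p : N × P => b p + Real.sqrt (δ p.1) * y p) ∈ S} ≤
      ENNReal.ofReal (∏ i, ((Real.sqrt (2 * Real.pi * (δ i * v)))⁻¹) ^ (Fintype.card P)) *
        volume S := by
  have hf : ∀ p : N × P, Measurable (fun t : ℝ => b p + Real.sqrt (δ p.1) * t) := fun p => by
    fun_prop
  have hmap : ∀ p : N × P, (gaussianReal 0 v).map (fun t : ℝ => b p + Real.sqrt (δ p.1) * t) =
      gaussianReal (b p) (⟨δ p.1, (hδ p.1).le⟩ * v) := fun p => by
    have : (fun t : ℝ => b p + Real.sqrt (δ p.1) * t) =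
        (fun t => b p + t) ∘ (fun t => Real.sqrt (δ p.1) * t) := rfl
    rw [this, ← Measure.map_map (by fun_prop) (by fun_prop), gaussianReal_map_const_mul,
      gaussianReal_map_const_add]
    congr 1
    · simp
    · congr 1
      ext
      simp only [NNReal.coe_mk]
      exact Real.sq_sqrt (hδ p.1).le
  have h1 : (Measure.pi fun _ : N × P => gaussianReal 0 v)
      {y | (fun p : N × P => b p + Real.sqrt (δ p.1) * y p) ∈ S} =
      (Measure.pi fun p : N × P => gaussianReal (b p) (⟨δ p.1, (hδ p.1).le⟩ * v)) S := by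
    have h2 := Measure.pi_map_pi (μ := fun _ : N × P => gaussianReal 0 v)
      (f := fun (p : N × P) (t : ℝ) => b p + Real.sqrt (δ p.1) * t)
      (hμ := fun p => by rw [hmap p]; infer_instance)
      (fun p => (hf p).aemeasurable)
    simp_rw [hmap] at h2
    rw [← h2, Measure.map_apply _ hS]
    · rfl
    · exact measurable_pi_lambda _ fun p => (hf p).comp (measurable_pi_apply p)
  rw [h1]
  have hv' : ∀ p : N × P, (⟨δ p.1, (hδ p.1).le⟩ * v : ℝ≥0) ≠ 0 := fun p => by
    apply mul_ne_zero _ hv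
    intro h
    exact (hδ p.1).ne' (congrArg NNReal.toReal h)
  have h3 := pi_le_smul_pi (fun p : N × P => gaussianReal (b p) (⟨δ p.1, (hδ p.1).le⟩ * v))
    (fun _ => (volume : Measure ℝ))
    (fun p => ENNReal.ofReal ((Real.sqrt (2 * Real.pi * (⟨δ p.1, (hδ p.1).le⟩ * v : ℝ≥0)))⁻¹))
    (fun p => ENNReal.ofReal_ne_top)
    (fun p => gaussianReal_le_smul (b p) _ (hv' p))
  refine (h3 S).trans ?_
  rw [Measure.smul_apply, smul_eq_mul, ← volume_pi]
  gcongr
  rw [← ENNReal.ofReal_prod_of_nonneg (fun _ _ => by positivity)]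
  apply ENNReal.ofReal_le_ofReal
  rw [Fintype.prod_prod_type]
  apply le_of_eq
  refine Finset.prod_congr rfl fun i _ => ?_
  have hcoe : ((HMul.hMul (α := ℝ≥0) (β := ℝ≥0) (γ := ℝ≥0) ⟨δ i, (hδ i).le⟩ v : ℝ≥0) : ℝ) =
      δ i * v := rfl
  simp only [hcoe, Finset.prod_const, Finset.card_univ]

/-- (G3a) density bound: the law of `b(letters) + √δ · noise` has density at most
`∏ (2 π δ_i / d)^(-d²/2)`. -/
theorem gue_density_bound {K : Type*} [Fintype K] {n d : ℕ} (hd : 0 < d) (δ : Fin n → ℝ)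
    (hδ : ∀ i, 0 < δ i)
    (b : (K × (Fin d × Fin d) → ℝ) → (Fin n × (Fin d × Fin d) → ℝ)) (hb : Measurable b)
    (Γ : Set (EuclideanSpace ℝ (Fin n × (Fin d × Fin d)))) :
    gueMeasure (K ⊕ Fin n) d {ω | WithLp.toLp 2 (fun p : Fin n × (Fin d × Fin d) =>
        b (fun q => ω (Sum.inl q.1, q.2)) p + Real.sqrt (δ p.1) * ω (Sum.inr p.1, p.2)) ∈ Γ} ≤
      ENNReal.ofReal (∏ i, ((Real.sqrt (2 * Real.pi * δ i / d))⁻¹) ^ (d ^ 2)) * volume Γ := by
  classical
  set v : ℝ≥0 := (d : ℝ≥0)⁻¹ with hv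
  have hv0 : v ≠ 0 := by
    rw [hv]; apply inv_ne_zero; exact_mod_cast hd.ne'
  set Γ' := toMeasurable (volume : Measure (EuclideanSpace ℝ (Fin n × (Fin d × Fin d)))) Γ with hΓ'
  have hΓm : MeasurableSet Γ' := measurableSet_toMeasurable _ _
  set S : Set (Fin n × (Fin d × Fin d) → ℝ) := (WithLp.toLp 2) ⁻¹' Γ' with hS
  have htm : MeasurePreserving (WithLp.toLp 2 : (Fin n × (Fin d × Fin d) → ℝ) →
      EuclideanSpace ℝ (Fin n × (Fin d × Fin d))) volume volume :=
    PiLp.volume_preserving_toLp _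
  have hSm : MeasurableSet S := htm.measurable hΓm
  have hvolS : volume S = volume Γ := by
    rw [hS, htm.measure_preimage hΓm.nullMeasurableSet, hΓ', measure_toMeasurable]
  set T : Set ((K ⊕ Fin n) × (Fin d × Fin d) → ℝ) :=
    {ω | (fun p : Fin n × (Fin d × Fin d) =>
        b (fun q => ω (Sum.inl q.1, q.2)) p + Real.sqrt (δ p.1) * ω (Sum.inr p.1, p.2)) ∈ S}
    with hT
  have hmeasf : Measurable (fun (ω : (K ⊕ Fin n) × (Fin d × Fin d) → ℝ)
      (p : Fin n × (Fin d × Fin d)) => b (fun q => ω (Sum.inl q.1, q.2)) p +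
        Real.sqrt (δ p.1) * ω (Sum.inr p.1, p.2)) := by
    refine measurable_pi_lambda _ fun p => ?_
    refine Measurable.add ?_ ?_
    · refine (measurable_pi_apply p).comp (hb.comp ?_)
      exact measurable_pi_lambda _ fun q => measurable_pi_apply _
    · exact (measurable_pi_apply _).const_mul _
  have hTm : MeasurableSet T := hmeasf hSm
  calc gueMeasure (K ⊕ Fin n) d {ω | WithLp.toLp 2 (fun p : Fin n × (Fin d × Fin d) =>
        b (fun q => ω (Sum.inl q.1, q.2)) p + Real.sqrt (δ p.1) * ω (Sum.inr p.1, p.2)) ∈ Γ}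
      ≤ gueMeasure (K ⊕ Fin n) d T := by
        apply measure_mono
        intro ω hω
        exact subset_toMeasurable _ _ hω
    _ = ((Measure.pi fun _ : K × (Fin d × Fin d) => gaussianReal 0 v).prod
          (Measure.pi fun _ : Fin n × (Fin d × Fin d) => gaussianReal 0 v))
          (mergeCoords ⁻¹' T) := by
        rw [(measurePreserving_mergeCoords (gaussianReal 0 v)).measure_preimage
          hTm.nullMeasurableSet]
        rfl
    _ = ∫⁻ x, (Measure.pi fun _ : Fin n × (Fin d × Fin d) => gaussianReal 0 v)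
          (Prod.mk x ⁻¹' (mergeCoords ⁻¹' T))
          ∂(Measure.pi fun _ : K × (Fin d × Fin d) => gaussianReal 0 v) := by
        rw [Measure.prod_apply]
        exact (measurePreserving_mergeCoords (gaussianReal 0 v)).measurable hTm
    _ ≤ ∫⁻ _x, ENNReal.ofReal (∏ i, ((Real.sqrt (2 * Real.pi * (δ i * v)))⁻¹) ^
            (Fintype.card (Fin d × Fin d))) * volume S
          ∂(Measure.pi fun _ : K × (Fin d × Fin d) => gaussianReal 0 v) := by
        apply lintegral_mono
        intro x
        exact affine_map_le v hv0 δ hδ (b x) S hSm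
    _ = _ := by
        rw [lintegral_const, measure_univ, mul_one, hvolS]
        congr 2
        simp only [Fintype.card_prod, Fintype.card_fin, hv]
        refine Finset.prod_congr rfl fun i _ => ?_
        rw [pow_two]
        congr 3
        push_cast
        ring

end Crest.Agent.R089
end

-- ▼ part R089/GUEVolume
section

/-! G3: density bound and `EReal` bookkeeping (helper952). -/

set_option autoImplicit false

open MeasureTheory ProbabilityTheory Filter Topology
open Crest.OpAlg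
open scoped ENNReal NNReal

namespace Crest.Agent.R089

/-- (G3b) `EReal` bookkeeping: a uniform volume lower bound for the microstate sets gives
`χ > -∞`. -/
theorem bot_lt_chi_of_volume {A : Type*} [Ring A] [Algebra ℂ A] (τ : A →ₗ[ℂ] ℂ) {n : ℕ}
    (X : Fin n → A) (δ : Fin n → ℝ) (hδ : ∀ i, 0 < δ i) (R : ℝ) (hR : 0 < R)
    (h : ∀ (m : ℕ) (ε : ℝ), 0 < ε → ∀ᶠ d : ℕ in atTop,
      (1 / 2 : ℝ≥0∞) ≤ ENNReal.ofReal (∏ i, ((Real.sqrt (2 * Real.pi * δ i / d))⁻¹) ^ (d ^ 2)) *
        volume (microstates τ X R m d ε)) :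
    ⊥ < chi τ X := by
  set κ : ℝ := -Real.log 2 + ∑ i, (1 / 2) * Real.log (2 * Real.pi * δ i) with hκ
  have key : (κ : EReal) ≤ chiCutoff τ X R := by
    unfold chiCutoff
    refine le_iInf fun m => le_iInf fun ε => le_iInf fun hε => ?_
    apply Filter.le_limsup_of_frequently_le'
    apply Eventually.frequently
    filter_upwards [h m ε hε, eventually_ge_atTop 1] with d hd hd1
    have hd0 : (0 : ℝ) < d := by exact_mod_cast hd1
    set c : ℝ := ∏ i, ((Real.sqrt (2 * Real.pi * δ i / d))⁻¹) ^ (d ^ 2) with hc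
    have hpos : ∀ i, 0 < 2 * Real.pi * δ i / d := fun i => by
      have := hδ i; have := Real.pi_pos; positivity
    have hc0 : 0 < c := by
      rw [hc]; apply Finset.prod_pos; intro i _
      have := Real.sqrt_pos.mpr (hpos i); positivity
    have hvol : ENNReal.ofReal (c⁻¹ / 2) ≤ volume (microstates τ X R m d ε) := by
      have h1 : ENNReal.ofReal (c⁻¹ / 2) = ENNReal.ofReal c⁻¹ * (1 / 2) := by
        rw [div_eq_mul_inv, ENNReal.ofReal_mul (by positivity)]
        congr 1
        rw [ENNReal.ofReal_inv_of_pos (by norm_num)]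
        simp
      rw [h1]
      calc ENNReal.ofReal c⁻¹ * (1 / 2)
          ≤ ENNReal.ofReal c⁻¹ * (ENNReal.ofReal c * volume (microstates τ X R m d ε)) := by
            gcongr
        _ = volume (microstates τ X R m d ε) := by
            rw [← mul_assoc, ← ENNReal.ofReal_mul (by positivity), inv_mul_cancel₀ hc0.ne']
            simp
    have hlog : ((Real.log (c⁻¹ / 2) : ℝ) : EReal) ≤
        (volume (microstates τ X R m d ε)).log := by
      rw [← ENNReal.log_ofReal_of_pos (by positivity)]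
      exact ENNReal.log_le_log hvol
    have hval : Real.log (c⁻¹ / 2) = (d : ℝ) ^ 2 * (∑ i, (1 / 2) * Real.log (2 * Real.pi * δ i)
        - (n : ℝ) / 2 * Real.log d) - Real.log 2 := by
      rw [Real.log_div (by positivity) (by norm_num), Real.log_inv, hc, Real.log_prod]
      · have : ∀ i : Fin n, Real.log (((Real.sqrt (2 * Real.pi * δ i / d))⁻¹) ^ (d ^ 2)) =
            - ((d : ℝ) ^ 2 * ((1 / 2) * Real.log (2 * Real.pi * δ i) - 1 / 2 * Real.log d)) := by
          intro i
          rw [Real.log_pow, Real.log_inv, Real.log_sqrt (hpos i).le,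
            Real.log_div (by have := hδ i; have := Real.pi_pos; positivity) hd0.ne']
          push_cast
          ring
        simp_rw [this]
        rw [Finset.sum_neg_distrib, ← Finset.mul_sum, Finset.sum_sub_distrib]
        simp only [Finset.sum_const, Finset.card_univ, Fintype.card_fin, nsmul_eq_mul]
        ring
      · intro i _
        have := Real.sqrt_pos.mpr (hpos i); positivity
    have hcoef : (0 : EReal) ≤ ((((d : ℝ) ^ 2)⁻¹ : ℝ) : EReal) := by
      exact_mod_cast (by positivity : (0:ℝ) ≤ ((d : ℝ) ^ 2)⁻¹)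
    calc (κ : EReal) ≤ (((((d : ℝ) ^ 2)⁻¹) * Real.log (c⁻¹ / 2) + (n : ℝ) / 2 * Real.log d : ℝ) : EReal) := by
          rw [EReal.coe_le_coe_iff, hval, mul_sub, ← mul_assoc, inv_mul_cancel₀ (by positivity), hκ]
          have h2 : ((d : ℝ) ^ 2)⁻¹ * Real.log 2 ≤ Real.log 2 := by
            have : ((d : ℝ) ^ 2)⁻¹ ≤ 1 := by
              apply inv_le_one_of_one_le₀
              have : (1 : ℝ) ≤ d := by exact_mod_cast hd1
              nlinarith
            have hl : 0 < Real.log 2 := Real.log_pos (by norm_num)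
            nlinarith
          linarith
      _ = ((((d : ℝ) ^ 2)⁻¹ : ℝ) : EReal) * ((Real.log (c⁻¹ / 2) : ℝ) : EReal) +
            (((n : ℝ) / 2 * Real.log d : ℝ) : EReal) := by
          rw [EReal.coe_add, EReal.coe_mul]
      _ ≤ _ := by
          gcongr
  calc (⊥ : EReal) < (κ : EReal) := EReal.bot_lt_coe κ
    _ ≤ chiCutoff τ X R := key
    _ ≤ chi τ X := by
        unfold chi
        exact le_iSup₂_of_le R hR le_rfl

end Crest.Agent.R089
end

-- ▼ part R089/GUEMain

/-! G4: assembly of the microstates lower bound from G1 and G2 (helper952). -/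

set_option autoImplicit false

open MeasureTheory ProbabilityTheory Filter Topology
open Crest.OpAlg
open scoped ENNReal NNReal

namespace Crest.Agent.R089.GUEMain

section coords
variable {d : ℕ}

theorem hermitianOfCoords_add (a b : EuclideanSpace ℝ (Fin d × Fin d)) :
    hermitianOfCoords (a + b) = hermitianOfCoords a + hermitianOfCoords b := by
  ext i j
  simp only [hermitianOfCoords, Matrix.add_apply, PiLp.add_apply]
  split_ifs <;> push_cast <;> ring

theorem hermitianOfCoords_smul (c : ℝ) (a : EuclideanSpace ℝ (Fin d × Fin d)) :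
    hermitianOfCoords (c • a) = (c : ℂ) • hermitianOfCoords a := by
  ext i j
  simp only [hermitianOfCoords, Matrix.smul_apply, PiLp.smul_apply, smul_eq_mul]
  split_ifs <;> push_cast <;> ring

theorem isHermitian_hermitianOfCoords (a : EuclideanSpace ℝ (Fin d × Fin d)) :
    (hermitianOfCoords a).IsHermitian := by
  ext i j
  rw [Matrix.conjTranspose_apply]
  simp only [hermitianOfCoords]
  rcases lt_trichotomy i j with h | h | h
  · rw [if_neg h.ne', if_neg (not_lt.mpr h.le), if_neg h.ne, if_pos h]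
    simp only [RCLike.star_def, map_div₀, map_sub, map_mul, Complex.conj_ofReal, Complex.conj_I]
    ring
  · subst h
    simp
  · rw [if_neg h.ne, if_pos h, if_neg h.ne', if_neg (not_lt.mpr h.le)]
    simp only [RCLike.star_def, map_div₀, map_add, map_mul, Complex.conj_ofReal, Complex.conj_I]
    ring

/-- Coordinates of a Hermitian matrix. -/
noncomputable def coordsOf (H : Matrix (Fin d) (Fin d) ℂ) (p : Fin d × Fin d) : ℝ :=
  if p.1 = p.2 then (H p.1 p.1).re
  else if p.1 < p.2 then Real.sqrt 2 * (H p.1 p.2).re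
  else Real.sqrt 2 * (H p.2 p.1).im

theorem hermitianOfCoords_coordsOf (H : Matrix (Fin d) (Fin d) ℂ) (hH : H.IsHermitian) :
    hermitianOfCoords (WithLp.toLp 2 (coordsOf H)) = H := by
  have hs : ((Real.sqrt 2 : ℝ) : ℂ) ≠ 0 := by
    rw [Complex.ofReal_ne_zero]; positivity
  ext i j
  have hij : star (H j i) = H i j := hH.apply i j
  simp only [hermitianOfCoords, coordsOf]
  rcases lt_trichotomy i j with h | h | h
  · rw [if_neg h.ne, if_pos h, if_neg h.ne, if_pos h, if_neg h.ne', if_neg (not_lt.mpr h.le)]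
    push_cast
    rw [mul_assoc, ← mul_add, mul_div_cancel_left₀ _ hs]
    exact Complex.re_add_im _
  · subst h
    simp only [if_true]
    have : (H i i).im = 0 := by
      have h1 := congrArg Complex.im hij
      simp at h1
      linarith
    apply Complex.ext <;> simp [this]
  · rw [if_neg h.ne', if_neg (not_lt.mpr h.le), if_neg h.ne, if_pos h, if_neg h.ne',
      if_neg (not_lt.mpr h.le)]
    push_cast
    rw [mul_assoc, ← mul_sub, mul_div_cancel_left₀ _ hs, ← hij]
    apply Complex.ext <;> simp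

theorem continuous_coordsOf : Continuous (fun H : Matrix (Fin d) (Fin d) ℂ => coordsOf H) := by
  refine continuous_pi fun p => ?_
  unfold coordsOf
  split_ifs
  · exact Complex.continuous_re.comp (continuous_id.matrix_elem _ _)
  · exact continuous_const.mul (Complex.continuous_re.comp (continuous_id.matrix_elem _ _))
  · exact continuous_const.mul (Complex.continuous_im.comp (continuous_id.matrix_elem _ _))

theorem continuous_gueMat {J : Type*} (j : J) :
    Continuous (fun ω : J × (Fin d × Fin d) → ℝ => gueMat ω j) := by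
  refine continuous_matrix fun p q => ?_
  simp only [gueMat, hermitianOfCoords]
  split_ifs
  · exact Complex.continuous_ofReal.comp (continuous_apply _)
  · exact ((Complex.continuous_ofReal.comp (continuous_apply _)).add
      ((Complex.continuous_ofReal.comp (continuous_apply _)).mul continuous_const)).div_const _
  · exact ((Complex.continuous_ofReal.comp (continuous_apply _)).sub
      ((Complex.continuous_ofReal.comp (continuous_apply _)).mul continuous_const)).div_const _

end coords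

section poly

/-- Evaluation of polynomials in letters `J`. -/
noncomputable def evalJ {J B : Type*} [Ring B] [Algebra ℂ B] (g : J → B) :
    MonoidAlgebra ℂ (FreeMonoid J) →ₐ[ℂ] B :=
  MonoidAlgebra.lift ℂ B (FreeMonoid J) (FreeMonoid.lift g)

theorem evalJ_single {J B : Type*} [Ring B] [Algebra ℂ B] (g : J → B) (w : FreeMonoid J) (c : ℂ) :
    evalJ g (MonoidAlgebra.single w c) = c • FreeMonoid.lift g w := by
  rw [evalJ, MonoidAlgebra.lift_single]

theorem evalJ_comp {J J' B : Type*} [Ring B] [Algebra ℂ B] (g : J → B)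
    (h : J' → MonoidAlgebra ℂ (FreeMonoid J)) (P : MonoidAlgebra ℂ (FreeMonoid J')) :
    evalJ g (evalJ h P) = evalJ (fun j => evalJ g (h j)) P := by
  have : (evalJ g).comp (evalJ h) = evalJ (fun j => evalJ g (h j)) := by
    refine MonoidAlgebra.algHom_ext (fun m => ?_) (Subsingleton.elim _ _)
    rw [AlgHom.comp_apply, evalJ_single, evalJ_single, one_smul, one_smul]
    exact FreeMonoid.hom_map_lift (evalJ g : MonoidAlgebra ℂ (FreeMonoid J) →* B) h m
  exact DFunLike.congr_fun this P

theorem linear_evalJ {J B : Type*} [Ring B] [Algebra ℂ B] (L : B →ₗ[ℂ] ℂ) (g : J → B)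
    (P : MonoidAlgebra ℂ (FreeMonoid J)) :
    L (evalJ g P) = ∑ u ∈ P.coeff.support, P.coeff u * L ((FreeMonoid.toList u).map g).prod := by
  rw [evalJ, MonoidAlgebra.lift_apply, Finsupp.sum, map_sum]
  refine Finset.sum_congr rfl fun u _ => ?_
  rw [map_smul, smul_eq_mul, FreeMonoid.lift_apply]

variable {k n : ℕ}

/-- The substitution polynomials. -/
noncomputable def thetaLetter (Q : Fin n → NCPoly k) (δ : Fin n → ℝ) (i : Fin n) :
    MonoidAlgebra ℂ (FreeMonoid (Fin k ⊕ Fin n)) :=
  evalJ (fun a => MonoidAlgebra.single (FreeMonoid.of (Sum.inl a)) 1) (Q i) +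
    MonoidAlgebra.single (FreeMonoid.of (Sum.inr i)) (Real.sqrt (δ i) : ℂ)

theorem evalJ_theta {B : Type*} [Ring B] [Algebra ℂ B] (g : Fin k ⊕ Fin n → B)
    (Q : Fin n → NCPoly k) (δ : Fin n → ℝ) (w : FreeMonoid (Fin n)) :
    evalJ g (FreeMonoid.lift (thetaLetter Q δ) w) =
      wordEval (fun i => polyEval (fun a => g (Sum.inl a)) (Q i) +
        (Real.sqrt (δ i) : ℂ) • g (Sum.inr i)) w := by
  have h : ((evalJ g : MonoidAlgebra ℂ (FreeMonoid (Fin k ⊕ Fin n)) →* B).comp
      (FreeMonoid.lift (thetaLetter Q δ))) =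
      FreeMonoid.lift (fun i => polyEval (fun a => g (Sum.inl a)) (Q i) +
        (Real.sqrt (δ i) : ℂ) • g (Sum.inr i)) := by
    refine FreeMonoid.hom_eq fun i => ?_
    simp only [MonoidHom.comp_apply, FreeMonoid.lift_eval_of, MonoidHom.coe_coe, thetaLetter,
      map_add, evalJ_comp, evalJ_single, one_smul]
    rfl
  exact DFunLike.congr_fun h w

/-- moments of the substituted tuple -/
theorem tau_wordEval_eq {A : Type*} [Ring A] [Algebra ℂ A] (τ : A →ₗ[ℂ] ℂ)
    (a : Fin k → A) (b : Fin n → A) (φ : List (Fin k ⊕ Fin n) → ℝ)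
    (hτ : ∀ w : List (Fin k ⊕ Fin n), τ ((w.map (Sum.elim a b)).prod) = (φ w : ℂ))
    (Q : Fin n → NCPoly k) (δ : Fin n → ℝ) (w : FreeMonoid (Fin n)) :
    τ (wordEval (fun i => polyEval a (Q i) + (Real.sqrt (δ i) : ℂ) • b i) w) =
      ∑ u ∈ (FreeMonoid.lift (thetaLetter Q δ) w).coeff.support,
        (FreeMonoid.lift (thetaLetter Q δ) w).coeff u * (φ (FreeMonoid.toList u) : ℂ) := by
  have h := evalJ_theta (Sum.elim a b) Q δ w
  simp only [Sum.elim_inl, Sum.elim_inr] at h
  rw [← h, linear_evalJ]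
  refine Finset.sum_congr rfl fun u _ => ?_
  rw [hτ]

/-- The matrix model tuple. -/
noncomputable def modelTuple {d : ℕ} (Q : Fin n → NCPoly k) (δ : Fin n → ℝ)
    (ω : (Fin k ⊕ Fin n) × (Fin d × Fin d) → ℝ) (i : Fin n) : Matrix (Fin d) (Fin d) ℂ :=
  polyEval (fun a => gueMat ω (Sum.inl a)) (Q i) +
        (Real.sqrt (δ i) : ℂ) • gueMat ω (Sum.inr i)

theorem matrixMoment_modelTuple {d : ℕ} (Q : Fin n → NCPoly k) (δ : Fin n → ℝ)
    (ω : (Fin k ⊕ Fin n) × (Fin d × Fin d) → ℝ) (w : FreeMonoid (Fin n)) :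
    matrixMoment (modelTuple Q δ ω) w =
      ∑ u ∈ (FreeMonoid.lift (thetaLetter Q δ) w).coeff.support,
        (FreeMonoid.lift (thetaLetter Q δ) w).coeff u * wordTr ω (FreeMonoid.toList u) := by
  have h := evalJ_theta (gueMat ω) Q δ w
  have h2 := linear_evalJ ((d : ℂ)⁻¹ • Matrix.traceLinearMap (Fin d) ℂ ℂ) (gueMat ω)
    (FreeMonoid.lift (thetaLetter Q δ) w)
  rw [h] at h2
  simp only [LinearMap.smul_apply, Matrix.traceLinearMap_apply, smul_eq_mul] at h2
  exact h2

/-- coordinates of the letter part -/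
noncomputable def letterCoords {d : ℕ} (Q : Fin n → NCPoly k)
    (x : Fin k × (Fin d × Fin d) → ℝ) (p : Fin n × (Fin d × Fin d)) : ℝ :=
  coordsOf (polyEval (fun a => gueMat x a) (Q p.1)) p.2

theorem continuous_wordEval {d : ℕ} (w : FreeMonoid (Fin k)) :
    Continuous (fun x : Fin k × (Fin d × Fin d) → ℝ => wordEval (fun a => gueMat x a) w) := by
  induction w using FreeMonoid.inductionOn' with
  | one => simp only [ChiStar.wordEval_one]; exact continuous_const
  | of_mul i w ih =>
    simp only [ChiStar.wordEval_cons]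
    exact (continuous_gueMat i).matrix_mul ih

theorem continuous_polyEval {d : ℕ} (P : NCPoly k) :
    Continuous (fun x : Fin k × (Fin d × Fin d) → ℝ => polyEval (fun a => gueMat x a) P) := by
  simp only [ChiStar.polyEval_eq_sum, Finsupp.sum]
  refine continuous_finsetSum _ fun w _ => ?_
  exact Continuous.const_smul (M := ℂ) (α := Matrix (Fin d) (Fin d) ℂ)
    (continuous_wordEval w) (P.coeff w)

theorem measurable_letterCoords {d : ℕ} (Q : Fin n → NCPoly k) :
    Measurable (letterCoords (d := d) Q) := by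
  refine Continuous.measurable ?_
  refine continuous_pi fun p => ?_
  exact (continuous_apply p.2).comp (continuous_coordsOf.comp (continuous_polyEval (Q p.1)))

theorem matrixTuple_eq {d : ℕ} (Q : Fin n → NCPoly k) (hQ : ∀ i, polyStar (Q i) = Q i)
    (δ : Fin n → ℝ) (ω : (Fin k ⊕ Fin n) × (Fin d × Fin d) → ℝ) :
    matrixTuple (WithLp.toLp 2 (fun p : Fin n × (Fin d × Fin d) =>
        letterCoords Q (fun q => ω (Sum.inl q.1, q.2)) p +
          Real.sqrt (δ p.1) * ω (Sum.inr p.1, p.2))) = modelTuple Q δ ω := by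
  funext i
  unfold matrixTuple modelTuple
  have h1 : (WithLp.toLp 2 fun p => (WithLp.toLp 2 (fun p : Fin n × (Fin d × Fin d) =>
        letterCoords Q (fun q => ω (Sum.inl q.1, q.2)) p +
          Real.sqrt (δ p.1) * ω (Sum.inr p.1, p.2))) (i, p) : EuclideanSpace ℝ (Fin d × Fin d)) =
      WithLp.toLp 2 (coordsOf (polyEval (fun a => gueMat ω (Sum.inl a)) (Q i))) +
        Real.sqrt (δ i) • (WithLp.toLp 2 fun p => ω (Sum.inr i, p)) := by
    ext p
    rfl
  rw [h1, hermitianOfCoords_add, hermitianOfCoords_smul, hermitianOfCoords_coordsOf]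
  · rfl
  · exact ChiStar.isSelfAdjoint_polyEval _ (fun a => isHermitian_hermitianOfCoords _) _ (hQ i)

theorem norm_wordEval_le {B : Type*} [NormedRing B] [NormedAlgebra ℂ B] (h1 : ‖(1 : B)‖ ≤ 1)
    (X : Fin k → B) (C : ℝ) (hC : ∀ i, ‖X i‖ ≤ C) (w : FreeMonoid (Fin k)) :
    ‖wordEval X w‖ ≤ C ^ (FreeMonoid.toList w).length := by
  induction w using FreeMonoid.inductionOn' with
  | one => simpa [ChiStar.wordEval_one] using h1
  | of_mul i w ih =>
    rw [ChiStar.wordEval_cons]
    refine (norm_mul_le _ _).trans ?_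
    have : (FreeMonoid.toList (FreeMonoid.of i * w)).length = (FreeMonoid.toList w).length + 1 := by
      simp
    rw [this, pow_succ']
    exact mul_le_mul (hC i) ih (norm_nonneg _) ((norm_nonneg _).trans (hC i))

theorem norm_polyEval_le {B : Type*} [NormedRing B] [NormedAlgebra ℂ B] (h1 : ‖(1 : B)‖ ≤ 1)
    (X : Fin k → B) (C : ℝ) (hC : ∀ i, ‖X i‖ ≤ C) (P : NCPoly k) :
    ‖polyEval X P‖ ≤ ∑ w ∈ P.coeff.support, ‖P.coeff w‖ * C ^ (FreeMonoid.toList w).length := by
  rw [ChiStar.polyEval_eq_sum, Finsupp.sum]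
  refine (norm_sum_le _ _).trans (Finset.sum_le_sum fun w _ => ?_)
  rw [norm_smul]
  exact mul_le_mul_of_nonneg_left (norm_wordEval_le h1 X C hC w) (norm_nonneg _)

theorem map_polyEval {B B' : Type*} [Ring B] [Algebra ℂ B] [Ring B'] [Algebra ℂ B']
    (f : B →ₐ[ℂ] B') (X : Fin k → B) (P : NCPoly k) :
    f (polyEval X P) = polyEval (fun i => f (X i)) P := by
  rw [ChiStar.polyEval_eq_sum, ChiStar.polyEval_eq_sum, Finsupp.sum, Finsupp.sum, map_sum]
  refine Finset.sum_congr rfl fun w _ => ?_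
  rw [map_smul]
  congr 1
  exact FreeMonoid.hom_map_lift (f : B →* B') X w

theorem norm_modelTuple_le {d : ℕ} (Q : Fin n → NCPoly k) (δ : Fin n → ℝ)
    (ω : (Fin k ⊕ Fin n) × (Fin d × Fin d) → ℝ) (C : ℝ)
    (hC : ∀ j, ‖Matrix.toEuclideanCLM (n := Fin d) (𝕜 := ℂ) (gueMat ω j)‖ ≤ C) (i : Fin n) :
    ‖Matrix.toEuclideanCLM (n := Fin d) (𝕜 := ℂ) (modelTuple Q δ ω i)‖ ≤
      (∑ w ∈ (Q i).coeff.support, ‖(Q i).coeff w‖ * C ^ (FreeMonoid.toList w).length) +
        Real.sqrt (δ i) * C := by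
  unfold modelTuple
  rw [map_add, map_smul]
  refine (norm_add_le _ _).trans (add_le_add ?_ ?_)
  · have := map_polyEval (Matrix.toEuclideanCLM (n := Fin d) (𝕜 := ℂ)).toAlgEquiv.toAlgHom
      (fun a => gueMat ω (Sum.inl a)) (Q i)
    have h2 := norm_polyEval_le (B := EuclideanSpace ℂ (Fin d) →L[ℂ] EuclideanSpace ℂ (Fin d))
      ContinuousLinearMap.norm_id_le
      (fun a => Matrix.toEuclideanCLM (n := Fin d) (𝕜 := ℂ) (gueMat ω (Sum.inl a))) C
      (fun a => hC _) (Q i)
    refine le_trans (le_of_eq ?_) h2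
    exact congrArg norm this
  · rw [norm_smul]
    refine mul_le_mul ?_ (hC _) (norm_nonneg _) (Real.sqrt_nonneg _)
    rw [Complex.norm_real, Real.norm_of_nonneg (Real.sqrt_nonneg _)]

end poly

theorem isProbabilityMeasure_gueMeasure (J : Type*) [Fintype J] (d : ℕ) :
    IsProbabilityMeasure (gueMeasure J d) := by
  unfold gueMeasure; infer_instance

end Crest.Agent.R089.GUEMain

namespace Crest.Agent.R089

open GUEMain

/-- G4, with G1 and G2 as hypotheses. -/
theorem bot_lt_chi_of {A : Type*} [Ring A] [Algebra ℂ A] (τ : A →ₗ[ℂ] ℂ) {k n : ℕ}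
    (a : Fin k → A) (b : Fin n → A) (φ : List (Fin k ⊕ Fin n) → ℝ)
    (hG1 : ∀ (w : List (Fin k ⊕ Fin n)) (ε : ℝ), 0 < ε →
      Tendsto (fun d : ℕ => gueMeasure (Fin k ⊕ Fin n) d {ω | ε ≤ ‖wordTr ω w - φ w‖})
        atTop (𝓝 0))
    (hG2 : ∃ C : ℝ, 0 < C ∧ ∀ j : Fin k ⊕ Fin n, Tendsto (fun d : ℕ =>
      gueMeasure (Fin k ⊕ Fin n) d
        {ω | C < ‖Matrix.toEuclideanCLM (n := Fin d) (𝕜 := ℂ) (gueMat ω j)‖}) atTop (𝓝 0))
    (hτ : ∀ w : List (Fin k ⊕ Fin n), τ ((w.map (Sum.elim a b)).prod) = (φ w : ℂ))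
    (Q : Fin n → NCPoly k) (hQ : ∀ i, polyStar (Q i) = Q i) (δ : Fin n → ℝ)
    (hδ : ∀ i, 0 < δ i) :
    ⊥ < chi τ (fun i => polyEval a (Q i) + (Real.sqrt (δ i) : ℂ) • b i) := by
  obtain ⟨C, hC0, hC⟩ := hG2
  set B : Fin n → ℝ := fun i => (∑ w ∈ (Q i).coeff.support,
    ‖(Q i).coeff w‖ * C ^ (FreeMonoid.toList w).length) + Real.sqrt (δ i) * C with hB
  have hB0 : ∀ i, 0 ≤ B i := fun i => by
    have : 0 ≤ ∑ w ∈ (Q i).coeff.support,
      ‖(Q i).coeff w‖ * C ^ (FreeMonoid.toList w).length :=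
      Finset.sum_nonneg fun w _ => by positivity
    have h2 : 0 ≤ Real.sqrt (δ i) * C := by positivity
    exact add_nonneg this h2
  set R : ℝ := 1 + ∑ i, B i with hR
  have hR0 : 0 < R := by
    have : 0 ≤ ∑ i, B i := Finset.sum_nonneg fun i _ => hB0 i
    rw [hR]; linarith
  have hBR : ∀ i, B i ≤ R := fun i => by
    have := Finset.single_le_sum (fun i _ => hB0 i) (Finset.mem_univ i)
    rw [hR]; linarith
  refine bot_lt_chi_of_volume τ _ δ hδ R hR0 fun m ε hε => ?_
  have hfin : {w : FreeMonoid (Fin n) | (FreeMonoid.toList w).length ≤ m}.Finite :=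
    List.finite_length_le (Fin n) m
  set Wd : Finset (FreeMonoid (Fin n)) := hfin.toFinset with hWd
  set Θ : FreeMonoid (Fin n) → MonoidAlgebra ℂ (FreeMonoid (Fin k ⊕ Fin n)) :=
    fun w => FreeMonoid.lift (thetaLetter Q δ) w with hΘ
  classical
  set U : Finset (List (Fin k ⊕ Fin n)) :=
    Wd.biUnion fun w => (Θ w).coeff.support.image FreeMonoid.toList with hU
  set S : ℝ := ∑ w ∈ Wd, ∑ u ∈ (Θ w).coeff.support, ‖(Θ w).coeff u‖ with hS
  have hS0 : 0 ≤ S := Finset.sum_nonneg fun w _ => Finset.sum_nonneg fun u _ => norm_nonneg _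
  set η : ℝ := ε / (S + 1) with hη
  have hη0 : 0 < η := by positivity
  have hbad : Tendsto (fun d : ℕ => (∑ j, gueMeasure (Fin k ⊕ Fin n) d
        {ω | C < ‖Matrix.toEuclideanCLM (n := Fin d) (𝕜 := ℂ) (gueMat ω j)‖}) +
      ∑ u ∈ U, gueMeasure (Fin k ⊕ Fin n) d {ω | η ≤ ‖wordTr ω u - φ u‖}) atTop (𝓝 0) := by
    have := (tendsto_finsetSum Finset.univ fun j _ => hC j).add
      (tendsto_finsetSum U fun u _ => hG1 u η hη0)
    simpa using this
  have h12 := hbad.eventually_lt_const (u := (1 / 2 : ℝ≥0∞)) (by norm_num)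
  filter_upwards [h12, eventually_ge_atTop 1] with d hd hd1
  refine le_trans ?_ (gue_density_bound (K := Fin k) hd1 δ hδ (letterCoords Q)
    (measurable_letterCoords Q) _)
  set Good : Set ((Fin k ⊕ Fin n) × (Fin d × Fin d) → ℝ) :=
    {ω | WithLp.toLp 2 (fun p : Fin n × (Fin d × Fin d) =>
        letterCoords Q (fun q => ω (Sum.inl q.1, q.2)) p +
          Real.sqrt (δ p.1) * ω (Sum.inr p.1, p.2)) ∈
      microstates τ (fun i => polyEval a (Q i) + (Real.sqrt (δ i) : ℂ) • b i) R m d ε} with hGood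
  have hcover : (Set.univ : Set ((Fin k ⊕ Fin n) × (Fin d × Fin d) → ℝ)) ⊆
      Good ∪ ((⋃ j ∈ (Finset.univ : Finset (Fin k ⊕ Fin n)),
        {ω | C < ‖Matrix.toEuclideanCLM (n := Fin d) (𝕜 := ℂ) (gueMat ω j)‖}) ∪
        ⋃ u ∈ U, {ω | η ≤ ‖wordTr ω u - φ u‖}) := by
    intro ω _
    by_cases h1 : ∀ j, ‖Matrix.toEuclideanCLM (n := Fin d) (𝕜 := ℂ) (gueMat ω j)‖ ≤ C
    swap
    · push Not at h1
      obtain ⟨j, hj⟩ := h1
      right; left
      exact Set.mem_biUnion (Finset.mem_coe.mpr (Finset.mem_univ j)) hj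
    by_cases h2 : ∀ u ∈ U, ‖wordTr ω u - φ u‖ < η
    swap
    · push Not at h2
      obtain ⟨u, hu, hj⟩ := h2
      right; right
      exact Set.mem_biUnion (Finset.mem_coe.mpr hu) hj
    left
    rw [hGood, Set.mem_ofPred_eq]
    unfold microstates
    rw [Set.mem_ofPred_eq, matrixTuple_eq Q hQ δ ω]
    refine ⟨fun l => (norm_modelTuple_le Q δ ω C h1 l).trans (hBR l), fun w hw => ?_⟩
    rw [matrixMoment_modelTuple, tau_wordEval_eq τ a b φ hτ Q δ w, ← Finset.sum_sub_distrib]
    have hwW : w ∈ Wd := by rw [hWd]; simpa using hw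
    calc ‖∑ u ∈ (Θ w).coeff.support, ((Θ w).coeff u * wordTr ω (FreeMonoid.toList u) -
            (Θ w).coeff u * (φ (FreeMonoid.toList u) : ℂ))‖
        ≤ ∑ u ∈ (Θ w).coeff.support, ‖(Θ w).coeff u‖ * η := by
          refine (norm_sum_le _ _).trans (Finset.sum_le_sum fun u hu => ?_)
          rw [← mul_sub, norm_mul]
          refine mul_le_mul_of_nonneg_left ?_ (norm_nonneg _)
          refine (h2 _ ?_).le
          rw [hU, Finset.mem_biUnion]
          exact ⟨w, hwW, Finset.mem_image_of_mem _ hu⟩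
      _ = (∑ u ∈ (Θ w).coeff.support, ‖(Θ w).coeff u‖) * η := by rw [Finset.sum_mul]
      _ ≤ S * η := by
          refine mul_le_mul_of_nonneg_right ?_ hη0.le
          rw [hS]
          exact Finset.single_le_sum (f := fun w => ∑ u ∈ (Θ w).coeff.support, ‖(Θ w).coeff u‖)
            (fun w _ => Finset.sum_nonneg fun u _ => norm_nonneg _) hwW
      _ < ε := by
          rw [hη, mul_div_assoc', div_lt_iff₀ (by positivity)]
          nlinarith
  have hprob := isProbabilityMeasure_gueMeasure (Fin k ⊕ Fin n) d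
  have hone : (1 : ℝ≥0∞) ≤ gueMeasure (Fin k ⊕ Fin n) d Good + 1 / 2 := by
    calc (1 : ℝ≥0∞) = gueMeasure (Fin k ⊕ Fin n) d Set.univ := measure_univ.symm
      _ ≤ gueMeasure (Fin k ⊕ Fin n) d Good + gueMeasure (Fin k ⊕ Fin n) d
          ((⋃ j ∈ (Finset.univ : Finset (Fin k ⊕ Fin n)),
            {ω | C < ‖Matrix.toEuclideanCLM (n := Fin d) (𝕜 := ℂ) (gueMat ω j)‖}) ∪
            ⋃ u ∈ U, {ω | η ≤ ‖wordTr ω u - φ u‖}) :=
          (measure_mono hcover).trans (measure_union_le _ _)
      _ ≤ gueMeasure (Fin k ⊕ Fin n) d Good + 1 / 2 := by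
          gcongr
          refine (measure_union_le _ _).trans (le_trans ?_ hd.le)
          gcongr
          · exact measure_biUnion_finset_le _ _
          · exact measure_biUnion_finset_le _ _
  have h3 : (1 / 2 + 1 / 2 : ℝ≥0∞) ≤ gueMeasure (Fin k ⊕ Fin n) d Good + 1 / 2 := by
    rwa [ENNReal.add_halves]
  exact (ENNReal.add_le_add_iff_right (a := (1 / 2 : ℝ≥0∞)) (by norm_num)).mp h3

end Crest.Agent.R089
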