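import Crest.Agent.R089.FisherIntegral
import Mathlib
import Crest.Agent.R089.Model
import Crest.Agent.R089.ChiUpper
import Crest.Agent.R089.GUE5
import Crest.Agent.R089.GUEMain_Mg
import Crest.Agent.R089.Cumulant
import Crest.Agent.R089.GUEDefs
import Crest.Agent.R089.FockModel
import Crest.Agent.R089.ChiStar
import Crest.Agent.R089.HeatLaw
import Crest.Agent.R089.Freeness

-- ▼ part R089/FreeBasics
section

/-!
Row 89: second order moments from freeness and semicircularity, and the chiStar lower bound in a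
form which only needs freeness.
-/

set_option autoImplicit false
set_option linter.unusedSectionVars false

open scoped ENNReal
open MeasureTheory

namespace Crest.Agent.R089.FreeBasics

open Crest.OpAlg Crest.Agent.R089.FisherIntegral

variable {A : Type*} [Ring A] [Algebra ℂ A] {n : ℕ}

/-- The polynomial `X_i - c`. -/
noncomputable def shiftPoly (i : Fin n) (c : ℂ) : NCPoly n :=
  MonoidAlgebra.single (FreeMonoid.of i) 1 - MonoidAlgebra.single 1 c

lemma polyEval_shiftPoly (Z : Fin n → A) (i : Fin n) (c : ℂ) :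
    polyEval Z (shiftPoly i c) = Z i - c • (1 : A) := by
  unfold polyEval shiftPoly
  rw [map_sub]
  simp

lemma semicircular_fst [StarRing A] {τ : A →ₗ[ℂ] ℂ} {S : Fin n → A}
    (hS : IsStandardSemicircular τ S) (i : Fin n) : τ (S i) = 0 := by
  have := (hS.2 i 0).2
  simpa using this

lemma semicircular_snd [StarRing A] {τ : A →ₗ[ℂ] ℂ} {S : Fin n → A}
    (hS : IsStandardSemicircular τ S) (i : Fin n) : τ (S i * S i) = 1 := by
  have := (hS.2 i 1).1
  rw [mul_one, pow_two] at this
  simpa using this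

lemma tau_mul_noise [StarRing A] {τ : A →ₗ[ℂ] ℂ} (hτ : τ 1 = 1) {X S : Fin n → A}
    (hS : IsStandardSemicircular τ S) (hfree : IsFreeFamily τ (withNoise X S)) (i j : Fin n) :
    τ (X i * S j) = 0 := by
  have h := hfree [(none, shiftPoly i (τ (X i))), (some j, shiftPoly j 0)] (by simp)
    (by simp) (by
      intro e he
      simp only [List.mem_cons, List.not_mem_nil, or_false] at he
      rcases he with rfl | rfl
      · simp only [polyEval_shiftPoly, withNoise, Option.elim, map_sub, map_smul, hτ]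
        simp
      · simp only [polyEval_shiftPoly, withNoise, Option.elim, map_sub, map_smul]
        simp [semicircular_fst hS j])
  simp only [List.map_cons, List.map_nil, List.prod_cons, List.prod_nil, mul_one,
    polyEval_shiftPoly, withNoise, Option.elim, zero_smul, sub_zero] at h
  rw [sub_mul, map_sub, smul_mul_assoc, one_mul, map_smul, semicircular_fst hS j] at h
  simpa using h

lemma tau_noise_mul [StarRing A] {τ : A →ₗ[ℂ] ℂ} (hτ : τ 1 = 1) {X S : Fin n → A}
    (hS : IsStandardSemicircular τ S) (hfree : IsFreeFamily τ (withNoise X S)) (i j : Fin n) :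
    τ (S j * X i) = 0 := by
  have h := hfree [(some j, shiftPoly j 0), (none, shiftPoly i (τ (X i)))] (by simp)
    (by simp) (by
      intro e he
      simp only [List.mem_cons, List.not_mem_nil, or_false] at he
      rcases he with rfl | rfl
      · simp only [polyEval_shiftPoly, withNoise, Option.elim, map_sub, map_smul]
        simp [semicircular_fst hS j]
      · simp only [polyEval_shiftPoly, withNoise, Option.elim, map_sub, map_smul, hτ]
        simp)
  simp only [List.map_cons, List.map_nil, List.prod_cons, List.prod_nil, mul_one,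
    polyEval_shiftPoly, withNoise, Option.elim, zero_smul, sub_zero] at h
  rw [mul_sub, map_sub, mul_smul_comm, mul_one, map_smul, semicircular_fst hS j] at h
  simpa using h

/-- `chiStar` lower bound from the two `Φ*` upper bounds, with the second-order data obtained
from freeness. -/
theorem chiStar_lower_of_free [StarRing A] {τ : A →ₗ[ℂ] ℂ} (hτ : τ 1 = 1) {X S : Fin n → A}
    (hS : IsStandardSemicircular τ S) (hfree : IsFreeFamily τ (withNoise X S))
    (v δ : Fin n → ℝ) (hv : ∀ i, 0 < v i) (hδ : ∀ i, 0 < δ i)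
    (hX : ∀ i, τ (X i * X i) = (v i : ℂ))
    (hU1 : ∀ s : ℝ, 0 < s → freeFisher τ (heatTuple X S s) ≤ ENNReal.ofReal (∑ i, 1 / (δ i + s)))
    (s0 : ℝ) (hs0 : 0 ≤ s0)
    (hU2 : ∀ s : ℝ, s0 < s → freeFisher τ (heatTuple X S s) ≤
      ENNReal.ofReal (∑ i, (1 / (δ i + s) - 1 / (2 * (δ i + s) ^ 2)))) :
    (∀ s : ℝ, 0 < s → freeFisher τ (heatTuple X S s) < ⊤) ∧
    IntegrableOn (fun s : ℝ => (n : ℝ) / (1 + s) - (freeFisher τ (heatTuple X S s)).toReal)
      (Set.Ioi 0) ∧
    ∑ i, (1 / 2 * Real.log (2 * Real.pi * Real.exp 1 * δ i) + 1 / 4 * (1 / (δ i + s0))) ≤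
      chiStar τ X S :=
  chiStar_lower_of_le τ X S hτ v δ hv hδ hX (fun i => tau_mul_noise hτ hS hfree i i)
    (fun i => tau_noise_mul hτ hS hfree i i) (fun i => semicircular_snd hS i) hU1 s0 hs0 hU2

end Crest.Agent.R089.FreeBasics
end

-- ▼ part R089/ChiXX
section

/-!
Row 89 (S0118): second moments and the microstates upper bound for the concrete tuple `XX` of
`Model.lean` (helper69).
-/

set_option autoImplicit false

namespace Crest.Agent.R089.ChiXX
open Crest.Agent.R089 Crest.OpAlg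
open Crest.Agent.R089.Model Crest.Agent.R089.CubicVar

theorem polyEval_cubic {A : Type*} [Ring A] [Algebra ℂ A] {k : ℕ} (X : Fin k → A)
    (x y z : Fin k) :
    polyEval X (Model.cubic x y z) =
      ((Real.sqrt 2 : ℝ) : ℂ)⁻¹ • (X x * X y * X z + X z * X y * X x) := by
  unfold Model.cubic polyEval
  rw [map_smul, map_add, MonoidAlgebra.lift_single, MonoidAlgebra.lift_single]
  simp only [map_mul, FreeMonoid.lift_eval_of, one_smul, Complex.ofReal_inv]

variable {A : Type*} [Ring A] [Algebra ℂ A]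

theorem XX_letter (r : ℕ) (d : ℝ) (s : Jx r → A) (a : Hid r) :
    XX r d s (ei r (Sum.inl a)) = s (Sum.inl (Sum.inl (eh r a))) +
      ((Real.sqrt d : ℝ) : ℂ) • s (Sum.inl (Sum.inr (ei r (Sum.inl a)))) := by
  unfold XX QQ delt
  simp only [Equiv.symm_apply_apply, Qi]
  congr 1
  unfold polyEval
  rw [MonoidAlgebra.lift_single, one_smul, FreeMonoid.lift_eval_of]

theorem XX_word (r : ℕ) (d : ℝ) (s : Jx r → A) (a b c : Fin r) :
    XX r d s (ei r (Sum.inr (a, b, c))) =
      ((Real.sqrt 2 : ℝ) : ℂ)⁻¹ •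
        (s (Sum.inl (Sum.inl (eh r (0, a)))) * s (Sum.inl (Sum.inl (eh r (1, b)))) *
            s (Sum.inl (Sum.inl (eh r (2, c)))) +
          s (Sum.inl (Sum.inl (eh r (2, c)))) * s (Sum.inl (Sum.inl (eh r (1, b)))) *
            s (Sum.inl (Sum.inl (eh r (0, a))))) +
      ((Real.sqrt (1 / 2) : ℝ) : ℂ) • s (Sum.inl (Sum.inr (ei r (Sum.inr (a, b, c))))) := by
  unfold XX QQ delt
  simp only [Equiv.symm_apply_apply, Qi]
  rw [polyEval_cubic]

/-- second moment of a noisy cubic word. -/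
theorem word_var {J : Type*} [DecidableEq J] {φ : List J → ℝ} (hφ : IsSD φ) (τ : A →ₗ[ℂ] ℂ)
    (s : J → A) (hτ : ∀ w : List J, τ ((w.map s).prod) = φ w) (x y z m : J)
    (hxy : x ≠ y) (hxz : x ≠ z) (hyz : y ≠ z) (hmx : m ≠ x) (hmy : m ≠ y) (hmz : m ≠ z)
    (δ : ℝ) (hδ : 0 ≤ δ) :
    τ ((((Real.sqrt 2 : ℝ) : ℂ)⁻¹ • (s x * s y * s z + s z * s y * s x) +
        ((Real.sqrt δ : ℝ) : ℂ) • s m) *
      (((Real.sqrt 2 : ℝ) : ℂ)⁻¹ • (s x * s y * s z + s z * s y * s x) +
        ((Real.sqrt δ : ℝ) : ℂ) • s m)) = ((1 + δ : ℝ) : ℂ) := by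
  set g : ℂ := ((Real.sqrt 2 : ℝ) : ℂ)⁻¹ with hg
  have hg2 : g * g = 1 / 2 := by
    rw [hg, ← mul_inv, ← Complex.ofReal_mul, Real.mul_self_sqrt (by norm_num)]
    norm_num
  set f : ℝ := Real.sqrt δ with hf
  have hf2 : (f : ℂ) * f = (δ : ℂ) := by
    rw [← Complex.ofReal_mul, hf, Real.mul_self_sqrt hδ]
  set W : Option Bool → List J := fun o =>
    match o with
    | none => [m]
    | some false => [x, y, z]
    | some true => [z, y, x] with hW
  set C : Option Bool → ℂ := fun o =>
    match o with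
    | none => (f : ℂ)
    | some _ => g with hC
  have hD : g • (s x * s y * s z + s z * s y * s x) + (f : ℂ) • s m =
      ∑ k, C k • ((W k).map s).prod := by
    rw [Fintype.sum_option]
    simp only [hC, hW, Fintype.sum_bool, List.map_cons,
      List.map_nil, List.prod_cons, List.prod_nil, mul_one]
    simp only [smul_add, mul_assoc]
    abel
  rw [hD, trace_sq_sum τ s hτ C W]
  simp only [Fintype.sum_option, Fintype.sum_bool, hC, hW, List.cons_append, List.nil_append]
  rw [phi_two hφ, phi_four' hφ hmz hmy hmx, phi_four' hφ hmx hmy hmz,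
    phi_four hφ hyz.symm hxy.symm, phi_four hφ hxy hyz,
    phi_six_zero hφ hyz.symm hxz.symm hxz.symm hyz.symm hxy.symm,
    phi_six_pal hφ hyz.symm hxz.symm hxz.symm hyz.symm hxy.symm hxy.symm,
    phi_six_pal hφ hxy hxz hxz hxy hyz hyz,
    phi_six_zero hφ hxy hxz hxz hxy hyz]
  simp only [and_self, if_true, Complex.ofReal_zero, Complex.ofReal_one, mul_zero, mul_one,
    add_zero, zero_add, hf2, hg2]
  push_cast
  ring

theorem hid_ne {r : ℕ} {p q : Hid r} (h : p ≠ q) :
    (Sum.inl (Sum.inl (eh r p)) : Jx r) ≠ Sum.inl (Sum.inl (eh r q)) := by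
  intro h'
  exact h ((eh r).injective (Sum.inl_injective (Sum.inl_injective h')))

theorem hid_ne_noise {r : ℕ} (p : Fin (kk r)) (q : Fin (nn r)) :
    (Sum.inl (Sum.inl p) : Jx r) ≠ Sum.inl (Sum.inr q) := by
  intro h'
  have := Sum.inl_injective h'
  simp at this

/-- (T2) second moments of `X`. -/
theorem second_moment (r : ℕ) (d : ℝ) (hd : 0 ≤ d) {A : Type} [CStarAlgebra A]
    (τ : A →ₗ[ℂ] ℂ) (s : Jx r → A) (φ : List (Jx r) → ℝ) (h : IsModel τ s φ)
    (i : Fin (nn r)) :
    τ (XX r d s i * XX r d s i) = ((1 + delt r d i : ℝ) : ℂ) := by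
  obtain ⟨j, rfl⟩ := (ei r).surjective i
  rcases j with a | ⟨a, b, c⟩
  · rw [XX_letter]
    have h1 : delt r d (ei r (Sum.inl a)) = d := by
      unfold delt; simp
    rw [h1]
    exact letter_var h.sd τ s h.mom _ _ (hid_ne_noise _ _) d hd
  · rw [XX_word]
    have h1 : delt r d (ei r (Sum.inr (a, b, c))) = 1 / 2 := by
      unfold delt; simp
    rw [h1]
    exact word_var h.sd τ s h.mom _ _ _ _
      (hid_ne (fun h => by simp at h)) (hid_ne (fun h => by simp at h))
      (hid_ne (fun h => by simp at h)) (hid_ne_noise _ _).symm (hid_ne_noise _ _).symm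
      (hid_ne_noise _ _).symm (1 / 2) (by norm_num)

/-- (E) final form of the microstates upper bound. -/
theorem chi_XX_le (r : ℕ) (d : ℝ) (hd : 0 < d) {A : Type} [CStarAlgebra A]
    (τ : A →ₗ[ℂ] ℂ) (s : Jx r → A) (φ : List (Jx r) → ℝ) (h : IsModel τ s φ) :
    chi τ (XX r d s) ≤
      ((3 * r * (1 / 2 * Real.log (2 * Real.pi * Real.exp 1 * (1 + d))) +
        (r : ℝ) ^ 3 * (1 / 2 * Real.log (2 * Real.pi * Real.exp 1 *
          (1 / 2 + ((1 + d) ^ 3 - 1)))) : ℝ) : EReal) := by
  refine ChiUpper.chi_model_upper (ei r).symm h.sd τ s h.mom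
    (fun a => Sum.inl (Sum.inl (eh r a))) ?_ (fun i => Sum.inl (Sum.inr i)) ?_ ?_
    (1 / 2) d (by norm_num) hd (XX r d s) ?_ ?_
  · intro a b hab
    exact (eh r).injective (Sum.inl_injective (Sum.inl_injective hab))
  · intro a b hab
    exact Sum.inr_injective (Sum.inl_injective hab)
  · intro a i
    exact hid_ne_noise _ _
  · intro a
    rw [Equiv.symm_symm]
    exact XX_letter r d s a
  · intro a b c
    rw [Equiv.symm_symm]
    exact XX_word r d s a b c

end Crest.Agent.R089.ChiXX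
end

-- ▼ part R089/GUEMoments
section

/-! Convergence in probability of the mixed moments of GUE matrices (row 89). -/

set_option autoImplicit false

open MeasureTheory ProbabilityTheory Filter Topology
open scoped ENNReal NNReal

namespace Crest.Agent.R089.GUE

open MvPolynomial

lemma sum_splits_eq {α M : Type*} [DecidableEq α] [AddCommMonoid M] (F : List α × List α → M)
    (l : α) (v : List α) :
    ((splits l v).map F).sum =
      ∑ k ∈ Finset.range v.length, if v[k]? = some l then F (v.take k, v.drop (k + 1)) else 0 := by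
  induction v generalizing F with
  | nil => simp
  | cons a w ih =>
    rw [splits_cons, List.map_append, List.sum_append, List.map_map, ih, List.length_cons,
      Finset.sum_range_succ', add_comm]
    congr 1
    by_cases h : a = l
    · simp [h]
    · simp [h]

lemma splitRec_of_isSD {J : Type*} [DecidableEq J] {φ : List J → ℝ} (hφ : IsSD φ) :
    SplitRec (fun w => (φ w : ℂ)) := by
  refine ⟨by simp [hφ.nil], fun l v => ?_⟩
  rw [hφ.cons, sum_splits_eq]
  push_cast
  refine Finset.sum_congr rfl fun k _ => ?_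
  split_ifs <;> simp

variable {J : Type*} {d : ℕ}

lemma gueMat_isHermitian (ω : J × (Fin d × Fin d) → ℝ) (j : J) : (gueMat ω j).IsHermitian := by
  ext a b
  rw [Matrix.conjTranspose_apply]
  unfold gueMat Crest.OpAlg.hermitianOfCoords
  rcases lt_trichotomy a b with h | h | h
  · simp [h, h.ne, h.ne', not_lt.2 h.le]
    try ring
  · subst h; simp
  · simp [h, h.ne, h.ne', not_lt.2 h.le]
    try ring

lemma conj_wordTr (ω : J × (Fin d × Fin d) → ℝ) (w : List J) :
    (starRingEnd ℂ) (wordTr ω w) = wordTr ω w.reverse := by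
  unfold wordTr
  rw [map_mul, List.map_reverse]
  congr 1
  · simp
  · have h1 : (starRingEnd ℂ) (Matrix.trace ((w.map (gueMat ω)).prod)) =
        Matrix.trace (((w.map (gueMat ω)).prod).conjTranspose) := by
      rw [Matrix.trace_conjTranspose]; rfl
    rw [h1, Matrix.conjTranspose_list_prod]
    congr 3
    rw [List.map_map]
    refine List.map_congr_left fun j _ => ?_
    exact gueMat_isHermitian ω j

variable [Fintype J]

lemma integrable_prod_wordTr (ws : List (List J)) :
    Integrable (fun ω => (ws.map (fun w => wordTr ω w)).prod) (gueMeasure J d) := by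
  have h := (integrable_eval (ι := J × (Fin d × Fin d)) ((d : ℝ≥0)⁻¹)
    (tp (GM (J := J) (d := d)) ws)).const_mul (((d : ℂ)⁻¹) ^ ws.length)
  refine h.congr (Filter.Eventually.of_forall fun ω => ?_)
  simp only
  induction ws with
  | nil => simp
  | cons w ws ih =>
    rw [List.map_cons, List.prod_cons, ← ih, tp_cons, map_mul, List.length_cons, pow_succ, wordTr,
      ← eval_wm]
    · have : eval (fun i => (ω i : ℂ)) (Matrix.trace (wm (GM (J := J) (d := d)) w)) =
          Matrix.trace ((wm (GM (J := J) (d := d)) w).map (eval fun i => (ω i : ℂ))) := by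
        simp [Matrix.trace, map_sum]
      rw [this]
      ring
    · exact (integrable_eval (ι := J × (Fin d × Fin d)) ((d : ℝ≥0)⁻¹)
        (tp (GM (J := J) (d := d)) ws)).const_mul (((d : ℂ)⁻¹) ^ ws.length)


/-- The second moment of the deviation. -/
lemma integral_normSq_wordTr (w : List J) (c : ℝ) :
    (((∫ ω, ‖wordTr ω w - c‖ ^ 2 ∂(gueMeasure J d)) : ℝ) : ℂ) =
      TT J d [w, w.reverse] - c * TT J d [w] - c * TT J d [w.reverse] + c ^ 2 := by
  have h0 : ∀ ω : J × (Fin d × Fin d) → ℝ, ((‖wordTr ω w - c‖ ^ 2 : ℝ) : ℂ) =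
      ([w, w.reverse].map (fun w => wordTr ω w)).prod - c * ([w].map (fun w => wordTr ω w)).prod
        - c * ([w.reverse].map (fun w => wordTr ω w)).prod + c ^ 2 := by
    intro ω
    rw [← Complex.normSq_eq_norm_sq, Complex.normSq_eq_conj_mul_self, map_sub, conj_wordTr]
    simp
    ring
  rw [← integral_complex_ofReal]
  simp_rw [h0]
  have i1 := integrable_prod_wordTr (d := d) [w, w.reverse]
  have i2 := (integrable_prod_wordTr (d := d) [w]).const_mul (c : ℂ)
  have i3 := (integrable_prod_wordTr (d := d) [w.reverse]).const_mul (c : ℂ)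
  have i12 : Integrable (fun ω => ([w, w.reverse].map (fun w => wordTr ω w)).prod -
    c * ([w].map (fun w => wordTr ω w)).prod) (gueMeasure J d) := i1.sub i2
  have i123 : Integrable (fun ω => ([w, w.reverse].map (fun w => wordTr ω w)).prod -
    c * ([w].map (fun w => wordTr ω w)).prod - c * ([w.reverse].map (fun w => wordTr ω w)).prod)
    (gueMeasure J d) := i12.sub i3
  have hp : IsProbabilityMeasure (gueMeasure J d) := by unfold gueMeasure; infer_instance
  rw [integral_add i123 (integrable_const _), integral_sub i12 i3,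
    integral_sub i1 i2, integral_const_mul, integral_const_mul]
  simp_rw [integral_prod_wordTr]
  simp

instance (J : Type*) [Fintype J] (d : ℕ) : IsProbabilityMeasure (gueMeasure J d) := by
  unfold gueMeasure; infer_instance

end Crest.Agent.R089.GUE

namespace Crest.Agent.R089

open GUE

/-- (G1) mixed moments converge in probability. -/
theorem gue_moments_tendsto {J : Type*} [Fintype J] [DecidableEq J] (φ : List J → ℝ)
    (hφ : IsSD φ) (w : List J) (ε : ℝ) (hε : 0 < ε) :
    Tendsto (fun d : ℕ => gueMeasure J d {ω | ε ≤ ‖wordTr ω w - φ w‖}) atTop (𝓝 0) := by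
  have hT := loopRec_TT (J := J)
  have hτ := splitRec_of_isSD hφ
  have h1 : Tendsto (fun d : ℕ => TT J d [w, w.reverse] - (φ w : ℂ) * TT J d [w]
      - (φ w : ℂ) * TT J d [w.reverse] + (φ w : ℂ) ^ 2) atTop (𝓝 0) := by
    have a1 := hT.tendsto hτ [w, w.reverse]
    have a2 := (hT.tendsto hτ [w]).const_mul (φ w : ℂ)
    have a3 := (hT.tendsto hτ [w.reverse]).const_mul (φ w : ℂ)
    have a4 := (((a1.sub a2).sub a3).add_const ((φ w : ℂ) ^ 2))
    convert a4 using 2
    simp
    ring
  have h2 : Tendsto (fun d : ℕ => ∫ ω, ‖wordTr ω w - φ w‖ ^ 2 ∂(gueMeasure J d)) atTop (𝓝 0) := by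
    have h3 : Tendsto (fun d : ℕ => ((∫ ω, ‖wordTr ω w - φ w‖ ^ 2 ∂(gueMeasure J d) : ℝ) : ℂ))
        atTop (𝓝 0) := by
      refine h1.congr fun d => ?_
      rw [integral_normSq_wordTr]
    have h4 := (Complex.continuous_re.tendsto 0).comp h3
    rw [Complex.zero_re] at h4
    exact h4.congr fun d => by simp only [Function.comp_apply, Complex.ofReal_re]
  have h5 : Tendsto (fun d : ℕ => ENNReal.ofReal
      ((∫ ω, ‖wordTr ω w - φ w‖ ^ 2 ∂(gueMeasure J d)) / ε ^ 2)) atTop (𝓝 0) := by
    have := (ENNReal.tendsto_ofReal (h2.div_const (ε ^ 2)))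
    simpa using this
  refine tendsto_of_tendsto_of_tendsto_of_le_of_le tendsto_const_nhds h5 (fun d => bot_le)
    fun d => ?_
  have hint : Integrable (fun ω => ‖wordTr ω w - φ w‖ ^ 2) (gueMeasure J d) := by
    have i1 := integrable_prod_wordTr (d := d) [w, w.reverse]
    have i2 := (integrable_prod_wordTr (d := d) [w]).const_mul (φ w : ℂ)
    have i3 := (integrable_prod_wordTr (d := d) [w.reverse]).const_mul (φ w : ℂ)
    have i4 := ((i1.sub i2).sub i3).add (integrable_const ((φ w : ℂ) ^ 2))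
    refine (i4.re).congr (Filter.Eventually.of_forall fun ω => ?_)
    have h0 : ((‖wordTr ω w - φ w‖ ^ 2 : ℝ) : ℂ) =
      ([w, w.reverse].map (fun w => wordTr ω w)).prod - φ w * ([w].map (fun w => wordTr ω w)).prod
        - φ w * ([w.reverse].map (fun w => wordTr ω w)).prod + (φ w : ℂ) ^ 2 := by
      rw [← Complex.normSq_eq_norm_sq, Complex.normSq_eq_conj_mul_self, map_sub, conj_wordTr]
      simp
      ring
    have h1 := congrArg Complex.re h0
    rw [Complex.ofReal_re] at h1
    exact h1.symm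
  have h6 := mul_meas_ge_le_integral_of_nonneg (μ := gueMeasure J d)
    (f := fun ω => ‖wordTr ω w - φ w‖ ^ 2) (Filter.Eventually.of_forall fun ω => by positivity)
    hint (ε ^ 2)
  have h7 : {ω : J × (Fin d × Fin d) → ℝ | ε ≤ ‖wordTr ω w - φ w‖} =
      {ω | ε ^ 2 ≤ ‖wordTr ω w - φ w‖ ^ 2} := by
    ext ω
    simp only [Set.mem_ofPred_eq]
    constructor
    · intro h; gcongr
    · intro h; exact (sq_le_sq₀ hε.le (norm_nonneg _)).1 h
  rw [h7]
  have h8 : (gueMeasure J d {ω | ε ^ 2 ≤ ‖wordTr ω w - φ w‖ ^ 2}) =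
      ENNReal.ofReal ((gueMeasure J d).real {ω | ε ^ 2 ≤ ‖wordTr ω w - φ w‖ ^ 2}) := by
    rw [ofReal_measureReal]
  rw [h8]
  refine ENNReal.ofReal_le_ofReal ?_
  rw [le_div_iff₀ (by positivity), mul_comm]
  exact h6

end Crest.Agent.R089
end

-- ▼ part R089/GUENorm
section

/-! Operator norms of GUE matrices are bounded in probability (row 89). -/

set_option autoImplicit false

open MeasureTheory ProbabilityTheory Filter Topology
open scoped ENNReal NNReal

namespace Crest.Agent.R089.GUE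

/-- The operator norm is at most the Frobenius norm. -/
lemma opNorm_sq_le_sum {d : ℕ} (A : Matrix (Fin d) (Fin d) ℂ) :
    ‖Matrix.toEuclideanCLM (n := Fin d) (𝕜 := ℂ) A‖ ^ 2 ≤ ∑ i, ∑ j, ‖A i j‖ ^ 2 := by
  set S : ℝ := ∑ i, ∑ j, ‖A i j‖ ^ 2 with hS
  have hS0 : 0 ≤ S := by positivity
  have h : ‖Matrix.toEuclideanCLM (n := Fin d) (𝕜 := ℂ) A‖ ≤ Real.sqrt S := by
    refine ContinuousLinearMap.opNorm_le_bound _ (Real.sqrt_nonneg _) fun x => ?_
    rw [EuclideanSpace.norm_eq, EuclideanSpace.norm_eq, ← Real.sqrt_mul hS0]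
    refine Real.sqrt_le_sqrt ?_
    rw [hS, Finset.sum_mul]
    refine Finset.sum_le_sum fun i _ => ?_
    rw [Matrix.ofLp_toEuclideanCLM, Matrix.mulVec, dotProduct]
    calc ‖∑ j, A i j * x.ofLp j‖ ^ 2 ≤ (∑ j, ‖A i j‖ * ‖x.ofLp j‖) ^ 2 := by
          gcongr
          refine (norm_sum_le _ _).trans (le_of_eq ?_)
          exact Finset.sum_congr rfl fun j _ => norm_mul _ _
      _ ≤ (∑ j, ‖A i j‖ ^ 2) * ∑ j, ‖x.ofLp j‖ ^ 2 := Finset.sum_mul_sq_le_sq_mul_sq _ _ _
  calc ‖Matrix.toEuclideanCLM (n := Fin d) (𝕜 := ℂ) A‖ ^ 2 ≤ (Real.sqrt S) ^ 2 := by gcongr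
    _ = S := Real.sq_sqrt hS0

lemma sum_norm_sq_eq_trace {d : ℕ} {A : Matrix (Fin d) (Fin d) ℂ} (hA : A.IsHermitian) :
    ((∑ i, ∑ j, ‖A i j‖ ^ 2 : ℝ) : ℂ) = Matrix.trace (A * A) := by
  rw [Matrix.trace]
  push_cast
  refine Finset.sum_congr rfl fun i _ => ?_
  rw [Matrix.diag_apply, Matrix.mul_apply]
  refine Finset.sum_congr rfl fun j _ => ?_
  have h := hA.apply j i
  rw [← h, Complex.star_def, Complex.mul_conj', ← Complex.ofReal_pow]

lemma opNorm_pow_le_trace {d : ℕ} {A : Matrix (Fin d) (Fin d) ℂ} (hA : A.IsHermitian) (k : ℕ) :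
    ‖Matrix.toEuclideanCLM (n := Fin d) (𝕜 := ℂ) A‖ ^ (2 ^ (k + 1)) ≤
      (Matrix.trace (A ^ (2 ^ (k + 1)))).re := by
  have hsa : IsSelfAdjoint (Matrix.toEuclideanCLM (n := Fin d) (𝕜 := ℂ) A) := by
    have : IsSelfAdjoint A := hA
    exact this.map _
  have hB : (A ^ (2 ^ k)).IsHermitian := hA.pow _
  have h1 := IsSelfAdjoint.norm_pow_two_pow
    (E := EuclideanSpace ℂ (Fin d) →L[ℂ] EuclideanSpace ℂ (Fin d)) hsa k
  rw [← map_pow] at h1
  have h2 := opNorm_sq_le_sum (A ^ (2 ^ k))
  have h3 := sum_norm_sq_eq_trace hB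
  rw [← pow_add, ← two_mul, ← pow_succ'] at h3
  have h4 := congrArg Complex.re h3
  rw [Complex.ofReal_re] at h4
  rw [← h4, pow_succ, pow_mul, ← h1]
  exact h2

variable {J : Type*} [Fintype J]

lemma exists_log_bound : ∃ K : ℝ, 0 ≤ K ∧ ∀ L : ℕ, ((4 * (L : ℝ) + 5)) ^ 6 ≤ K * 4 ^ L := by
  have h := (tendsto_pow_const_div_const_pow_of_one_lt 6 (by norm_num : (1 : ℝ) < 4)).bddAbove_range
  obtain ⟨C, hC⟩ := h
  have hC' : ∀ n : ℕ, (n : ℝ) ^ 6 / 4 ^ n ≤ C := fun n => hC ⟨n, rfl⟩
  have hC0 : 0 ≤ C := le_trans (by positivity) (hC' 0)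
  refine ⟨9 ^ 6 * (4 * C), by positivity, fun L => ?_⟩
  have h1 := hC' (L + 1)
  rw [div_le_iff₀ (by positivity)] at h1
  have h2 : (4 * (L : ℝ) + 5) ≤ 9 * ((L + 1 : ℕ) : ℝ) := by
    push_cast
    have : (0 : ℝ) ≤ L := by positivity
    nlinarith
  calc ((4 * (L : ℝ) + 5)) ^ 6 ≤ (9 * ((L + 1 : ℕ) : ℝ)) ^ 6 := by gcongr
    _ = 9 ^ 6 * ((L + 1 : ℕ) : ℝ) ^ 6 := by ring
    _ ≤ 9 ^ 6 * (C * 4 ^ (L + 1)) := by gcongr
    _ = _ := by ring

/-- The trace moments of high order are bounded. -/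
lemma norm_TT_le [DecidableEq J] (d : ℕ) (hd : 1 ≤ d) (j : J) (t : ℕ) :
    ‖TT J d [List.replicate t j]‖ ≤
      (1 + (t : ℝ) * ((t : ℝ) + 1) ^ 4 / (d : ℝ) ^ 2) ^ t * 4 ^ t := by
  have h := (loopRec_TT (J := J)).bound t d hd [List.replicate t j] (by simp)
  refine h.trans ?_
  simp only [tot_cons, tot_nil, List.length_replicate, add_zero, cp_cons, cp_nil, mul_one]
  have : (catalan t : ℝ) ≤ 4 ^ t := by exact_mod_cast catalan_le_four_pow t
  gcongr

lemma measure_norm_le [DecidableEq J] (d : ℕ) (hd : 1 ≤ d) (j : J) (k : ℕ) :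
    gueMeasure J d {ω | 8 < ‖Matrix.toEuclideanCLM (n := Fin d) (𝕜 := ℂ) (gueMat ω j)‖} ≤
      ENNReal.ofReal ((d : ℝ) * ‖TT J d [List.replicate (2 ^ (k + 1)) j]‖ / 8 ^ (2 ^ (k + 1))) := by
  set t : ℕ := 2 ^ (k + 1) with ht
  have hd' : (0 : ℝ) < d := by exact_mod_cast hd
  have hdc : (d : ℂ) ≠ 0 := by exact_mod_cast (by omega : d ≠ 0)
  have hw : ∀ ω : J × (Fin d × Fin d) → ℝ, (d : ℝ) * (wordTr ω (List.replicate t j)).re =
      (Matrix.trace ((gueMat ω j) ^ t)).re := by
    intro ω
    have : (d : ℂ) * wordTr ω (List.replicate t j) = Matrix.trace ((gueMat ω j) ^ t) := by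
      rw [wordTr, List.map_replicate, List.prod_replicate, ← mul_assoc, mul_inv_cancel₀ hdc, one_mul]
    rw [← this]
    simp
  have hle : ∀ ω : J × (Fin d × Fin d) → ℝ,
      ‖Matrix.toEuclideanCLM (n := Fin d) (𝕜 := ℂ) (gueMat ω j)‖ ^ t ≤
        (d : ℝ) * (wordTr ω (List.replicate t j)).re := by
    intro ω
    rw [hw]
    exact opNorm_pow_le_trace (gueMat_isHermitian ω j) k
  have hi0 := integrable_prod_wordTr (J := J) (d := d) [List.replicate t j]
  have hint : Integrable (fun ω : J × (Fin d × Fin d) → ℝ =>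
      (d : ℝ) * (wordTr ω (List.replicate t j)).re) (gueMeasure J d) := by
    refine Integrable.const_mul ?_ _
    refine hi0.re.congr (Filter.Eventually.of_forall fun ω => ?_)
    simp
  have hmk := mul_meas_ge_le_integral_of_nonneg (μ := gueMeasure J d)
    (f := fun ω => (d : ℝ) * (wordTr ω (List.replicate t j)).re)
    (Filter.Eventually.of_forall fun ω => (by positivity : (0 : ℝ) ≤ _).trans (hle ω))
    hint (8 ^ t)
  have hI : ∫ ω, (d : ℝ) * (wordTr ω (List.replicate t j)).re ∂(gueMeasure J d) ≤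
      (d : ℝ) * ‖TT J d [List.replicate t j]‖ := by
    rw [integral_const_mul]
    have h1 := integral_prod_wordTr (J := J) (d := d) [List.replicate t j]
    have h2 : ∫ ω, (wordTr ω (List.replicate t j)).re ∂(gueMeasure J d) =
        (TT J d [List.replicate t j]).re := by
      rw [← h1]
      have := integral_re (𝕜 := ℂ) hi0
      simpa using this
    rw [h2]
    have := Complex.re_le_norm (TT J d [List.replicate t j])
    gcongr
  have hsub : {ω : J × (Fin d × Fin d) → ℝ |
      8 < ‖Matrix.toEuclideanCLM (n := Fin d) (𝕜 := ℂ) (gueMat ω j)‖} ⊆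
      {ω | (8 : ℝ) ^ t ≤ (d : ℝ) * (wordTr ω (List.replicate t j)).re} := by
    intro ω hω
    have h1 : (8 : ℝ) < ‖Matrix.toEuclideanCLM (n := Fin d) (𝕜 := ℂ) (gueMat ω j)‖ := hω
    have h2 : (8 : ℝ) ^ t ≤ ‖Matrix.toEuclideanCLM (n := Fin d) (𝕜 := ℂ) (gueMat ω j)‖ ^ t := by
      gcongr
    exact h2.trans (hle ω)
  refine (measure_mono hsub).trans ?_
  rw [← ofReal_measureReal]
  refine ENNReal.ofReal_le_ofReal ?_
  rw [le_div_iff₀ (by positivity), mul_comm]
  exact hmk.trans hI

end Crest.Agent.R089.GUE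

namespace Crest.Agent.R089

open GUE

/-- (G2) operator norms are bounded with probability tending to one. -/
theorem gue_norm_tendsto (J : Type*) [Fintype J] :
    ∃ C : ℝ, 0 < C ∧ ∀ j : J, Tendsto (fun d : ℕ => gueMeasure J d
      {ω | C < ‖Matrix.toEuclideanCLM (n := Fin d) (𝕜 := ℂ) (gueMat ω j)‖}) atTop (𝓝 0) := by
  classical
  obtain ⟨K, hK0, hK⟩ := exists_log_bound
  refine ⟨8, by norm_num, fun j => ?_⟩
  have hlim : Tendsto (fun d : ℕ => ENNReal.ofReal (Real.exp K / d)) atTop (𝓝 0) := by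
    have h1 : Tendsto (fun d : ℕ => Real.exp K / (d : ℝ)) atTop (𝓝 0) :=
      tendsto_const_nhds.div_atTop tendsto_natCast_atTop_atTop
    simpa using ENNReal.tendsto_ofReal h1
  refine tendsto_of_tendsto_of_tendsto_of_le_of_le' tendsto_const_nhds hlim
    (Filter.Eventually.of_forall fun d => bot_le) ?_
  filter_upwards [eventually_ge_atTop 1] with d hd
  set L : ℕ := Nat.log 2 d with hL
  set k : ℕ := Nat.log 2 (L + 1) + 1 with hk
  refine (measure_norm_le d hd j k).trans (ENNReal.ofReal_le_ofReal ?_)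
  set t : ℕ := 2 ^ (k + 1) with ht
  have hd' : (0 : ℝ) < d := by exact_mod_cast hd
  have hdL1 : 2 ^ L ≤ d := Nat.pow_log_le_self 2 (by omega)
  have hdL2 : d < 2 ^ (L + 1) := Nat.lt_pow_succ_log_self (by norm_num) d
  have ht1 : t ≤ 4 * (L + 1) := by
    have : 2 ^ (Nat.log 2 (L + 1)) ≤ L + 1 := Nat.pow_log_le_self 2 (by omega)
    rw [ht, hk, pow_succ, pow_succ]
    omega
  have ht2 : 2 * (L + 1) ≤ t := by
    have : L + 1 < 2 ^ (Nat.log 2 (L + 1) + 1) := Nat.lt_pow_succ_log_self (by norm_num) _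
    rw [ht, hk, pow_succ]
    omega
  have hb := norm_TT_le d hd j t
  set κ : ℝ := (t : ℝ) * ((t : ℝ) + 1) ^ 4 / (d : ℝ) ^ 2 with hκ
  have hκ0 : 0 ≤ κ := by positivity
  have hκt : κ * t ≤ K := by
    have h1 : (t : ℝ) ≤ 4 * (L : ℝ) + 4 := by
      have : (t : ℝ) ≤ ((4 * (L + 1) : ℕ) : ℝ) := by exact_mod_cast ht1
      push_cast at this
      linarith
    have h2 : (4 : ℝ) ^ L ≤ (d : ℝ) ^ 2 := by
      have : ((2 ^ L : ℕ) : ℝ) ≤ d := by exact_mod_cast hdL1
      push_cast at this
      calc (4 : ℝ) ^ L = ((2 : ℝ) ^ L) ^ 2 := by rw [← pow_mul, mul_comm, pow_mul]; norm_num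
        _ ≤ (d : ℝ) ^ 2 := by gcongr
    have h3 : κ * t ≤ (4 * (L : ℝ) + 5) ^ 6 / (d : ℝ) ^ 2 := by
      rw [hκ, div_mul_eq_mul_div]
      gcongr
      have ht0 : (0 : ℝ) ≤ t := by positivity
      calc (t : ℝ) * ((t : ℝ) + 1) ^ 4 * t ≤ ((t : ℝ) + 1) * ((t : ℝ) + 1) ^ 4 * ((t : ℝ) + 1) := by
            gcongr <;> linarith
        _ = ((t : ℝ) + 1) ^ 6 := by ring
        _ ≤ (4 * (L : ℝ) + 5) ^ 6 := pow_le_pow_left₀ (by positivity) (by linarith) 6
    refine h3.trans ?_
    rw [div_le_iff₀ (by positivity)]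
    exact (hK L).trans (by gcongr)
  have h1 : (1 + κ) ^ t ≤ Real.exp K := by
    calc (1 + κ) ^ t ≤ (Real.exp κ) ^ t := by
          gcongr
          linarith [Real.add_one_le_exp κ]
      _ = Real.exp (κ * t) := by rw [← Real.exp_nat_mul]; ring_nf
      _ ≤ Real.exp K := Real.exp_le_exp.2 hκt
  have h2 : (d : ℝ) ^ 2 ≤ 2 ^ t := by
    have h3 : (d : ℝ) ≤ 2 ^ (L + 1) := by exact_mod_cast hdL2.le
    calc (d : ℝ) ^ 2 ≤ (2 ^ (L + 1)) ^ 2 := by gcongr
      _ = 2 ^ (2 * (L + 1)) := by rw [← pow_mul]; ring_nf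
      _ ≤ 2 ^ t := pow_le_pow_right₀ (by norm_num) ht2
  calc (d : ℝ) * ‖TT J d [List.replicate t j]‖ / 8 ^ t ≤ (d : ℝ) * ((1 + κ) ^ t * 4 ^ t) / 8 ^ t := by
        gcongr
    _ = (d : ℝ) * (1 + κ) ^ t / 2 ^ t := by
        have : (8 : ℝ) ^ t = 4 ^ t * 2 ^ t := by rw [← mul_pow]; norm_num
        rw [this]
        field_simp
    _ ≤ (d : ℝ) * Real.exp K / (d : ℝ) ^ 2 := by gcongr
    _ = Real.exp K / d := by field_simp

end Crest.Agent.R089
end

-- ▼ part R089/ChiLower
section

/-! (F) final form: `⊥ < chi τ (XX r d s)` (helper952). -/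

set_option autoImplicit false

open MeasureTheory ProbabilityTheory Filter Topology
open Crest.OpAlg Crest.Agent.R089.Model
open scoped ENNReal NNReal

namespace Crest.Agent.R089.ChiLower

/-- General microstates lower bound (`GUESkeleton.bot_lt_chi`). -/
theorem bot_lt_chi_general {A : Type*} [Ring A] [Algebra ℂ A] (τ : A →ₗ[ℂ] ℂ) {k n : ℕ}
    (a : Fin k → A) (b : Fin n → A) (φ : List (Fin k ⊕ Fin n) → ℝ) (hφ : IsSD φ)
    (hτ : ∀ w : List (Fin k ⊕ Fin n), τ ((w.map (Sum.elim a b)).prod) = (φ w : ℂ))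
    (Q : Fin n → NCPoly k) (hQ : ∀ i, polyStar (Q i) = Q i) (δ : Fin n → ℝ)
    (hδ : ∀ i, 0 < δ i) :
    ⊥ < chi τ (fun i => polyEval a (Q i) + (Real.sqrt (δ i) : ℂ) • b i) :=
  bot_lt_chi_of τ a b φ (fun w ε hε => gue_moments_tendsto φ hφ w ε hε)
    (gue_norm_tendsto (Fin k ⊕ Fin n)) hτ Q hQ δ hδ

/-- (F) `MainSkel.bot_lt_chi`. -/
theorem bot_lt_chi (r : ℕ) (d : ℝ) (hd : 0 < d) {A : Type} [CStarAlgebra A]
    (τ : A →ₗ[ℂ] ℂ) (s : Jx r → A) (φ : List (Jx r) → ℝ) (h : IsModel τ s φ) :
    ⊥ < chi τ (XX r d s) := by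
  have hSD : IsSD (fun w : List (Fin (kk r) ⊕ Fin (nn r)) => φ (w.map Sum.inl)) :=
    h.sd.comap Sum.inl Sum.inl_injective
  refine bot_lt_chi_general τ (fun j => s (Sum.inl (Sum.inl j)))
    (fun i => s (Sum.inl (Sum.inr i)))
    (fun w => φ (w.map Sum.inl)) hSD (fun w => ?_)
    (QQ r) (fun i => polyStar_QQ r i) (delt r d) (fun i => delt_pos r d hd i)
  rw [← h.mom, List.map_map]
  congr 3
  funext x
  rcases x with x | x <;> rfl

end Crest.Agent.R089.ChiLower
end

-- ▼ part R089/Chaos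
section

/-!
# R089: Schwinger-Dyson functionals are tracial; coefficients of words in the Fock space;
chaos coefficients of polynomials in `Z_j = Y_j + ν_j s_j`.
-/

set_option autoImplicit false

namespace Crest.Agent.R089

section trace

variable {L : Type*} [DecidableEq L]

theorem sd_last {m : List L → ℝ} (h0 : m [] = 1)
    (h : ∀ a x, m (a :: x) = ss (fun p b q => if b = a then m p * m q else 0) x)
    (x : List L) (a : L) :
    m (x ++ [a]) = ss (fun p b q => if b = a then m p * m q else 0) x := by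
  induction' hn : x.length using Nat.strong_induction_on with n ih generalizing x
  cases x with
  | nil => simp [h]
  | cons c x =>
    rw [List.cons_append, h, ss_append]
    have e1 : ss (fun p b q => if b = c then m p * m (q ++ [a]) else 0) x =
        ss (fun p b q => ss (fun p' b' q' => if b = c then (if b' = a then
          m p * (m p' * m q') else 0) else 0) q) x := by
      refine ss_congr x fun p b q hx => ?_
      split_ifs with hb
      · rw [ih q.length (by rw [← hn, ← hx]; simp; omega) q rfl, ← ss_mul_left]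
        exact ss_congr _ fun p' b' q' _ => by split_ifs <;> simp
      · simp
    have e2 : ss (fun p b q => if b = c then m (x ++ p) * m q else 0) [a] =
        if a = c then m x else 0 := by
      simp [ss_cons, h0]
    rw [e1, e2, ss_cons, add_comm, ss_ss (fun p b p' b' q' => if b = c then (if b' = a then
          m p * (m p' * m q') else 0) else 0)]
    congr 1
    · simp only [h0, one_mul]
      by_cases hac : a = c
      · subst hac; simp
      · rw [if_neg hac, if_neg (fun hh => hac hh.symm)]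
    · refine ss_congr x fun U' j U'' _ => ?_
      by_cases hj : j = a
      · subst hj
        simp only [if_true]
        rw [h, ← ss_mul_right]
        exact ss_congr _ fun p' b' q' _ => by split_ifs <;> ring
      · simp [hj]

/-- Schwinger-Dyson functionals are tracial. -/
theorem isSC_of_sd {m : List L → ℝ} (h0 : m [] = 1)
    (h : ∀ a x, m (a :: x) = ss (fun p b q => if b = a then m p * m q else 0) x) : IsSC m := by
  refine ⟨h0, h, fun x => ?_⟩
  induction x with
  | nil => intro y; simp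
  | cons a x ih =>
    intro y
    have e1 : m (a :: x ++ y) = m ((x ++ y) ++ [a]) := by
      rw [sd_last h0 h, List.cons_append, h]
    rw [e1, List.append_assoc, ih (y ++ [a]), List.append_assoc, List.singleton_append]


/-- The coefficient of the word `x` applied to the vacuum at the basis vector `z`. -/
def cf : List L → List L → ℝ
  | [], z => if z = [] then 1 else 0
  | a :: x, z => cf x (a :: z) +
      (match z with
        | [] => 0
        | b :: z' => if b = a then cf x z' else 0)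

theorem cf_nil (z : List L) : cf ([] : List L) z = if z = [] then 1 else 0 := by
  rw [cf]

theorem cf_cons_nil (a : L) (x : List L) : cf (a :: x) [] = cf x [a] := by
  rw [cf, add_zero]

theorem cf_cons_cons (a b : L) (x z : List L) :
    cf (a :: x) (b :: z) = cf x (a :: b :: z) + if b = a then cf x z else 0 := by
  rw [cf]

/-- **Lemma A**: the coefficients are iterated split pairings of the vacuum moments. -/
theorem cf_eq_DD (x z : List L) : cf x z = DD (fun u => cf u []) z x := by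
  induction' hn : x.length using Nat.strong_induction_on with n ih generalizing x z
  cases x with
  | nil =>
    cases z with
    | nil => simp [DD_nil]
    | cons g z => simp [cf_nil, DD_cons]
  | cons a x =>
    cases z with
    | nil => rw [DD_nil]
    | cons g z =>
      rw [cf_cons_cons, DD_cons, ss_cons, ih x.length (by simp [← hn]) x (a :: g :: z) rfl,
        ih x.length (by simp [← hn]) x z rfl, DD_cons, add_comm]
      congr 1
      · simp only [cf_nil, if_true, one_mul]
        by_cases hga : g = a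
        · subst hga; simp
        · rw [if_neg hga, if_neg (fun hh => hga hh.symm)]
      · have e1 : ss (fun U' i U'' => if i = a then
            cf U' [] * DD (fun u => cf u []) (g :: z) U'' else 0) x =
            ss (fun U' i U'' => ss (fun A b B => if i = a then (if b = g then
              cf U' [] * (cf A [] * DD (fun u => cf u []) z B) else 0) else 0) U'') x := by
          refine ss_congr x fun U' i U'' _ => ?_
          split_ifs
          · rw [DD_cons, ← ss_mul_left]
            exact ss_congr _ fun _ _ _ _ => by split_ifs <;> simp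
          · simp
        rw [e1, ss_ss (fun U' i A b B => if i = a then (if b = g then
              cf U' [] * (cf A [] * DD (fun u => cf u []) z B) else 0) else 0)]
        refine ss_congr x fun U' j U'' hx => ?_
        by_cases hj : j = g
        · subst hj
          simp only [if_true]
          rw [cf_cons_nil, ih U'.length (by rw [← hn, ← hx]; simp) U' [a] rfl, DD_cons,
            ← ss_mul_right]
          refine ss_congr _ fun p b q _ => ?_
          rw [DD_nil]
          split_ifs <;> ring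
        · simp [hj]

/-- The vacuum moments `m u = cf u []` form a semicircular system. -/
theorem isSC_cf : IsSC (fun u : List L => cf u []) := by
  refine isSC_of_sd (by simp [cf_nil]) fun a x => ?_
  rw [cf_cons_nil, cf_eq_DD x [a], DD_cons]
  rfl

end trace

section chaos

variable {H I E : Type*} [DecidableEq H] [DecidableEq I] [Fintype E]

/-- coefficients of the blocks `Z_i = Y_i + ν_i s_i`, `Y_i = ∑ e, c i e • (word wh i e)`. -/
def cZ (c : I → E → ℝ) (ν : I → ℝ) : I → Option E → ℝ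
  | i, none => ν i
  | i, some e => c i e

/-- words of the blocks `Z_i = Y_i + ν_i s_i`. -/
def wZ (wh : I → E → List H) : I → Option E → List (H ⊕ I)
  | i, none => [Sum.inr i]
  | i, some e => (wh i e).map Sum.inl

variable (c : I → E → ℝ) (ν : I → ℝ) (wh : I → E → List H) (m : List (H ⊕ I) → ℝ)

theorem tau2_DD_cons (j : I) (z : List (H ⊕ I)) (x : List (H ⊕ I)) (U : List I) :
    tau2 (DD m (Sum.inr j :: z)) (cZ c ν) (wZ wh) x U =
      ss (fun p b q => if b = Sum.inr j then
        m p * tau2 (DD m z) (cZ c ν) (wZ wh) q U else 0) x +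
      ss (fun U' i U'' => if i = j then
        ν j * (tau2 m (cZ c ν) (wZ wh) x U' * tau2 (DD m z) (cZ c ν) (wZ wh) [] U'')
          else 0) U := by
  induction U generalizing x with
  | nil =>
    simp only [tau2_nil, ss_nil, add_zero]
    rw [DD_cons]
  | cons i0 U ih =>
    rw [tau2_cons, ss_cons]
    have e1 : ∀ e, tau2 (DD m (Sum.inr j :: z)) (cZ c ν) (wZ wh) (x ++ wZ wh i0 e) U =
        ss (fun p b q => if b = Sum.inr j then
          m p * tau2 (DD m z) (cZ c ν) (wZ wh) (q ++ wZ wh i0 e) U else 0) x +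
        ss (fun p b q => if b = Sum.inr j then
          m (x ++ p) * tau2 (DD m z) (cZ c ν) (wZ wh) q U else 0) (wZ wh i0 e) +
        ss (fun U' i U'' => if i = j then
          ν j * (tau2 m (cZ c ν) (wZ wh) (x ++ wZ wh i0 e) U' *
            tau2 (DD m z) (cZ c ν) (wZ wh) [] U'') else 0) U := by
      intro e
      rw [ih (x ++ wZ wh i0 e), ss_append]
    simp only [e1, mul_add, Finset.sum_add_distrib]
    rw [add_assoc]
    congr 1
    · rw [Finset.sum_congr rfl fun e _ => (ss_mul_left (cZ c ν i0 e) _ x).symm, ← ss_finset_sum]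
      refine ss_congr _ fun p b q _ => ?_
      split_ifs
      · rw [tau2_cons, Finset.mul_sum]
        exact Finset.sum_congr rfl fun e _ => by ring
      · simp
    · congr 1
      · rw [Fintype.sum_option]
        have hz : ∀ e : E, cZ c ν i0 (some e) * ss (fun p b q => if b = Sum.inr j then
            m (x ++ p) * tau2 (DD m z) (cZ c ν) (wZ wh) q U else 0) (wZ wh i0 (some e)) = 0 := by
          intro e
          have : ∀ l : List H, ss (fun p b q => if b = Sum.inr j then
            m (x ++ p) * tau2 (DD m z) (cZ c ν) (wZ wh) q U else 0) (l.map Sum.inl) = 0 := by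
            intro l
            rw [ss_congr (F' := fun _ _ _ => (0 : ℝ))]
            · exact ss_zero _
            · intro p b q hpq
              have hb : b ∈ l.map (Sum.inl : H → H ⊕ I) := by rw [← hpq]; simp
              obtain ⟨a, -, rfl⟩ := List.mem_map.1 hb
              simp
          rw [show wZ wh i0 (some e) = (wh i0 e).map Sum.inl from rfl, this, mul_zero]
        rw [Finset.sum_congr rfl fun e _ => hz e, Finset.sum_const_zero, add_zero]
        change ν i0 * ss _ [Sum.inr i0] = _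
        simp only [ss_cons, ss_nil, add_zero, List.append_nil, Sum.inr.injEq, tau2_nil]
        by_cases hij : i0 = j
        · subst hij; simp
        · simp [hij]
      · rw [Finset.sum_congr rfl fun e _ => (ss_mul_left (cZ c ν i0 e) _ U).symm,
          ← ss_finset_sum]
        refine ss_congr _ fun U' i U'' _ => ?_
        split_ifs
        · rw [tau2_cons, Finset.sum_mul, Finset.mul_sum]
          exact Finset.sum_congr rfl fun e _ => by ring
        · simp

/-- **Lemma B**: chaos coefficients of the products of blocks. -/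
theorem tau2_DD_noise (v U : List I) :
    tau2 (DD m (v.map Sum.inr)) (cZ c ν) (wZ wh) [] U =
      (v.map ν).prod * DD (tau2 m (cZ c ν) (wZ wh) []) v U := by
  induction v generalizing U with
  | nil =>
    simp only [List.map_nil, List.prod_nil, one_mul, DD_nil]
    rfl
  | cons j v ih =>
    rw [List.map_cons, tau2_DD_cons, ss_nil, zero_add, List.map_cons, List.prod_cons, DD_cons,
      ← ss_mul_left]
    refine ss_congr _ fun U' i U'' _ => ?_
    split_ifs
    · rw [ih]; ring
    · simp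

end chaos

end Crest.Agent.R089
private theorem rz_4ca9a46356 : type_of% @_root_.Crest.Agent.R089.cf.eq_def := @_root_.Crest.Agent.R089.cf.eq_def -- L70
private theorem rz_77643f702b : type_of% @_root_.Crest.Agent.R089.cf.eq_1 := @_root_.Crest.Agent.R089.cf.eq_1 -- L70
private theorem rz_ecf072bdb9 : type_of% @_root_.Crest.Agent.R089.wZ.eq_1 := @_root_.Crest.Agent.R089.wZ.eq_1 -- L146
end

-- ▼ part R089/XiBound
section

/-!
# R089: the cumulants of the hidden polynomials `Y_i` and the `ℓ²` bound.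
-/

set_option autoImplicit false

namespace Crest.Agent.R089

open Finset

theorem ss_map {α β R : Type*} [AddCommMonoid R] (f : α → β) (F : List β → β → List β → R)
    (l : List α) :
    ss F (l.map f) = ss (fun p b q => F (p.map f) (f b) (q.map f)) l := by
  induction l generalizing F with
  | nil => rfl
  | cons a l ih =>
    rw [List.map_cons, ss_cons, ss_cons, ih]
    rfl

section xi

variable {H I E : Type*} [DecidableEq H] [DecidableEq I] [Fintype E]

/-- restriction of the moments to hidden letters -/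
def mH (m : List (H ⊕ I) → ℝ) : List H → ℝ := fun u => m (u.map Sum.inl)

theorem isSC_mH {m : List (H ⊕ I) → ℝ} (h : IsSC m) : IsSC (mH m) := by
  refine isSC_of_sd (by simp [mH, h.nil]) fun a x => ?_
  simp only [mH]
  rw [List.map_cons, h.cons, ss_map]
  simp only [Sum.inl.injEq]

variable (c : I → E → ℝ) (ν : I → ℝ) (wh : I → E → List H) (m : List (H ⊕ I) → ℝ)

/-- The noise does not contribute to the cumulants of hidden words. -/
theorem kap_noise (x : List H) (v : List I) :
    kap m (cZ c ν) (wZ wh) (x.map Sum.inl) v = kap (mH m) c wh x v := by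
  induction' hn : v.length using Nat.strong_induction_on with n ih generalizing x v
  induction' hk : x.length using Nat.strong_induction_on with k ihx generalizing x
  cases x with
  | nil => rw [List.map_nil, kap_nil, kap_nil]
  | cons a x =>
    rw [List.map_cons, kap_cons, kap_cons, ss_map]
    congr 1
    · refine ss_congr _ fun p b q hx => ?_
      simp only [Sum.inl.injEq]
      split_ifs
      · rw [ihx q.length (by rw [← hk, ← hx]; simp; omega) q rfl]
        rfl
      · rfl
    · refine ss_congr _ fun v' j v'' hv => ?_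
      rw [Fintype.sum_option]
      have h0 : cZ c ν j none * ss (fun p b q => if b = Sum.inl a then
          kap m (cZ c ν) (wZ wh) (p ++ List.map Sum.inl x) v' *
            kap m (cZ c ν) (wZ wh) q v'' else 0) (wZ wh j none) = 0 := by
        simp [wZ, ss_cons]
      rw [h0, zero_add]
      refine Finset.sum_congr rfl fun e _ => ?_
      change c j e * ss _ ((wh j e).map Sum.inl) = _
      rw [ss_map]
      congr 1
      refine ss_congr _ fun p b q _ => ?_
      simp only [Sum.inl.injEq]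
      split_ifs
      · rw [← List.map_append, ih v'.length (by rw [← hn, ← hv]; simp) (p ++ x) v' rfl,
          ih v''.length (by rw [← hn, ← hv]; simp; omega) q v'' rfl]
      · rfl

/-- Moments of words in the `Y_i`. -/
noncomputable def mY : List I → ℝ := tau2 (mH m) c wh []

/-- The cumulants of the `Y_i`. -/
noncomputable def kapY (i : I) (v : List I) : ℝ := ∑ e, c i e * kap (mH m) c wh (wh i e) v

theorem kapY_nonneg (h : IsSC m) (hc : ∀ j e, 0 ≤ c j e) (i : I) (v : List I) :
    0 ≤ kapY c wh m i v :=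
  Finset.sum_nonneg fun e _ => mul_nonneg (hc _ _) (kap_nonneg _ _ _ (isSC_mH h) hc _ _)

theorem kapY_le (h : IsSC m) (hc : ∀ j e, 0 ≤ c j e) (i : I) (v : List I) :
    kapY c wh m i v ≤ mY c wh m (i :: v) := by
  rw [mY, tau2_cons]
  refine Finset.sum_le_sum fun e _ => ?_
  rw [List.nil_append]
  exact mul_le_mul_of_nonneg_left (kap_le_tau2 _ _ _ (isSC_mH h) hc _ _) (hc _ _)

/-- The moment-cumulant formula for `Y_i` against words in the `Z_j = Y_j + ν_j s_j`. -/
theorem hasSum_kapY (h : IsSC m) (i : I) (U : List I) :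
    HasSum (fun v => kapY c wh m i v * DD (tau2 m (cZ c ν) (wZ wh) []) v U)
      (∑ e, c i e * tau2 m (cZ c ν) (wZ wh) ((wh i e).map Sum.inl) U) := by
  simp only [kapY, Finset.sum_mul]
  refine hasSum_sum fun e _ => ?_
  simp only [mul_assoc]
  refine HasSum.mul_left _ ?_
  rw [tau2_eq_GG m _ _ h]
  have := GG_hasSum (tau2 m (cZ c ν) (wZ wh) [])
    (kap m (cZ c ν) (wZ wh) ((wh i e).map Sum.inl)) U
  simpa only [kap_noise] using this


/-- `κ(i; ∅) = τ(Y_i)`. -/
theorem kapY_nil (h : IsSC m) (i : I) : kapY c wh m i [] = mY c wh m [i] := by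
  rw [mY, tau2_cons, kapY]
  refine Finset.sum_congr rfl fun e _ => ?_
  have := tau2_eq_GG (mH m) c wh (isSC_mH h) (wh i e) []
  rw [GG_nil, tau2_nil, tau2_nil, (isSC_mH h).nil, mul_one] at this
  rw [List.nil_append, tau2_nil, this]

/-- `κ(i; j) = τ(Y_i Y_j)` for centred `Y`. -/
theorem kapY_single (h : IsSC m) (h0 : ∀ j, mY c wh m [j] = 0) (i j : I) :
    kapY c wh m i [j] = mY c wh m [i, j] := by
  have e : mY c wh m [i, j] = kapY c wh m i [j] + kapY c wh m i [] * mY c wh m [j] := by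
    simp only [mY, kapY]
    rw [tau2_cons, Finset.sum_mul, ← Finset.sum_add_distrib]
    refine Finset.sum_congr rfl fun e _ => ?_
    have := tau2_eq_GG (mH m) c wh (isSC_mH h) (wh i e) [j]
    rw [GG_cons, GG_nil, GG_nil, tau2_nil, (isSC_mH h).nil] at this
    rw [List.nil_append, this, List.nil_append]
    ring
  rw [e, h0 j, mul_zero, add_zero]

variable [Fintype I]

/-- Every finite set of lists is dominated by the lists of bounded length. -/
theorem sum_list_le (f : List I → ℝ) (hf : ∀ u, 0 ≤ f u) (s : Finset (List I)) :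
    ∃ M : ℕ, ∑ u ∈ s, f u ≤ ∑ k ∈ range M, ∑ u : Fin k → I, f (List.ofFn u) := by
  classical
  refine ⟨s.sup List.length + 1, ?_⟩
  rw [Finset.sum_sigma']
  rw [← Finset.sum_image (f := f)
    (g := fun p : (Σ k : ℕ, (Fin k → I)) => List.ofFn p.2)
    (s := (range (s.sup List.length + 1)).sigma fun k => (univ : Finset (Fin k → I)))]
  · refine Finset.sum_le_sum_of_subset_of_nonneg (fun u hu => ?_) fun u _ _ => hf u
    rw [Finset.mem_image]
    refine ⟨⟨u.length, u.get⟩, ?_, by simp⟩
    simp only [Finset.mem_sigma, Finset.mem_range, Finset.mem_univ, and_true]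
    exact Nat.lt_succ_of_le (Finset.le_sup hu)
  · rintro ⟨k, u⟩ _ ⟨k', u'⟩ _ huu
    have hk : k = k' := by simpa using congrArg List.length huu
    subst hk
    simpa using huu

/-- The weights. -/
noncomputable def wt (vv : I → ℝ) (u : List I) : ℝ := (u.map fun j => (vv j)⁻¹).prod

theorem wt_nonneg {vv : I → ℝ} (hv : ∀ j, 0 < vv j) (u : List I) : 0 ≤ wt vv u := by
  unfold wt
  refine List.prod_nonneg fun x hx => ?_
  obtain ⟨j, -, rfl⟩ := List.mem_map.1 hx
  exact (inv_pos.2 (hv j)).le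

theorem wt_le {vv : I → ℝ} {t : ℝ} (ht : 0 < t) (hv : ∀ j, t ≤ vv j) (u : List I) :
    wt vv u ≤ (t⁻¹) ^ u.length := by
  induction u with
  | nil => simp [wt]
  | cons j u ih =>
    have h1 : wt vv (j :: u) = (vv j)⁻¹ * wt vv u := by simp [wt]
    rw [h1, List.length_cons, pow_succ', ]
    have h2 : (vv j)⁻¹ ≤ t⁻¹ := inv_anti₀ ht (hv j)
    exact mul_le_mul h2 ih (wt_nonneg (fun j => ht.trans_le (hv j)) u) (inv_nonneg.2 ht.le)

/-- The summand of the squared norm of the chaos part. -/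
noncomputable def xiT (vv : I → ℝ) (i : I) (u : List I) : ℝ := kapY c wh m i u ^ 2 * wt vv u

theorem xiT_nonneg {vv : I → ℝ} (hv : ∀ j, 0 < vv j) (i : I) (u : List I) :
    0 ≤ xiT c wh m vv i u := mul_nonneg (sq_nonneg _) (wt_nonneg hv u)

theorem xi_level (h : IsSC m) (hc : ∀ j e, 0 ≤ c j e) {vv : I → ℝ} {t Lc C G : ℝ} (ht : 0 < t)
    (hv : ∀ j, t ≤ vv j) (hL0 : 0 ≤ Lc) (hL : ∀ u, mY c wh m u ≤ Lc ^ u.length)
    (hG : ∀ i k, ∑ u : Fin k → I, mY c wh m (i :: List.ofFn u) ≤ C * G ^ k) (i : I) (k : ℕ) :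
    ∑ u : Fin k → I, xiT c wh m vv i (List.ofFn u) ≤ C * Lc * (Lc * G / t) ^ k := by
  have h1 : ∀ u : Fin k → I, xiT c wh m vv i (List.ofFn u) ≤
      (Lc ^ (k + 1) * (t⁻¹) ^ k) * mY c wh m (i :: List.ofFn u) := by
    intro u
    have a1 := kapY_nonneg c wh m h hc i (List.ofFn u)
    have a2 := kapY_le c wh m h hc i (List.ofFn u)
    have a3 := hL (i :: List.ofFn u)
    have a4 := wt_le ht hv (List.ofFn u)
    have a5 := wt_nonneg (fun j => ht.trans_le (hv j)) (List.ofFn u) (vv := vv)
    simp only [List.length_cons, List.length_ofFn] at a3 a4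
    have a6 : 0 ≤ mY c wh m (i :: List.ofFn u) := a1.trans a2
    have a7 : kapY c wh m i (List.ofFn u) ^ 2 ≤ Lc ^ (k + 1) * mY c wh m (i :: List.ofFn u) := by
      rw [sq]
      exact mul_le_mul (a2.trans a3) a2 a1 (pow_nonneg hL0 _)
    calc xiT c wh m vv i (List.ofFn u)
        = kapY c wh m i (List.ofFn u) ^ 2 * wt vv (List.ofFn u) := rfl
      _ ≤ (Lc ^ (k + 1) * mY c wh m (i :: List.ofFn u)) * (t⁻¹) ^ k :=
          mul_le_mul a7 a4 a5 (mul_nonneg (pow_nonneg hL0 _) a6)
      _ = _ := by ring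
  calc ∑ u : Fin k → I, xiT c wh m vv i (List.ofFn u)
      ≤ ∑ u : Fin k → I, (Lc ^ (k + 1) * (t⁻¹) ^ k) * mY c wh m (i :: List.ofFn u) :=
        Finset.sum_le_sum fun u _ => h1 u
    _ = (Lc ^ (k + 1) * (t⁻¹) ^ k) * ∑ u : Fin k → I, mY c wh m (i :: List.ofFn u) := by
        rw [Finset.mul_sum]
    _ ≤ (Lc ^ (k + 1) * (t⁻¹) ^ k) * (C * G ^ k) :=
        mul_le_mul_of_nonneg_left (hG i k)
          (mul_nonneg (pow_nonneg hL0 _) (pow_nonneg (inv_nonneg.2 ht.le) _))
    _ = C * Lc * (Lc * G / t) ^ k := by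
        rw [div_eq_mul_inv, mul_pow, mul_pow, pow_succ]; ring

/-- the `ℓ²` bound -/
theorem xi_sum_le (h : IsSC m) (hc : ∀ j e, 0 ≤ c j e) (h0 : ∀ j, mY c wh m [j] = 0)
    {vv : I → ℝ} {t Lc C G : ℝ} (ht : 0 < t)
    (hv : ∀ j, t ≤ vv j) (hL0 : 0 ≤ Lc) (hC : 0 ≤ C) (hG0 : 0 ≤ G)
    (hL : ∀ u, mY c wh m u ≤ Lc ^ u.length)
    (hG : ∀ i k, ∑ u : Fin k → I, mY c wh m (i :: List.ofFn u) ≤ C * G ^ k)
    (hb : Lc * G * (C * Lc + 1) ≤ t) (i : I) (s : Finset (List I)) :
    ∑ u ∈ s, xiT c wh m vv i u ≤ 1 := by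
  obtain ⟨M, hM⟩ := sum_list_le (xiT c wh m vv i)
    (xiT_nonneg c wh m (fun j => ht.trans_le (hv j)) i) s
  refine hM.trans ?_
  set ρ := Lc * G / t with hρ
  have hρ0 : 0 ≤ ρ := by positivity
  have hCL : 0 ≤ C * Lc := by positivity
  have hρ1 : ρ * (C * Lc + 1) ≤ 1 := by
    rw [hρ, div_mul_eq_mul_div, div_le_one ht]; exact hb
  have key : ∀ M, ∑ k ∈ range M, ∑ u : Fin k → I, xiT c wh m vv i (List.ofFn u) ≤ 1 := by
    intro M
    have h2 : ∀ M, ∑ k ∈ range (M + 1), ∑ u : Fin k → I, xiT c wh m vv i (List.ofFn u) ≤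
        1 - ρ ^ M := by
      intro M
      induction M with
      | zero =>
        rw [Finset.sum_range_one]
        have h5 : xiT c wh m vv i [] = 0 := by
          rw [xiT, kapY_nil c wh m h, h0]
          simp
        simp [h5]
      | succ M ih =>
        rw [Finset.sum_range_succ]
        have h3 := xi_level c wh m h hc ht hv hL0 hL hG i (M + 1)
        rw [← hρ] at h3
        have h4 : C * Lc * ρ ^ (M + 1) ≤ ρ ^ M - ρ ^ (M + 1) := by
          have : ρ ^ M * (ρ * (C * Lc + 1)) ≤ ρ ^ M * 1 :=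
            mul_le_mul_of_nonneg_left hρ1 (pow_nonneg hρ0 _)
          rw [pow_succ]
          nlinarith
        linarith
    cases M with
    | zero => simp
    | succ M =>
      refine (h2 M).trans ?_
      have := pow_nonneg hρ0 M
      linarith
  exact key M

theorem xi_summable (h : IsSC m) (hc : ∀ j e, 0 ≤ c j e) (h0 : ∀ j, mY c wh m [j] = 0)
    {vv : I → ℝ} {t Lc C G : ℝ} (ht : 0 < t)
    (hv : ∀ j, t ≤ vv j) (hL0 : 0 ≤ Lc) (hC : 0 ≤ C) (hG0 : 0 ≤ G)
    (hL : ∀ u, mY c wh m u ≤ Lc ^ u.length)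
    (hG : ∀ i k, ∑ u : Fin k → I, mY c wh m (i :: List.ofFn u) ≤ C * G ^ k)
    (hb : Lc * G * (C * Lc + 1) ≤ t) (i : I) :
    Summable (xiT c wh m vv i) ∧ ∑' u, xiT c wh m vv i u ≤ 1 := by
  have h1 := xi_sum_le c wh m h hc h0 ht hv hL0 hC hG0 hL hG hb i
  have h2 := xiT_nonneg c wh m (fun j => ht.trans_le (hv j)) i (vv := vv)
  exact ⟨summable_of_sum_le h2 h1, Real.tsum_le_of_sum_le h2 h1⟩

end xi

end Crest.Agent.R089
end

-- ▼ part R089/FnModel
section

set_option autoImplicit false
set_option linter.unusedSectionVars false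

/-!
R089 (S0118), function-level Fock model (helper459).

`J` = set of letters.  All real functions on `List J`; `ann j`, `cre j`, `sOp j = ann j + cre j`.
`phiFn w = (s_{w_1} ⋯ s_{w_k} δ_[]) []` is the semicircular law.
-/

namespace Crest.Agent.R089.Fn

open Crest.Agent.R089

section defs
variable {J : Type*} [DecidableEq J]

/-- annihilation operator at the level of functions. -/
def ann (j : J) : Module.End ℝ (List J → ℝ) where
  toFun f z := f (j :: z)
  map_add' _ _ := rfl
  map_smul' _ _ := rfl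

/-- creation operator at the level of functions. -/
def cre (j : J) : Module.End ℝ (List J → ℝ) where
  toFun f z := match z with
    | [] => 0
    | a :: z' => if a = j then f z' else 0
  map_add' f g := by
    funext z
    cases z with
    | nil => simp
    | cons a z =>
      by_cases h : a = j <;> simp [h]
  map_smul' c f := by
    funext z
    cases z with
    | nil => simp
    | cons a z =>
      by_cases h : a = j <;> simp [h]

/-- the field operator `s_j = l_j^* + l_j`. -/
def sOp (j : J) : Module.End ℝ (List J → ℝ) := ann j + cre j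

/-- the vacuum function. -/
def del : List J → ℝ := fun z => match z with
  | [] => 1
  | _ :: _ => 0

@[simp] theorem ann_apply (j : J) (f : List J → ℝ) (z : List J) : ann j f z = f (j :: z) := rfl
@[simp] theorem cre_nil (j : J) (f : List J → ℝ) : cre j f [] = 0 := rfl
@[simp] theorem cre_cons (j a : J) (f : List J → ℝ) (z : List J) :
    cre j f (a :: z) = if a = j then f z else 0 := rfl
theorem sOp_apply (j : J) (f : List J → ℝ) (z : List J) : sOp j f z = f (j :: z) + cre j f z := rfl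
@[simp] theorem sOp_nil (j : J) (f : List J → ℝ) : sOp j f [] = f [j] := by
  rw [sOp_apply]; simp
@[simp] theorem sOp_cons (j a : J) (f : List J → ℝ) (z : List J) :
    sOp j f (a :: z) = f (j :: a :: z) + if a = j then f z else 0 := rfl
omit [DecidableEq J] in
@[simp] theorem del_nil : (del : List J → ℝ) [] = 1 := rfl
omit [DecidableEq J] in
@[simp] theorem del_cons (a : J) (z : List J) : (del : List J → ℝ) (a :: z) = 0 := rfl

/-- `s_w = s_{w_1} ⋯ s_{w_k}`. -/
def sWord (w : List J) : Module.End ℝ (List J → ℝ) := (w.map sOp).prod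

@[simp] theorem sWord_nil : sWord ([] : List J) = 1 := rfl
@[simp] theorem sWord_cons (j : J) (w : List J) : sWord (j :: w) = sOp j * sWord w := by
  simp [sWord]
theorem sWord_append (u w : List J) : sWord (u ++ w) = sWord u * sWord w := by
  simp [sWord]

/-- the semicircular law. -/
def phiFn (w : List J) : ℝ := sWord w del []

theorem sWord_split (w : List J) : ∀ (x : List J) (j : J),
    sWord w del (x ++ [j]) = ∑ k ∈ Finset.range w.length,
      if w[k]? = some j then sWord (w.take k) del x * phiFn (w.drop (k + 1)) else 0 := by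
  induction w with
  | nil => intro x j; cases x <;> simp
  | cons g w ih =>
    intro x j
    rw [List.length_cons, Finset.sum_range_succ']
    simp only [List.getElem?_cons_succ, List.take_succ_cons, List.drop_succ_cons,
      List.getElem?_cons_zero, List.take_zero, List.drop_zero]
    rw [sWord_cons]
    show sOp g (sWord w del) (x ++ [j]) = _
    cases x with
    | nil =>
      rw [List.nil_append, sOp_cons]
      have h1 := ih [g] j
      rw [List.singleton_append] at h1
      rw [h1]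
      congr 1
      · refine Finset.sum_congr rfl fun k _ => ?_
        split_ifs with h
        · rw [sWord_cons]
          show _ = (sOp g (sWord (w.take k) del)) [] * _
          rw [sOp_nil]
        · rfl
      · by_cases h : j = g
        · subst h; simp [phiFn]
        · have h' : ¬ (some g = some j) := fun h2 => h (Option.some.inj h2).symm
          simp [h, h']
    | cons a x =>
      rw [List.cons_append, sOp_cons]
      have h1 := ih (g :: a :: x) j
      simp only [List.cons_append] at h1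
      rw [h1]
      have h2 := ih x j
      rw [h2]
      have h3 : (if some g = some j then sWord ([] : List J) del (a :: x) * phiFn w else 0) = 0 := by
        simp
      rw [h3, add_zero]
      by_cases ha : a = g
      · subst ha
        rw [if_pos rfl, ← Finset.sum_add_distrib]
        refine Finset.sum_congr rfl fun k _ => ?_
        split_ifs with h
        · rw [sWord_cons]
          show _ = (sOp a (sWord (w.take k) del)) (a :: x) * _
          rw [sOp_cons, if_pos rfl]
          ring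
        · simp
      · rw [if_neg ha, add_zero]
        refine Finset.sum_congr rfl fun k _ => ?_
        split_ifs with h
        · rw [sWord_cons]
          show _ = (sOp g (sWord (w.take k) del)) (a :: x) * _
          rw [sOp_cons, if_neg ha, add_zero]
        · rfl

theorem isSD_phiFn : IsSD (phiFn : List J → ℝ) where
  nil := rfl
  cons j w := by
    have := sWord_split w [] j
    rw [List.nil_append] at this
    show sWord (j :: w) del [] = _
    rw [sWord_cons]
    show sOp j (sWord w del) [] = _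
    rw [sOp_nil, this]
    rfl

theorem isSD_unique {φ ψ : List J → ℝ} (hφ : IsSD φ) (hψ : IsSD ψ) : φ = ψ := by
  funext w
  induction hn : w.length using Nat.strong_induction_on generalizing w with
  | _ n ih =>
    cases w with
    | nil => rw [hφ.nil, hψ.nil]
    | cons j w =>
      rw [hφ.cons, hψ.cons]
      refine Finset.sum_congr rfl fun k hk => ?_
      rw [Finset.mem_range] at hk
      rw [List.length_cons] at hn
      split_ifs with h
      · rw [ih (w.take k).length (by rw [List.length_take]; omega) (w.take k) rfl,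
          ih (w.drop (k+1)).length (by rw [List.length_drop]; omega) (w.drop (k+1)) rfl]
      · rfl

theorem isSD_eq_phiFn {φ : List J → ℝ} (hφ : IsSD φ) : φ = phiFn := isSD_unique hφ isSD_phiFn

end defs

section positivity
variable {J : Type*} [DecidableEq J]

theorem sOp_nonneg (j : J) (f : List J → ℝ) (hf : 0 ≤ f) : 0 ≤ sOp j f := by
  intro z
  cases z with
  | nil => rw [sOp_nil]; exact hf [j]
  | cons a z =>
    rw [sOp_cons]
    have h1 := hf (j :: a :: z)
    have h2 := hf z
    simp only [Pi.zero_apply] at *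
    split_ifs <;> linarith

/-- positivity preserving operators. -/
def PosOp (T : Module.End ℝ (List J → ℝ)) : Prop := ∀ f : List J → ℝ, 0 ≤ f → 0 ≤ T f

omit [DecidableEq J] in
theorem PosOp.mono {T : Module.End ℝ (List J → ℝ)} (hT : PosOp T) {f g : List J → ℝ} (h : f ≤ g) :
    T f ≤ T g := by
  have h1 := hT (g - f) (sub_nonneg.mpr h)
  rw [map_sub] at h1
  exact sub_nonneg.mp h1

omit [DecidableEq J] in
theorem PosOp.mul {S T : Module.End ℝ (List J → ℝ)} (hS : PosOp S) (hT : PosOp T) :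
    PosOp (S * T) := fun f hf => hS _ (hT f hf)

omit [DecidableEq J] in
theorem PosOp.add {S T : Module.End ℝ (List J → ℝ)} (hS : PosOp S) (hT : PosOp T) :
    PosOp (S + T) := fun f hf => add_nonneg (hS f hf) (hT f hf)

omit [DecidableEq J] in
theorem PosOp.smul {T : Module.End ℝ (List J → ℝ)} {c : ℝ} (hc : 0 ≤ c) (hT : PosOp T) :
    PosOp (c • T) := fun f hf => smul_nonneg hc (hT f hf)

omit [DecidableEq J] in
theorem PosOp.one : PosOp (1 : Module.End ℝ (List J → ℝ)) := fun _ hf => hf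

omit [DecidableEq J] in
theorem PosOp.zero : PosOp (0 : Module.End ℝ (List J → ℝ)) := fun _ _ => le_refl _

omit [DecidableEq J] in
theorem PosOp.sum {ι : Type*} (s : Finset ι) (T : ι → Module.End ℝ (List J → ℝ))
    (h : ∀ i ∈ s, PosOp (T i)) : PosOp (∑ i ∈ s, T i) := by
  classical
  induction s using Finset.induction_on with
  | empty => simpa using PosOp.zero
  | insert a s ha ih =>
    rw [Finset.sum_insert ha]
    exact (h a (Finset.mem_insert_self _ _)).add (ih fun i hi => h i (Finset.mem_insert_of_mem hi))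

omit [DecidableEq J] in
theorem PosOp.pow {T : Module.End ℝ (List J → ℝ)} (hT : PosOp T) (k : ℕ) : PosOp (T ^ k) := by
  induction k with
  | zero => simpa using PosOp.one
  | succ k ih => rw [pow_succ]; exact ih.mul hT

omit [DecidableEq J] in
theorem PosOp.listProd (l : List (Module.End ℝ (List J → ℝ))) (h : ∀ T ∈ l, PosOp T) :
    PosOp l.prod := by
  induction l with
  | nil => simpa using PosOp.one
  | cons T l ih =>
    rw [List.prod_cons]
    exact (h T (by simp)).mul (ih fun S hS => h S (by simp [hS]))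

theorem posOp_sOp (j : J) : PosOp (sOp j) := sOp_nonneg j

omit [DecidableEq J] in
theorem del_nonneg : (0 : List J → ℝ) ≤ del := by
  intro z; cases z <;> simp

/-- Domination of shifted functions. -/
def Dom (z : List J) (c : ℝ) (F G : List J → ℝ) : Prop := ∀ x, c * G x ≤ F (x ++ z)

/-- operators preserving `Dom z c` for all `z`, `c ≥ 0` (and positivity). -/
def DomOp (T : Module.End ℝ (List J → ℝ)) : Prop :=
  PosOp T ∧ ∀ (z : List J) (c : ℝ) (F G : List J → ℝ), 0 ≤ c → 0 ≤ F → Dom z c F G →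
    Dom z c (T F) (T G)

theorem domOp_sOp (j : J) : DomOp (sOp j) := by
  refine ⟨posOp_sOp j, fun z c F G hc hF h x => ?_⟩
  cases x with
  | nil =>
    rw [sOp_nil, List.nil_append, sOp_apply]
    have h1 := h [j]
    rw [List.singleton_append] at h1
    have h2 : 0 ≤ cre j F z := by
      cases z with
      | nil => simp
      | cons a z => rw [cre_cons]; split_ifs; exacts [hF _, le_refl _]
    linarith
  | cons a x =>
    rw [sOp_cons, List.cons_append, sOp_cons]
    have h1 := h (j :: a :: x)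
    have h2 := h x
    simp only [List.cons_append] at h1
    split_ifs
    · rw [mul_add]; exact add_le_add h1 h2
    · rw [add_zero, add_zero]; exact h1

omit [DecidableEq J] in
theorem DomOp.mul {S T : Module.End ℝ (List J → ℝ)} (hS : DomOp S) (hT : DomOp T) :
    DomOp (S * T) :=
  ⟨hS.1.mul hT.1, fun z c F G hc hF h => hS.2 z c _ _ hc (hT.1 F hF) (hT.2 z c F G hc hF h)⟩

omit [DecidableEq J] in
theorem DomOp.add {S T : Module.End ℝ (List J → ℝ)} (hS : DomOp S) (hT : DomOp T) :
    DomOp (S + T) :=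
  ⟨hS.1.add hT.1, fun z c F G hc hF h x => by
    have h1 := hS.2 z c F G hc hF h x
    have h2 := hT.2 z c F G hc hF h x
    show c * (S G x + T G x) ≤ S F (x ++ z) + T F (x ++ z)
    rw [mul_add]; exact add_le_add h1 h2⟩

omit [DecidableEq J] in
theorem DomOp.smul {T : Module.End ℝ (List J → ℝ)} {a : ℝ} (ha : 0 ≤ a) (hT : DomOp T) :
    DomOp (a • T) :=
  ⟨hT.1.smul ha, fun z c F G hc hF h x => by
    have h2 := hT.2 z c F G hc hF h x
    show c * (a * T G x) ≤ a * T F (x ++ z)
    calc c * (a * T G x) = a * (c * T G x) := by ring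
      _ ≤ _ := mul_le_mul_of_nonneg_left h2 ha⟩

omit [DecidableEq J] in
theorem DomOp.one : DomOp (1 : Module.End ℝ (List J → ℝ)) :=
  ⟨PosOp.one, fun _ _ _ _ _ _ h => h⟩

omit [DecidableEq J] in
theorem DomOp.listProd (l : List (Module.End ℝ (List J → ℝ))) (h : ∀ T ∈ l, DomOp T) :
    DomOp l.prod := by
  induction l with
  | nil => simpa using DomOp.one
  | cons T l ih =>
    rw [List.prod_cons]
    exact (h T (by simp)).mul (ih fun S hS => h S (by simp [hS]))


end positivity

section symmetric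
variable {J : Type*} [DecidableEq J]

/-- operators preserving finite support and symmetric there. -/
def SymPair (S T : Module.End ℝ (List J → ℝ)) : Prop :=
  (∀ f : List J → ℝ, f.support.Finite → (S f).support.Finite) ∧
  (∀ f : List J → ℝ, f.support.Finite → (T f).support.Finite) ∧
  ∀ f g : List J → ℝ, f.support.Finite → g.support.Finite →
    ∑' z, S f z * g z = ∑' z, f z * T g z

theorem finite_support_ann (j : J) (f : List J → ℝ) (hf : f.support.Finite) :
    (ann j f).support.Finite := by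
  have : (ann j f).support = (fun z => j :: z) ⁻¹' f.support := by
    ext z; simp [Function.mem_support]
  rw [this]
  exact hf.preimage (List.cons_injective.injOn)

theorem finite_support_cre (j : J) (f : List J → ℝ) (hf : f.support.Finite) :
    (cre j f).support.Finite := by
  refine (hf.image (fun z => j :: z)).subset ?_
  intro z hz
  rw [Function.mem_support] at hz
  cases z with
  | nil => simp at hz
  | cons a z =>
    rw [cre_cons] at hz
    split_ifs at hz with h
    · subst h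
      exact ⟨z, hz, rfl⟩
    · exact absurd rfl hz

theorem finite_support_sOp (j : J) (f : List J → ℝ) (hf : f.support.Finite) :
    (sOp j f).support.Finite := by
  refine ((finite_support_ann j f hf).union (finite_support_cre j f hf)).subset ?_
  exact Function.support_add _ _

theorem tsum_ann_mul (j : J) (f g : List J → ℝ) :
    ∑' z, ann j f z * g z = ∑' z, f z * cre j g z := by
  have hinj : Function.Injective (fun z : List J => j :: z) := List.cons_injective
  have := hinj.tsum_eq (f := fun z => f z * cre j g z) (by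
    intro z hz
    rw [Function.mem_support] at hz
    cases z with
    | nil => simp at hz
    | cons a z =>
      rw [cre_cons] at hz
      split_ifs at hz with h
      · subst h; exact ⟨z, rfl⟩
      · simp at hz)
  rw [← this]
  refine tsum_congr fun z => ?_
  simp

theorem tsum_cre_mul (j : J) (f g : List J → ℝ) :
    ∑' z, cre j f z * g z = ∑' z, f z * ann j g z := by
  have := tsum_ann_mul j g f
  calc ∑' z, cre j f z * g z = ∑' z, g z * cre j f z := tsum_congr fun z => mul_comm _ _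
    _ = ∑' z, ann j g z * f z := this.symm
    _ = _ := tsum_congr fun z => mul_comm _ _

omit [DecidableEq J] in
theorem summable_mul_of_finite (f g : List J → ℝ) (hf : f.support.Finite) :
    Summable fun z => f z * g z := by
  refine summable_of_hasFiniteSupport (hf.subset ?_)
  intro z hz
  rw [Function.mem_support] at hz ⊢
  exact left_ne_zero_of_mul hz

theorem symPair_sOp (j : J) : SymPair (sOp j) (sOp j) := by
  refine ⟨finite_support_sOp j, finite_support_sOp j, fun f g hf hg => ?_⟩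
  have h1 : ∀ z, sOp j f z * g z = ann j f z * g z + cre j f z * g z := by
    intro z; rw [← add_mul]; rfl
  have h2 : ∀ z, f z * sOp j g z = f z * cre j g z + f z * ann j g z := by
    intro z; rw [← mul_add, add_comm]; rfl
  rw [tsum_congr h1, tsum_congr h2,
    (summable_mul_of_finite _ _ (finite_support_ann j f hf)).tsum_add
      (summable_mul_of_finite _ _ (finite_support_cre j f hf)),
    (summable_mul_of_finite _ _ hf).tsum_add (summable_mul_of_finite _ _ hf),
    tsum_ann_mul, tsum_cre_mul]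

omit [DecidableEq J] in
theorem SymPair.one : SymPair (1 : Module.End ℝ (List J → ℝ)) 1 :=
  ⟨fun _ h => h, fun _ h => h, fun _ _ _ _ => rfl⟩

omit [DecidableEq J] in
theorem SymPair.mul {S S' T T' : Module.End ℝ (List J → ℝ)} (h : SymPair S S')
    (h' : SymPair T T') : SymPair (S * T) (T' * S') := by
  refine ⟨fun f hf => h.1 _ (h'.1 f hf), fun f hf => h'.2.1 _ (h.2.1 f hf), fun f g hf hg => ?_⟩
  have h1 := h.2.2 (T f) g (h'.1 f hf) hg
  have h2 := h'.2.2 f (S' g) hf (h.2.1 g hg)
  exact h1.trans h2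

omit [DecidableEq J] in
theorem SymPair.add {S S' T T' : Module.End ℝ (List J → ℝ)} (h : SymPair S S')
    (h' : SymPair T T') : SymPair (S + T) (S' + T') := by
  refine ⟨fun f hf => ((h.1 f hf).union (h'.1 f hf)).subset (Function.support_add _ _),
    fun f hf => ((h.2.1 f hf).union (h'.2.1 f hf)).subset (Function.support_add _ _),
    fun f g hf hg => ?_⟩
  have e1 : ∀ z, (S + T) f z * g z = S f z * g z + T f z * g z := by
    intro z; rw [← add_mul]; rfl
  have e2 : ∀ z, f z * (S' + T') g z = f z * S' g z + f z * T' g z := by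
    intro z; rw [← mul_add]; rfl
  rw [tsum_congr e1, tsum_congr e2,
    (summable_mul_of_finite _ _ (h.1 f hf)).tsum_add (summable_mul_of_finite _ _ (h'.1 f hf)),
    (summable_mul_of_finite _ _ hf).tsum_add (summable_mul_of_finite _ _ hf),
    h.2.2 f g hf hg, h'.2.2 f g hf hg]

omit [DecidableEq J] in
theorem SymPair.smul {S S' : Module.End ℝ (List J → ℝ)} (c : ℝ) (h : SymPair S S') :
    SymPair (c • S) (c • S') := by
  refine ⟨fun f hf => (h.1 f hf).subset (fun z hz => ?_),
    fun f hf => (h.2.1 f hf).subset (fun z hz => ?_), fun f g hf hg => ?_⟩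
  · rw [Function.mem_support] at hz ⊢
    intro h0; apply hz
    show c * S f z = 0
    rw [h0, mul_zero]
  · rw [Function.mem_support] at hz ⊢
    intro h0; apply hz
    show c * S' f z = 0
    rw [h0, mul_zero]
  · have e1 : ∀ z, (c • S) f z * g z = c * (S f z * g z) := fun z => mul_assoc _ _ _
    have e2 : ∀ z, f z * (c • S') g z = c * (f z * S' g z) := fun z => mul_left_comm _ _ _
    rw [tsum_congr e1, tsum_congr e2, tsum_mul_left, tsum_mul_left, h.2.2 f g hf hg]

omit [DecidableEq J] in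
theorem SymPair.listProd {I : Type*} (Y : I → Module.End ℝ (List J → ℝ))
    (hY : ∀ i, SymPair (Y i) (Y i)) (w : List I) :
    SymPair (w.map Y).prod (w.reverse.map Y).prod := by
  induction w with
  | nil => simpa using SymPair.one
  | cons i w ih =>
    rw [List.map_cons, List.prod_cons, List.reverse_cons, List.map_append, List.prod_append,
      List.map_cons, List.map_nil, List.prod_cons, List.prod_nil, mul_one]
    exact (hY i).mul ih

omit [DecidableEq J] in
theorem finite_support_del : (del : List J → ℝ).support.Finite := by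
  refine (Set.finite_singleton ([] : List J)).subset ?_
  intro z hz
  cases z with
  | nil => simp
  | cons a z => simp at hz

omit [DecidableEq J] in
theorem tsum_mul_del (f : List J → ℝ) : ∑' z, f z * del z = f [] := by
  rw [tsum_eq_single []]
  · simp
  · intro z hz
    cases z with
    | nil => exact absurd rfl hz
    | cons a z => simp

omit [DecidableEq J] in
theorem tsum_del_mul (f : List J → ℝ) : ∑' z, del z * f z = f [] := by
  rw [← tsum_mul_del f]
  exact tsum_congr fun z => mul_comm _ _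

omit [DecidableEq J] in
theorem SymPair.vac {S T : Module.End ℝ (List J → ℝ)} (h : SymPair S T) :
    S del [] = T del [] := by
  have := h.2.2 del del finite_support_del finite_support_del
  rwa [tsum_mul_del, tsum_del_mul] at this

end symmetric

end Crest.Agent.R089.Fn
end

-- ▼ part R089/CubicH
section

set_option autoImplicit false
set_option linter.unusedSectionVars false
set_option linter.unusedSimpArgs false

/-!
R089 (S0118), module (C2b): the cubic model, hypotheses H1-H4 (helper459).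
-/

namespace Crest.Agent.R089.Fn

open Crest.Agent.R089

/-- index type of the observed tuple: `3 r` letters and `r^3` cubic words. -/
abbrev CI (r : ℕ) : Type := (Fin 3 × Fin r) ⊕ (Fin r × Fin r × Fin r)

section trace
variable {J : Type*} [DecidableEq J]









end trace

section bd
variable {J : Type*} [DecidableEq J]

/-- `T` is positive and `T g ≤ c g`. -/
def Bd (g : List J → ℝ) (T : Module.End ℝ (List J → ℝ)) (c : ℝ) : Prop :=
  PosOp T ∧ T g ≤ c • g

theorem Bd.mul {g : List J → ℝ} {S T : Module.End ℝ (List J → ℝ)} {a b : ℝ} (hS : Bd g S a)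
    (hT : Bd g T b) (hb : 0 ≤ b) : Bd g (S * T) (a * b) := by
  refine ⟨hS.1.mul hT.1, ?_⟩
  have h1 := hS.1.mono hT.2
  have h2 : b • (S g) ≤ b • (a • g) := smul_le_smul_of_nonneg_left hS.2 hb
  calc (S * T) g = S (T g) := rfl
    _ ≤ S (b • g) := h1
    _ = b • S g := map_smul _ _ _
    _ ≤ b • (a • g) := h2
    _ = (a * b) • g := by rw [smul_smul, mul_comm]

theorem Bd.add {g : List J → ℝ} {S T : Module.End ℝ (List J → ℝ)} {a b : ℝ} (hS : Bd g S a)
    (hT : Bd g T b) : Bd g (S + T) (a + b) := by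
  refine ⟨hS.1.add hT.1, ?_⟩
  rw [add_smul]
  exact add_le_add hS.2 hT.2

theorem Bd.smul {g : List J → ℝ} {T : Module.End ℝ (List J → ℝ)} {a c : ℝ} (hc : 0 ≤ c)
    (hT : Bd g T a) : Bd g (c • T) (c * a) := by
  refine ⟨hT.1.smul hc, ?_⟩
  rw [← smul_smul]
  exact smul_le_smul_of_nonneg_left hT.2 hc

theorem Bd.one (g : List J → ℝ) : Bd g 1 1 := ⟨PosOp.one, by rw [one_smul]; exact le_refl g⟩

theorem Bd.zero (g : List J → ℝ) : Bd g 0 0 := ⟨PosOp.zero, by rw [zero_smul]; exact le_refl _⟩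

theorem Bd.sum {g : List J → ℝ} {ι : Type*} (s : Finset ι) (T : ι → Module.End ℝ (List J → ℝ))
    (c : ι → ℝ) (h : ∀ i ∈ s, Bd g (T i) (c i)) : Bd g (∑ i ∈ s, T i) (∑ i ∈ s, c i) := by
  classical
  induction s using Finset.induction_on with
  | empty => simpa using Bd.zero g
  | insert a s ha ih =>
    rw [Finset.sum_insert ha, Finset.sum_insert ha]
    exact (h a (Finset.mem_insert_self _ _)).add (ih fun i hi => h i (Finset.mem_insert_of_mem hi))

theorem Bd.pow {g : List J → ℝ} {T : Module.End ℝ (List J → ℝ)} {c : ℝ} (hc : 0 ≤ c)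
    (hT : Bd g T c) (k : ℕ) : Bd g (T ^ k) (c ^ k) := by
  induction k with
  | zero => simpa using Bd.one g
  | succ k ih => rw [pow_succ, pow_succ]; exact ih.mul hT hc

theorem Bd.weaken {g : List J → ℝ} (hg : 0 ≤ g) {T : Module.End ℝ (List J → ℝ)} {c c' : ℝ}
    (hT : Bd g T c) (h : c ≤ c') : Bd g T c' :=
  ⟨hT.1, hT.2.trans (smul_le_smul_of_nonneg_right h hg)⟩

theorem Bd.listProd {g : List J → ℝ} {I : Type*} (Y : I → Module.End ℝ (List J → ℝ)) {c : ℝ}
    (hc : 0 ≤ c) (hY : ∀ i, Bd g (Y i) c) (w : List I) : Bd g (w.map Y).prod (c ^ w.length) := by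
  induction w with
  | nil => simpa using Bd.one g
  | cons i w ih =>
    rw [List.map_cons, List.prod_cons, List.length_cons, pow_succ']
    exact (hY i).mul ih (pow_nonneg hc _)

theorem bd_one_sOp (j : J) : Bd (1 : List J → ℝ) (sOp j) 2 := by
  refine ⟨posOp_sOp j, fun z => ?_⟩
  cases z with
  | nil => rw [sOp_nil]; simp
  | cons a z =>
    rw [sOp_cons]
    simp only [Pi.one_apply, Pi.smul_apply, smul_eq_mul, mul_one]
    split_ifs <;> norm_num

/-- the weight function `q^{|z|}`. -/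
def wt (q : ℝ) : List J → ℝ := fun z => q ^ z.length

theorem bd_group {K : Type*} [Fintype K] (e : K → J) (he : Function.Injective e) (q c : ℝ)
    (hq : 0 < q) (hK : (Fintype.card K : ℝ) * q + q⁻¹ ≤ c) :
    Bd (wt q) (∑ a, sOp (e a)) c := by
  classical
  refine ⟨PosOp.sum _ _ fun a _ => posOp_sOp _, fun z => ?_⟩
  have e1 : (∑ a, sOp (e a)) (wt q) z = ∑ a, (sOp (e a) (wt q) z) := by
    rw [LinearMap.sum_apply, Finset.sum_apply]
  rw [e1]
  have hz : 0 < q ^ z.length := pow_pos hq _
  cases z with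
  | nil =>
    simp only [sOp_nil, wt, List.length_singleton, pow_one, Finset.sum_const, Finset.card_univ,
      nsmul_eq_mul, Pi.smul_apply, List.length_nil, pow_zero, smul_eq_mul, mul_one]
    have : 0 < q⁻¹ := inv_pos.mpr hq
    linarith
  | cons b z =>
    simp only [sOp_cons, Finset.sum_add_distrib]
    have h1 : ∑ a : K, wt q (e a :: b :: z) = (Fintype.card K : ℝ) * q * q ^ (b :: z).length := by
      simp only [wt, List.length_cons, Finset.sum_const, Finset.card_univ, nsmul_eq_mul]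
      ring
    have h2 : ∑ a : K, (if b = e a then wt q z else 0) ≤ q⁻¹ * q ^ (b :: z).length := by
      have h3 : q⁻¹ * q ^ (b :: z).length = wt q z := by
        simp only [wt, List.length_cons, pow_succ]
        field_simp
      rw [h3]
      by_cases hb : ∃ a, b = e a
      · obtain ⟨a, rfl⟩ := hb
        have : ∀ a' : K, (if e a = e a' then wt q z else 0) = if a = a' then wt q z else 0 := by
          intro a'
          simp only [he.eq_iff]
        rw [Finset.sum_congr rfl fun a' _ => this a', Finset.sum_ite_eq]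
        simp
      · push Not at hb
        rw [Finset.sum_eq_zero]
        · exact (pow_pos hq _).le
        · intro a _
          rw [if_neg (hb a)]
    rw [h1]
    calc (Fintype.card K : ℝ) * q * q ^ (b :: z).length +
          ∑ a : K, (if b = e a then wt q z else 0)
        ≤ (Fintype.card K : ℝ) * q * q ^ (b :: z).length + q⁻¹ * q ^ (b :: z).length := by
          linarith
      _ = ((Fintype.card K : ℝ) * q + q⁻¹) * q ^ (b :: z).length := by ring
      _ ≤ c * q ^ (b :: z).length := mul_le_mul_of_nonneg_right hK hz.le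

end bd

section cubic
variable {J : Type*} [DecidableEq J] {r : ℕ}

/-- the observed tuple of the cubic model, as operators on functions. -/
noncomputable def Yfn (h : Fin 3 × Fin r → J) : CI r → Module.End ℝ (List J → ℝ)
  | .inl a => sOp (h a)
  | .inr (a, b, c) => (Real.sqrt 2)⁻¹ •
      (sOp (h (0, a)) * sOp (h (1, b)) * sOp (h (2, c)) +
        sOp (h (2, c)) * sOp (h (1, b)) * sOp (h (0, a)))

/-- moments of the observed tuple. -/
noncomputable def mY (h : Fin 3 × Fin r → J) (w : List (CI r)) : ℝ := (w.map (Yfn h)).prod del []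

variable (h : Fin 3 × Fin r → J)

theorem sqrt2_inv_pos : 0 < (Real.sqrt 2)⁻¹ := by positivity

theorem domOp_Yfn (i : CI r) : DomOp (Yfn h i) := by
  rcases i with a | ⟨a, b, c⟩
  · exact domOp_sOp _
  · exact (((domOp_sOp _).mul (domOp_sOp _)).mul (domOp_sOp _) |>.add
      (((domOp_sOp _).mul (domOp_sOp _)).mul (domOp_sOp _))).smul sqrt2_inv_pos.le

theorem symPair_Yfn (i : CI r) : SymPair (Yfn h i) (Yfn h i) := by
  rcases i with a | ⟨a, b, c⟩
  · exact symPair_sOp _
  · have h1 := ((symPair_sOp (h (0, a))).mul (symPair_sOp (h (1, b)))).mul (symPair_sOp (h (2, c)))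
    have h2 := ((symPair_sOp (h (2, c))).mul (symPair_sOp (h (1, b)))).mul (symPair_sOp (h (0, a)))
    have h3 := (h1.add h2).smul (Real.sqrt 2)⁻¹
    have e : (Real.sqrt 2)⁻¹ • (sOp (h (2, c)) * (sOp (h (1, b)) * sOp (h (0, a))) +
        sOp (h (0, a)) * (sOp (h (1, b)) * sOp (h (2, c)))) = Yfn h (.inr (a, b, c)) := by
      show _ = (Real.sqrt 2)⁻¹ • _
      rw [add_comm, mul_assoc, mul_assoc]
    rw [e] at h3
    exact h3

theorem mY_reverse (w : List (CI r)) : mY h w.reverse = mY h w :=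
  ((SymPair.listProd (Yfn h) (symPair_Yfn h) w).vac).symm

theorem posOp_YW (w : List (CI r)) : PosOp (w.map (Yfn h)).prod :=
  PosOp.listProd _ (by
    intro T hT
    obtain ⟨j, _, rfl⟩ := List.mem_map.mp hT
    exact (domOp_Yfn h j).1)


theorem mY_nonneg (w : List (CI r)) : 0 ≤ mY h w := posOp_YW h w del del_nonneg []



theorem bd_one_Yfn (i : CI r) : Bd (1 : List J → ℝ) (Yfn h i) 12 := by
  have h1 : (0 : List J → ℝ) ≤ 1 := fun z => by simp
  rcases i with a | ⟨a, b, c⟩
  · exact (bd_one_sOp _).weaken h1 (by norm_num)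
  · have h2 := (((bd_one_sOp (h (0, a))).mul (bd_one_sOp (h (1, b))) (by norm_num)).mul
      (bd_one_sOp (h (2, c))) (by norm_num)).add
      (((bd_one_sOp (h (2, c))).mul (bd_one_sOp (h (1, b))) (by norm_num)).mul
      (bd_one_sOp (h (0, a))) (by norm_num))
    have h3 := h2.smul sqrt2_inv_pos.le
    refine Bd.weaken h1 h3 ?_
    have h4 : (4 : ℝ) / 3 ≤ Real.sqrt 2 := by
      rw [show (4 : ℝ) / 3 = Real.sqrt ((4 / 3) ^ 2) by rw [Real.sqrt_sq (by norm_num)]]
      exact Real.sqrt_le_sqrt (by norm_num)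
    have h5 : (Real.sqrt 2)⁻¹ ≤ ((4 : ℝ) / 3)⁻¹ := inv_anti₀ (by norm_num) h4
    calc (Real.sqrt 2)⁻¹ * (2 * 2 * 2 + 2 * 2 * 2) ≤ ((4 : ℝ) / 3)⁻¹ * (2 * 2 * 2 + 2 * 2 * 2) := by
          gcongr
      _ = 12 := by norm_num

theorem del_le_one : (del : List J → ℝ) ≤ 1 := by
  intro z; cases z <;> simp

/-- H1. -/
theorem H1 (w : List (CI r)) : |mY h w| ≤ 12 ^ w.length := by
  rw [abs_of_nonneg (mY_nonneg h w)]
  have h1 := Bd.listProd (Yfn h) (by norm_num : (0 : ℝ) ≤ 12) (bd_one_Yfn h) w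
  have h2 := (h1.1.mono (del_le_one (J := J))).trans h1.2
  have h3 := h2 []
  have h4 : ((12 : ℝ) ^ w.length • (1 : List J → ℝ)) [] = 12 ^ w.length := by simp
  rw [h4] at h3
  exact h3

/-- functions with values in `ℕ · κ^p`. -/
def IntFn (p : ℕ) (f : List J → ℝ) : Prop := ∀ z, ∃ n : ℕ, f z = n * (Real.sqrt 2)⁻¹ ^ p

theorem IntFn.sOp {p : ℕ} {f : List J → ℝ} (hf : IntFn p f) (j : J) : IntFn p (sOp j f) := by
  intro z
  cases z with
  | nil => rw [sOp_nil]; exact hf _
  | cons a z =>
    rw [sOp_cons]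
    obtain ⟨n1, h1⟩ := hf (j :: a :: z)
    obtain ⟨n2, h2⟩ := hf z
    split_ifs
    · exact ⟨n1 + n2, by rw [h1, h2]; push_cast; ring⟩
    · exact ⟨n1, by rw [h1, add_zero]⟩

theorem IntFn.add {p : ℕ} {f g : List J → ℝ} (hf : IntFn p f) (hg : IntFn p g) :
    IntFn p (f + g) := by
  intro z
  obtain ⟨n1, h1⟩ := hf z
  obtain ⟨n2, h2⟩ := hg z
  exact ⟨n1 + n2, by rw [Pi.add_apply, h1, h2]; push_cast; ring⟩

theorem IntFn.Yfn {p : ℕ} {f : List J → ℝ} (hf : IntFn p f) (i : CI r) :
    ∃ q, q ≤ p + 1 ∧ IntFn q (Yfn h i f) := by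
  rcases i with a | ⟨a, b, c⟩
  · exact ⟨p, by omega, hf.sOp _⟩
  · refine ⟨p + 1, le_refl _, ?_⟩
    have h1 := (((hf.sOp (h (2, c))).sOp (h (1, b))).sOp (h (0, a))).add
      (((hf.sOp (h (0, a))).sOp (h (1, b))).sOp (h (2, c)))
    intro z
    obtain ⟨n, hn⟩ := h1 z
    refine ⟨n, ?_⟩
    show (Real.sqrt 2)⁻¹ * _ = _
    have : (Real.sqrt 2)⁻¹ * (n * (Real.sqrt 2)⁻¹ ^ p) = n * (Real.sqrt 2)⁻¹ ^ (p + 1) := by ring
    rw [← this, ← hn]
    rfl



theorem hcent (i : CI r) : mY h [i] = 0 := by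
  unfold mY
  rcases i with a | ⟨a, b, c⟩
  · simp [Yfn]
  · simp [Yfn]

end cubic

section H4
variable {J : Type*} [DecidableEq J] {r : ℕ}

theorem sum_ofFn_prod {R : Type*} [Semiring R] {I : Type*} [Fintype I] (Y : I → R) (k : ℕ) :
    ∑ u : Fin k → I, ((List.ofFn u).map Y).prod = (∑ i, Y i) ^ k := by
  induction k with
  | zero => simp
  | succ k ih =>
    rw [pow_succ', ← ih, Finset.sum_mul_sum]
    rw [← (Fin.consEquiv (fun _ : Fin (k + 1) => I)).sum_comp, Fintype.sum_prod_type]
    refine Finset.sum_congr rfl fun i _ => Finset.sum_congr rfl fun u _ => ?_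
    rw [List.ofFn_succ]
    simp [Fin.consEquiv]

theorem sum_Yfn (h : Fin 3 × Fin r → J) :
    ∑ i, Yfn h i = (∑ a : Fin r, sOp (h (0, a)) + ∑ a : Fin r, sOp (h (1, a)) +
      ∑ a : Fin r, sOp (h (2, a))) + (Real.sqrt 2)⁻¹ •
      ((∑ a : Fin r, sOp (h (0, a))) * (∑ a : Fin r, sOp (h (1, a))) *
        (∑ a : Fin r, sOp (h (2, a))) +
       (∑ a : Fin r, sOp (h (2, a))) * (∑ a : Fin r, sOp (h (1, a))) *
        (∑ a : Fin r, sOp (h (0, a)))) := by
  rw [Fintype.sum_sum_type]
  congr 1
  · rw [Fintype.sum_prod_type, Fin.sum_univ_three]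
    rfl
  · rw [Fintype.sum_prod_type]
    simp only [Fintype.sum_prod_type]
    have e1 : (∑ a : Fin r, sOp (h (0, a))) * (∑ a : Fin r, sOp (h (1, a))) *
        (∑ a : Fin r, sOp (h (2, a))) = ∑ a : Fin r, ∑ b : Fin r, ∑ c : Fin r,
          sOp (h (0, a)) * sOp (h (1, b)) * sOp (h (2, c)) := by
      rw [Finset.sum_mul_sum, Finset.sum_mul]
      refine Finset.sum_congr rfl fun a _ => ?_
      rw [Finset.sum_mul_sum]
    have e2 : (∑ a : Fin r, sOp (h (2, a))) * (∑ a : Fin r, sOp (h (1, a))) *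
        (∑ a : Fin r, sOp (h (0, a))) = ∑ a : Fin r, ∑ b : Fin r, ∑ c : Fin r,
          sOp (h (2, c)) * sOp (h (1, b)) * sOp (h (0, a)) := by
      rw [Finset.mul_sum]
      refine Finset.sum_congr rfl fun a _ => ?_
      rw [Finset.sum_mul_sum, Finset.sum_comm, Finset.sum_mul]
      refine Finset.sum_congr rfl fun b _ => ?_
      rw [Finset.sum_mul]
    rw [e1, e2, ← Finset.sum_add_distrib, Finset.smul_sum]
    refine Finset.sum_congr rfl fun a _ => ?_
    rw [← Finset.sum_add_distrib, Finset.smul_sum]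
    refine Finset.sum_congr rfl fun b _ => ?_
    rw [← Finset.sum_add_distrib, Finset.smul_sum]
    rfl

/-- the growth constant `G = 26 r^{3/2}`. -/
noncomputable def GG (r : ℕ) : ℝ := 26 * Real.sqrt r ^ 3

theorem one_le_sqrt (hr : 0 < r) : 1 ≤ Real.sqrt r := by
  rw [show (1 : ℝ) = Real.sqrt 1 by simp]
  exact Real.sqrt_le_sqrt (by exact_mod_cast hr)

theorem GG_pos (hr : 0 < r) : 0 < GG r := by
  have := one_le_sqrt hr
  unfold GG; positivity

theorem four_thirds_le : (4 : ℝ) / 3 ≤ Real.sqrt 2 := by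
  rw [show (4 : ℝ) / 3 = Real.sqrt ((4 / 3) ^ 2) by rw [Real.sqrt_sq (by norm_num)]]
  exact Real.sqrt_le_sqrt (by norm_num)

theorem bd_sum_Yfn (h : Fin 3 × Fin r → J) (hinj : Function.Injective h) (hr : 0 < r) :
    Bd (wt (Real.sqrt r)⁻¹) (∑ i, Yfn h i) (18 * Real.sqrt r ^ 3) := by
  have hs : 1 ≤ Real.sqrt r := one_le_sqrt hr
  have hs0 : 0 < Real.sqrt r := by linarith
  have hss : Real.sqrt r * Real.sqrt r = r := Real.mul_self_sqrt (Nat.cast_nonneg r)
  have hw : (0 : List J → ℝ) ≤ wt (Real.sqrt r)⁻¹ := fun z => by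
    show (0 : ℝ) ≤ (Real.sqrt r)⁻¹ ^ z.length
    positivity
  have hg : ∀ g : Fin 3, Bd (wt (Real.sqrt r)⁻¹) (∑ a : Fin r, sOp (h (g, a)))
      (2 * Real.sqrt r) := by
    intro g
    refine bd_group (fun a : Fin r => h (g, a)) ?_ _ _ (by positivity) ?_
    · intro a b hab
      have := hinj hab
      exact (Prod.mk.inj this).2
    · rw [Fintype.card_fin, inv_inv]
      have : (r : ℝ) * (Real.sqrt r)⁻¹ = Real.sqrt r := by
        nth_rw 1 [← hss]; field_simp
      rw [this]; linarith
  have h0 : 0 ≤ 2 * Real.sqrt r := by positivity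
  have hlin := ((hg 0).add (hg 1)).add (hg 2)
  have hcub := ((((hg 0).mul (hg 1) h0).mul (hg 2) h0).add
    (((hg 2).mul (hg 1) h0).mul (hg 0) h0)).smul sqrt2_inv_pos.le
  have hall := hlin.add hcub
  rw [← sum_Yfn] at hall
  refine hall.weaken hw ?_
  have h5 : (Real.sqrt 2)⁻¹ ≤ ((4 : ℝ) / 3)⁻¹ := inv_anti₀ (by norm_num) four_thirds_le
  have h6 : Real.sqrt r ≤ Real.sqrt r ^ 3 := by
    calc Real.sqrt r = Real.sqrt r ^ 1 := by ring
      _ ≤ Real.sqrt r ^ 3 := pow_le_pow_right₀ hs (by norm_num)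
  have h7 : (Real.sqrt 2)⁻¹ * (2 * Real.sqrt r * (2 * Real.sqrt r) * (2 * Real.sqrt r) +
      2 * Real.sqrt r * (2 * Real.sqrt r) * (2 * Real.sqrt r)) ≤ 12 * Real.sqrt r ^ 3 := by
    calc _ ≤ ((4 : ℝ) / 3)⁻¹ * (2 * Real.sqrt r * (2 * Real.sqrt r) * (2 * Real.sqrt r) +
      2 * Real.sqrt r * (2 * Real.sqrt r) * (2 * Real.sqrt r)) := by gcongr
      _ = _ := by ring
  linarith

theorem del_le_wt (q : ℝ) (hq : 0 ≤ q) : (del : List J → ℝ) ≤ wt q := by
  intro z
  cases z with
  | nil => simp [wt]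
  | cons a z => rw [del_cons]; exact pow_nonneg hq _

theorem triple_vac {a b c : J} (hab : a ≠ b) (hbc : b ≠ c) (F : List J → ℝ) :
    (sOp a * sOp b * sOp c) F [] = F [c, b, a] := by
  show sOp a (sOp b (sOp c F)) [] = _
  rw [sOp_nil, sOp_cons, if_neg hab, add_zero, sOp_cons, if_neg hbc, add_zero]

theorem Yfn_vac_le (h : Fin 3 × Fin r → J) (hinj : Function.Injective h) (i : CI r)
    (F : List J → ℝ) (C q : ℝ) (hC : 0 ≤ C) (hq0 : 0 ≤ q) (hq1 : q ≤ 1)
    (hF : F ≤ C • wt q) : Yfn h i F [] ≤ Real.sqrt 2 * C := by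
  have h2 : 1 ≤ Real.sqrt 2 := by have := four_thirds_le; linarith
  have hle : ∀ z : List J, F z ≤ C := by
    intro z
    have h1 := hF z
    have h3 : (C • wt q) z = C * q ^ z.length := rfl
    rw [h3] at h1
    have h4 : q ^ z.length ≤ 1 := pow_le_one₀ hq0 hq1
    nlinarith
  rcases i with a | ⟨a, b, c⟩
  · show sOp (h a) F [] ≤ _
    rw [sOp_nil]
    have := hle [h a]
    nlinarith
  · have n01 : h (0, a) ≠ h (1, b) := fun e => by
      have := (Prod.mk.inj (hinj e)).1; exact absurd this (by decide)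
    have n12 : h (1, b) ≠ h (2, c) := fun e => by
      have := (Prod.mk.inj (hinj e)).1; exact absurd this (by decide)
    have e1 := triple_vac n01 n12 F
    have e2 := triple_vac n12.symm n01.symm F
    show (Real.sqrt 2)⁻¹ * ((sOp (h (0, a)) * sOp (h (1, b)) * sOp (h (2, c))) F [] +
        (sOp (h (2, c)) * sOp (h (1, b)) * sOp (h (0, a))) F []) ≤ _
    rw [e1, e2]
    have h5 := hle [h (2, c), h (1, b), h (0, a)]
    have h6 := hle [h (0, a), h (1, b), h (2, c)]
    calc (Real.sqrt 2)⁻¹ * (F [h (2, c), h (1, b), h (0, a)] + F [h (0, a), h (1, b), h (2, c)])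
        ≤ (Real.sqrt 2)⁻¹ * (C + C) :=
          mul_le_mul_of_nonneg_left (add_le_add h5 h6) sqrt2_inv_pos.le
      _ = Real.sqrt 2 * C := by
          field_simp
          rw [Real.sq_sqrt (by norm_num)]
          ring

/-- H4 (helper251's form). -/
theorem H4' (h : Fin 3 × Fin r → J) (hinj : Function.Injective h) (hr : 0 < r) (i : CI r)
    (k : ℕ) : ∑ u : Fin k → CI r, mY h (i :: List.ofFn u) ≤ GG r ^ k := by
  have hs : 1 ≤ Real.sqrt r := one_le_sqrt hr
  have hs0 : 0 < Real.sqrt r := by linarith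
  have e1 : ∑ u : Fin k → CI r, mY h (i :: List.ofFn u) =
      (Yfn h i) (((∑ j, Yfn h j) ^ k) del) [] := by
    rw [← sum_ofFn_prod, LinearMap.sum_apply, map_sum, Finset.sum_apply]
    refine Finset.sum_congr rfl fun u _ => ?_
    unfold mY
    rw [List.map_cons, List.prod_cons]
    rfl
  rw [e1]
  rcases Nat.eq_zero_or_pos k with hk | hk
  · subst hk
    rw [pow_zero, pow_zero]
    have := hcent h i
    unfold mY at this
    simp only [List.map_cons, List.map_nil, List.prod_cons, List.prod_nil, mul_one] at this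
    show Yfn h i del [] ≤ 1
    rw [this]; norm_num
  · have hb := (bd_sum_Yfn h hinj hr).pow (by positivity) k
    have hF := (hb.1.mono (del_le_wt (J := J) (Real.sqrt r)⁻¹ (by positivity))).trans hb.2
    have h1 := Yfn_vac_le h hinj i _ _ _ (by positivity) (by positivity)
      (inv_le_one_of_one_le₀ hs) hF
    refine h1.trans ?_
    have h2 : Real.sqrt 2 ≤ (26 / 18) ^ k := by
      have h3 : Real.sqrt 2 ≤ 26 / 18 := by
        rw [show (26 : ℝ) / 18 = Real.sqrt ((26 / 18) ^ 2) by rw [Real.sqrt_sq (by norm_num)]]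
        exact Real.sqrt_le_sqrt (by norm_num)
      calc Real.sqrt 2 ≤ (26 / 18) ^ 1 := by rw [pow_one]; exact h3
        _ ≤ (26 / 18) ^ k := pow_le_pow_right₀ (by norm_num) hk
    have h4 : GG r ^ k = (26 / 18) ^ k * (18 * Real.sqrt r ^ 3) ^ k := by
      rw [← mul_pow]; congr 1; unfold GG; ring
    rw [h4]
    exact mul_le_mul_of_nonneg_right h2 (by positivity)


/-- H4 (helper89's form). -/
theorem H4 (h : Fin 3 × Fin r → J) (hinj : Function.Injective h) (hr : 0 < r) (i : CI r)
    (k : ℕ) : ∑ u : Fin k → CI r, mY h ((List.ofFn u).reverse ++ [i]) ≤ GG r ^ k := by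
  refine le_trans (le_of_eq ?_) (H4' h hinj hr i k)
  refine Finset.sum_congr rfl fun u _ => ?_
  rw [← mY_reverse]
  simp

theorem mY_pair (h : Fin 3 × Fin r → J) (hinj : Function.Injective h) (i : CI r) :
    mY h [i, i] = 1 := by
  have hss : Real.sqrt 2 * Real.sqrt 2 = 2 := Real.mul_self_sqrt (by norm_num)
  unfold mY
  simp only [List.map_cons, List.map_nil, List.prod_cons, List.prod_nil, mul_one]
  rcases i with a | ⟨a, b, c⟩
  · show sOp (h a) (sOp (h a) del) [] = 1
    simp
  · have n01 : h (0, a) ≠ h (1, b) := fun e => by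
      have := (Prod.mk.inj (hinj e)).1; exact absurd this (by decide)
    have n12 : h (1, b) ≠ h (2, c) := fun e => by
      have := (Prod.mk.inj (hinj e)).1; exact absurd this (by decide)
    have n02 : h (0, a) ≠ h (2, c) := fun e => by
      have := (Prod.mk.inj (hinj e)).1; exact absurd this (by decide)
    have e1 := fun F => triple_vac n01 n12 F
    have e2 := fun F => triple_vac n12.symm n01.symm F
    have hY : ∀ F : List J → ℝ, Yfn h (.inr (a, b, c)) F = (Real.sqrt 2)⁻¹ •
        ((sOp (h (0, a)) * sOp (h (1, b)) * sOp (h (2, c))) F +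
        (sOp (h (2, c)) * sOp (h (1, b)) * sOp (h (0, a))) F) := fun F => rfl
    show Yfn h (.inr (a, b, c)) (Yfn h (.inr (a, b, c)) del) [] = 1
    rw [hY (Yfn h (.inr (a, b, c)) del)]
    show (Real.sqrt 2)⁻¹ * ((sOp (h (0, a)) * sOp (h (1, b)) * sOp (h (2, c)))
      (Yfn h (.inr (a, b, c)) del) [] + (sOp (h (2, c)) * sOp (h (1, b)) * sOp (h (0, a)))
      (Yfn h (.inr (a, b, c)) del) []) = 1
    rw [e1, e2, hY]
    have k1 : (sOp (h (0, a)) * sOp (h (1, b)) * sOp (h (2, c))) (del : List J → ℝ)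
        [h (2, c), h (1, b), h (0, a)] = 0 := by
      show sOp (h (0, a)) (sOp (h (1, b)) (sOp (h (2, c)) del)) _ = 0
      simp [n01, n12, n02, n01.symm, n12.symm, n02.symm]
    have k2 : (sOp (h (2, c)) * sOp (h (1, b)) * sOp (h (0, a))) (del : List J → ℝ)
        [h (2, c), h (1, b), h (0, a)] = 1 := by
      show sOp (h (2, c)) (sOp (h (1, b)) (sOp (h (0, a)) del)) _ = 1
      simp [n01, n12, n02, n01.symm, n12.symm, n02.symm]
    have k3 : (sOp (h (0, a)) * sOp (h (1, b)) * sOp (h (2, c))) (del : List J → ℝ)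
        [h (0, a), h (1, b), h (2, c)] = 1 := by
      show sOp (h (0, a)) (sOp (h (1, b)) (sOp (h (2, c)) del)) _ = 1
      simp [n01, n12, n02, n01.symm, n12.symm, n02.symm]
    have k4 : (sOp (h (2, c)) * sOp (h (1, b)) * sOp (h (0, a))) (del : List J → ℝ)
        [h (0, a), h (1, b), h (2, c)] = 0 := by
      show sOp (h (2, c)) (sOp (h (1, b)) (sOp (h (0, a)) del)) _ = 0
      simp [n01, n12, n02, n01.symm, n12.symm, n02.symm]
    simp only [Pi.smul_apply, Pi.add_apply, k1, k2, k3, k4, smul_eq_mul]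
    field_simp
    linarith

end H4

end Crest.Agent.R089.Fn
private theorem rz_912bd2446c : type_of% @_root_.Crest.Agent.R089.Fn.Yfn.eq_1 := @_root_.Crest.Agent.R089.Fn.Yfn.eq_1 -- L226
end

-- ▼ part R089/FisherLarge
section

/-!
# R089 (T5): the large-noise Fisher bound.

In the Fock model, `Z_i = Y_i + ν_i s_i`.  The conjugate variable of `Z_i` is represented by
`ξ_i = v_i⁻¹ (ν_i e_i + (Y_i Ω - ζ_i)/2)`, `ζ_i = ∑_u κ(i;u) ∏ ν⁻¹ e_u`.
-/

set_option autoImplicit false
set_option linter.unusedSectionVars false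

open Crest.OpAlg
open scoped InnerProductSpace ENNReal

namespace Crest.Agent.R089.FL

open Crest.Agent.R089.Fock

section coords
variable {ι : Type} [DecidableEq ι]

theorem vec_sWord_apply (x z : List ι) : (vec (sWord x : Alg ι) : H ι) z = (cf x z : ℂ) := by
  unfold vec
  rw [coe_sWord]
  induction x generalizing z with
  | nil =>
    have h1 : (sWordOp ([] : List ι) : H ι →L[ℂ] H ι) = 1 := by simp [sWordOp]
    rw [h1, one_apply_eq_self, Om_apply, cf_nil]
    split_ifs <;> simp
  | cons a x ih =>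
    have h1 : (sWordOp (a :: x) : H ι →L[ℂ] H ι) = sOp a * sWordOp x := by simp [sWordOp]
    rw [h1, mul_apply_eq_comp]
    cases z with
    | nil => rw [sOp_apply_nil, ih, cf_cons_nil]
    | cons b z =>
      rw [sOp_apply_cons, ih, ih, cf_cons_cons]
      by_cases hab : a = b
      · subst hab; simp; ring
      · rw [if_neg hab, if_neg (fun h => hab h.symm)]; simp

/-- `vec` as a linear map. -/
noncomputable def vecL : Alg ι →ₗ[ℂ] H ι where
  toFun := vec
  map_add' x y := by
    change ((x : H ι →L[ℂ] H ι) + (y : H ι →L[ℂ] H ι)) Om = _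
    rw [add_apply]; rfl
  map_smul' c x := by
    change (c • (x : H ι →L[ℂ] H ι)) Om = _
    rw [smul_apply]; rfl

theorem vecL_apply (x : Alg ι) : vecL x = vec x := rfl

theorem tau_eq_vec (x : Alg ι) : tau x = (vec x) ([] : List ι) := by
  rw [tau_apply, Om, inner_e_left]
  rfl

end coords

section block
variable {k n : ℕ} {E : Type} [Fintype E] (c : Fin n → E → ℝ) (wh : Fin n → E → List (Fin k))
  (ν : Fin n → ℝ)

/-- the hidden polynomials. -/
noncomputable def Yop (i : Fin n) : Alg (Fin k ⊕ Fin n) :=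
  ∑ e, (c i e : ℂ) • sWord ((wh i e).map Sum.inl)

/-- the noisy variables. -/
noncomputable def Zop (i : Fin n) : Alg (Fin k ⊕ Fin n) :=
  Yop c wh i + (ν i : ℂ) • s (Sum.inr i)

theorem Zop_eq (i : Fin n) :
    Zop c wh ν i = ∑ e : Option E, (cZ c ν i e : ℂ) • sWord (wZ wh i e) := by
  rw [Fintype.sum_option]
  have h1 : sWord (wZ wh i none) = s (Sum.inr i : Fin k ⊕ Fin n) := by
    simp [wZ, sWord]
  rw [h1, add_comm]
  rfl

theorem vec_word (x : List (Fin k ⊕ Fin n)) (U : List (Fin n)) (z : List (Fin k ⊕ Fin n)) :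
    (vec (sWord x * (U.map (Zop c wh ν)).prod)) z =
      (tau2 (fun u => cf u z) (cZ c ν) (wZ wh) x U : ℂ) := by
  induction U generalizing x with
  | nil => rw [List.map_nil, List.prod_nil, mul_one, vec_sWord_apply, tau2_nil]
  | cons i U ih =>
    rw [List.map_cons, List.prod_cons, ← mul_assoc, Zop_eq, Finset.mul_sum, Finset.sum_mul,
      ← vecL_apply, map_sum, tau2_cons]
    have h1 : ∀ (S : Finset (Option E)) (f : Option E → H (Fin k ⊕ Fin n)),
        (∑ e ∈ S, f e : H (Fin k ⊕ Fin n)) z = ∑ e ∈ S, (f e) z := by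
      intro S f
      rw [lp.coeFn_sum, Finset.sum_apply]
    rw [h1]
    push_cast
    refine Finset.sum_congr rfl fun e _ => ?_
    rw [mul_smul_comm, smul_mul_assoc, ← sWord_append, map_smul, vecL_apply, lp.coeFn_smul,
      Pi.smul_apply, ih, smul_eq_mul]

theorem vec_wordEval (w : FreeMonoid (Fin n)) (z : List (Fin k ⊕ Fin n)) :
    (vec (wordEval (Zop c wh ν) w)) z =
      (tau2 (fun u => cf u z) (cZ c ν) (wZ wh) [] (FreeMonoid.toList w) : ℂ) := by
  rw [wordEval_eq_prod, ← vec_word]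
  congr 2

/-- the vacuum moments -/
noncomputable def mm : List (Fin k ⊕ Fin n) → ℝ := fun u => cf u []

theorem isSC_mm : IsSC (mm (k := k) (n := n)) := isSC_cf

theorem tau_wordEval (w : FreeMonoid (Fin n)) :
    tau (wordEval (Zop c wh ν) w) =
      (tau2 mm (cZ c ν) (wZ wh) [] (FreeMonoid.toList w) : ℂ) := by
  rw [tau_eq_vec, vec_wordEval]
  rfl

/-- iterated split pairings -/
noncomputable def Dv (v U : List (Fin n)) : ℝ := DD (tau2 mm (cZ c ν) (wZ wh) []) v U

theorem splitWord_eq (i : Fin n) (w : FreeMonoid (Fin n)) :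
    ChiStar.splitWord tau (Zop c wh ν) i w = (Dv c wh ν [i] (FreeMonoid.toList w) : ℂ) := by
  rw [ChiStar.splitWord, Dv, DD_cons]
  simp only [tau_wordEval, DD_nil, Equiv.apply_symm_apply]
  rw [ss_eq_sum_range i (fun p q => tau2 mm (cZ c ν) (wZ wh) [] p *
    tau2 mm (cZ c ν) (wZ wh) [] q)]
  push_cast
  refine Finset.sum_congr rfl fun k _ => ?_
  split_ifs <;> simp

/-- noise chaos coordinates -/
theorem vec_noise (v : List (Fin n)) (w : FreeMonoid (Fin n)) :
    (vec (wordEval (Zop c wh ν) w)) (v.map Sum.inr) =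
      ((v.map ν).prod * Dv c wh ν v (FreeMonoid.toList w) : ℝ) := by
  rw [vec_wordEval]
  congr 1
  rw [Dv, ← tau2_DD_noise]
  congr 1
  funext u
  exact cf_eq_DD u _

/-- `τ(Y_i Z_w)` -/
theorem tau_Y_word (i : Fin n) (w : FreeMonoid (Fin n)) :
    tau (Yop c wh i * wordEval (Zop c wh ν) w) =
      ((∑ e, c i e * tau2 mm (cZ c ν) (wZ wh) ((wh i e).map Sum.inl) (FreeMonoid.toList w) : ℝ) : ℂ)
      := by
  rw [Yop, Finset.sum_mul, map_sum]
  push_cast
  refine Finset.sum_congr rfl fun e _ => ?_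
  rw [smul_mul_assoc, map_smul, smul_eq_mul, tau_eq_vec, wordEval_eq_prod, vec_word]
  rfl

/-- the isometry onto the noise words. -/
theorem inj_map_inr : Function.Injective (fun v : List (Fin n) =>
    (v.map Sum.inr : List (Fin k ⊕ Fin n))) :=
  List.map_injective_iff.2 Sum.inr_injective

noncomputable def TT : lp (fun _ : List (Fin n) => ℂ) 2 →ₗᵢ[ℂ] H (Fin k ⊕ Fin n) :=
  ((orthonormal_e.comp (fun v : List (Fin n) => (v.map Sum.inr : List (Fin k ⊕ Fin n)))
    inj_map_inr).orthogonalFamily).linearIsometry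

theorem TT_single (v : List (Fin n)) :
    (TT (k := k) (lp.single 2 v (1 : ℂ)) : H (Fin k ⊕ Fin n)) = e (v.map Sum.inr) := by
  have := ((orthonormal_e.comp (fun v : List (Fin n) => (v.map Sum.inr : List (Fin k ⊕ Fin n)))
    inj_map_inr).orthogonalFamily).linearIsometry_apply_single (i := v) (1 : ℂ)
  rw [TT, this]
  simp

theorem inner_TT (a : lp (fun _ : List (Fin n) => ℂ) 2) (x : H (Fin k ⊕ Fin n)) :
    ⟪TT a, x⟫_ℂ = ∑' v : List (Fin n), (starRingEnd ℂ (a v)) * x (v.map Sum.inr) := by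
  have h1 : ⟪TT a, x⟫_ℂ =
      ⟪a, ContinuousLinearMap.adjoint (TT (k := k) (n := n)).toContinuousLinearMap x⟫_ℂ := by
    rw [ContinuousLinearMap.adjoint_inner_right]
    rfl
  rw [h1, lp.inner_eq_tsum]
  refine tsum_congr fun v => ?_
  have h2 : (ContinuousLinearMap.adjoint (TT (k := k) (n := n)).toContinuousLinearMap x) v =
      x (v.map Sum.inr) := by
    have h3 := ContinuousLinearMap.adjoint_inner_right
      (TT (k := k) (n := n)).toContinuousLinearMap (lp.single 2 v (1 : ℂ)) x
    rw [lp.inner_single_left] at h3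
    have h4 : (TT (k := k) (n := n)).toContinuousLinearMap (lp.single 2 v (1 : ℂ)) =
      e (v.map Sum.inr) := TT_single v
    rw [h4, inner_e_left] at h3
    simpa using h3
  rw [h2, RCLike.inner_apply]
  ring

theorem norm_TT (a : lp (fun _ : List (Fin n) => ℂ) 2) :
    ‖(TT (k := k) a : H (Fin k ⊕ Fin n))‖ = ‖a‖ := LinearIsometry.norm_map _ _

theorem TT_apply (a : lp (fun _ : List (Fin n) => ℂ) 2) (v : List (Fin n)) :
    (TT (k := k) a) (v.map Sum.inr) = a v := by
  have h := inner_TT (k := k) a (e (v.map Sum.inr))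
  rw [inner_e_right] at h
  have h2 : ∀ u : List (Fin n), (starRingEnd ℂ (a u)) *
      (e (v.map Sum.inr) : H (Fin k ⊕ Fin n)) (u.map Sum.inr) =
      if u = v then starRingEnd ℂ (a v) else 0 := by
    intro u
    rw [e_apply]
    by_cases huv : u = v
    · subst huv; simp
    · rw [if_neg huv, if_neg, mul_zero]
      intro h'
      exact huv (inj_map_inr h'.symm)
  rw [tsum_congr h2, tsum_ite_eq] at h
  exact (RingHom.injective (starRingEnd ℂ)) h

/-- moments of words in `Y` -/
theorem tau_Yword (x : List (Fin k)) (U : List (Fin n)) :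
    tau (sWord (x.map Sum.inl) * (U.map (Yop c wh)).prod : Alg (Fin k ⊕ Fin n)) =
      (tau2 (mH (mm (k := k) (n := n))) c wh x U : ℂ) := by
  induction U generalizing x with
  | nil =>
    rw [List.map_nil, List.prod_nil, mul_one, tau_eq_vec, vec_sWord_apply, tau2_nil]
    rfl
  | cons i U ih =>
    rw [List.map_cons, List.prod_cons, ← mul_assoc, Yop, Finset.mul_sum, Finset.sum_mul,
      map_sum, tau2_cons]
    push_cast
    refine Finset.sum_congr rfl fun e _ => ?_
    rw [mul_smul_comm, smul_mul_assoc, ← sWord_append, map_smul, ← List.map_append, ih,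
      smul_eq_mul]

theorem tau_Yword' (U : List (Fin n)) :
    tau ((U.map (Yop c wh)).prod : Alg (Fin k ⊕ Fin n)) =
      (mY c wh (mm (k := k) (n := n)) U : ℂ) := by
  have h := tau_Yword c wh [] U
  rw [mY, ← h]
  congr 1

theorem vec_Yop_noise (i : Fin n) (j : Fin n) (v : List (Fin n)) :
    (vec (Yop c wh i : Alg (Fin k ⊕ Fin n))) ((j :: v).map Sum.inr) = 0 := by
  rw [Yop, ← vecL_apply, map_sum, lp.coeFn_sum, Finset.sum_apply]
  refine Finset.sum_eq_zero fun e _ => ?_
  rw [map_smul, vecL_apply, lp.coeFn_smul, Pi.smul_apply, vec_sWord_apply, cf_eq_DD,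
    DD_eq_zero]
  · simp
  · intro h
    have h1 := h.subset (show (Sum.inr j : Fin k ⊕ Fin n) ∈ (j :: v).map Sum.inr by simp)
    simp at h1

/-- coordinates of the chaos part of the conjugate variable -/
noncomputable def cc (i : Fin n) (v : List (Fin n)) : ℝ :=
  kapY c wh (mm (k := k) (n := n)) i v * (v.map fun j => (ν j)⁻¹).prod

theorem cc_sq {vv : Fin n → ℝ} (hν : ∀ j, ν j ^ 2 = vv j) (i : Fin n) (v : List (Fin n)) :
    cc c wh ν i v ^ 2 = xiT c wh (mm (k := k) (n := n)) vv i v := by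
  rw [cc, xiT, mul_pow]
  congr 1
  rw [wt]
  induction v with
  | nil => simp
  | cons j v ih =>
    rw [List.map_cons, List.prod_cons, List.map_cons, List.prod_cons, mul_pow, ih, inv_pow, hν]

theorem memℓp_cc {vv : Fin n → ℝ} (hν : ∀ j, ν j ^ 2 = vv j) (i : Fin n)
    (hs : Summable (xiT c wh (mm (k := k) (n := n)) vv i)) :
    Memℓp (fun v : List (Fin n) => ((cc c wh ν i v : ℝ) : ℂ)) 2 := by
  rw [memℓp_gen_iff (by norm_num)]
  refine hs.congr fun v => ?_
  rw [← cc_sq c wh ν hν]
  simp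

/-- the vector `ζ_i` -/
noncomputable def aa {vv : Fin n → ℝ} (hν : ∀ j, ν j ^ 2 = vv j) (i : Fin n)
    (hs : Summable (xiT c wh (mm (k := k) (n := n)) vv i)) :
    lp (fun _ : List (Fin n) => ℂ) 2 := ⟨_, memℓp_cc c wh ν hν i hs⟩

theorem aa_apply {vv : Fin n → ℝ} (hν : ∀ j, ν j ^ 2 = vv j) (i : Fin n)
    (hs : Summable (xiT c wh (mm (k := k) (n := n)) vv i)) (v : List (Fin n)) :
    aa c wh ν hν i hs v = (cc c wh ν i v : ℂ) := rfl

theorem norm_aa {vv : Fin n → ℝ} (hν : ∀ j, ν j ^ 2 = vv j) (i : Fin n)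
    (hs : Summable (xiT c wh (mm (k := k) (n := n)) vv i)) :
    ‖aa c wh ν hν i hs‖ ^ 2 = ∑' u, xiT c wh (mm (k := k) (n := n)) vv i u := by
  have h := lp.norm_rpow_eq_tsum (p := 2) (by norm_num) (aa c wh ν hν i hs)
  simp only [ENNReal.toReal_ofNat, Real.rpow_two] at h
  rw [h]
  refine tsum_congr fun v => ?_
  rw [aa_apply, ← cc_sq c wh ν hν]
  simp

theorem inner_zeta {vv : Fin n → ℝ} (hν : ∀ j, ν j ^ 2 = vv j) (hν0 : ∀ j, ν j ≠ 0) (i : Fin n)
    (hs : Summable (xiT c wh (mm (k := k) (n := n)) vv i)) (w : FreeMonoid (Fin n)) :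
    ⟪TT (aa c wh ν hν i hs), vec (wordEval (Zop c wh ν) w)⟫_ℂ =
      tau (Yop c wh i * wordEval (Zop c wh ν) w) := by
  rw [inner_TT, tau_Y_word]
  have h := hasSum_kapY c ν wh (mm (k := k) (n := n)) isSC_mm i (FreeMonoid.toList w)
  have h2 := (Complex.hasSum_ofReal.2 h).tsum_eq
  rw [← h2]
  refine tsum_congr fun v => ?_
  rw [aa_apply, vec_noise, Complex.conj_ofReal, ← Complex.ofReal_mul]
  congr 1
  rw [cc, ← mul_assoc, mul_assoc (kapY _ _ _ _ _)]
  have h3 : (v.map fun j => (ν j)⁻¹).prod * (v.map ν).prod = 1 := by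
    rw [← List.prod_map_mul]
    have : (fun j => (ν j)⁻¹ * ν j) = fun _ : Fin n => (1 : ℝ) := by
      funext j; exact inv_mul_cancel₀ (hν0 j)
    rw [this]
    simp
  rw [h3, mul_one]
  rfl

/-- **Fisher bound for block systems.** -/
theorem fisher_block (hsa : ∀ i, IsSelfAdjoint (Yop c wh i : Alg (Fin k ⊕ Fin n)))
    (vv : Fin n → ℝ) (hvv : ∀ j, 0 < vv j) (hν : ∀ j, ν j = Real.sqrt (vv j))
    (h0 : ∀ j, mY c wh (mm (k := k) (n := n)) [j] = 0)
    (h1 : ∀ j, mY c wh (mm (k := k) (n := n)) [j, j] = 1)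
    (hs : ∀ i, Summable (xiT c wh (mm (k := k) (n := n)) vv i) ∧
      ∑' u, xiT c wh (mm (k := k) (n := n)) vv i u ≤ 1) :
    freeFisher tau (Zop c wh ν) ≤ ENNReal.ofReal (∑ i, (1 / vv i - 1 / (2 * vv i ^ 2))) := by
  have hν2 : ∀ j, ν j ^ 2 = vv j := fun j => by rw [hν, Real.sq_sqrt (hvv j).le]
  have hνp : ∀ j, 0 < ν j := fun j => by rw [hν]; exact Real.sqrt_pos.2 (hvv j)
  have hν0 : ∀ j, ν j ≠ 0 := fun j => (hνp j).ne'
  set y : Fin n → H (Fin k ⊕ Fin n) := fun i => vec (Yop c wh i) with hy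
  set ζ : Fin n → H (Fin k ⊕ Fin n) := fun i => TT (aa c wh ν hν2 i (hs i).1) with hζ
  set e0 : Fin n → H (Fin k ⊕ Fin n) := fun i => e [Sum.inr i] with he0
  set ξ : Fin n → H (Fin k ⊕ Fin n) := fun i =>
    (((vv i)⁻¹ : ℝ) : ℂ) • ((ν i : ℂ) • e0 i + (((1 / 2 : ℝ)) : ℂ) • (y i - ζ i)) with hξ
  have hZsa : ∀ i, IsSelfAdjoint (Zop c wh ν i) := by
    intro i
    refine (hsa i).add ?_
    rw [IsSelfAdjoint, star_smul, (isSelfAdjoint_s _).star_eq]
    simp
  have hrep : ∀ i (w : FreeMonoid (Fin n)),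
      ChiStar.splitWord tau (Zop c wh ν) i w = ⟪ξ i, vecL (wordEval (Zop c wh ν) w)⟫_ℂ := by
    intro i w
    have a1 : ⟪e0 i, vec (wordEval (Zop c wh ν) w)⟫_ℂ =
        (ν i * Dv c wh ν [i] (FreeMonoid.toList w) : ℝ) := by
      have := vec_noise c wh ν [i] w
      rw [he0, inner_e_left]
      simpa using this
    have a2 : ⟪ζ i, vec (wordEval (Zop c wh ν) w)⟫_ℂ =
      tau (Yop c wh i * wordEval (Zop c wh ν) w) := inner_zeta c wh ν hν2 hν0 i (hs i).1 w
    have a3 : ⟪y i, vec (wordEval (Zop c wh ν) w)⟫_ℂ =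
      tau (Yop c wh i * wordEval (Zop c wh ν) w) := by
      rw [hy, ← tau_star_mul, (hsa i).star_eq]
    rw [splitWord_eq, vecL_apply, hξ, inner_smul_left, inner_add_left, inner_smul_left,
      inner_smul_left, inner_sub_left, a1, a2, a3, sub_self, mul_zero, add_zero,
      Complex.conj_ofReal, Complex.conj_ofReal, ← Complex.ofReal_mul, ← Complex.ofReal_mul]
    congr 1
    rw [← hν2 i]
    have := hν0 i
    field_simp
  have hnorm : ∀ i, ‖ξ i‖ ^ 2 ≤ 1 / vv i - 1 / (2 * vv i ^ 2) := by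
    intro i
    have b1 : ‖e0 i‖ = 1 := norm_e _
    have b2 : ⟪e0 i, y i⟫_ℂ = 0 := by
      rw [he0, inner_e_left]
      exact vec_Yop_noise c wh i i []
    have b3 : ⟪e0 i, ζ i⟫_ℂ = (((ν i)⁻¹ : ℝ) : ℂ) := by
      rw [he0, inner_e_left]
      have := TT_apply (k := k) (aa c wh ν hν2 i (hs i).1) [i]
      rw [aa_apply, cc, kapY_single c wh mm isSC_mm h0, h1] at this
      simpa using this
    have b4 : ⟪ζ i, y i⟫_ℂ = 0 := by
      rw [hζ, inner_TT]
      rw [tsum_congr (g := fun _ => (0 : ℂ)), tsum_zero]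
      intro v
      cases v with
      | nil => rw [aa_apply, cc, kapY_nil c wh mm isSC_mm, h0]; simp
      | cons j v =>
        have := vec_Yop_noise c wh i j v
        rw [hy, this, mul_zero]
    have b5 : ‖y i‖ ^ 2 = 1 := by
      have h2 := inner_self_eq_norm_sq_to_K (𝕜 := ℂ) (y i)
      have h3 : ⟪y i, y i⟫_ℂ = 1 := by
        rw [hy, ← tau_star_mul, (hsa i).star_eq]
        have := tau_Yword' c wh [i, i]
        rw [h1] at this
        simpa using this
      rw [h3] at h2
      have h4 : ((‖y i‖ ^ 2 : ℝ) : ℂ) = ((1 : ℝ) : ℂ) := by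
        rw [Complex.ofReal_pow, Complex.ofReal_one]
        exact h2.symm
      exact Complex.ofReal_injective h4
    have b6 : ‖ζ i‖ ^ 2 ≤ 1 := by
      rw [hζ, norm_TT, norm_aa]
      exact (hs i).2
    have b7 : ‖y i - ζ i‖ ^ 2 = ‖y i‖ ^ 2 + ‖ζ i‖ ^ 2 := by
      rw [@norm_sub_sq ℂ]
      have : RCLike.re ⟪y i, ζ i⟫_ℂ = 0 := by
        rw [← inner_conj_symm, b4]; simp
      rw [this]; ring
    have b8 : ‖(ν i : ℂ) • e0 i + (((1 / 2 : ℝ)) : ℂ) • (y i - ζ i)‖ ^ 2 ≤ vv i - 1 / 2 := by
      rw [@norm_add_sq ℂ, norm_smul, norm_smul, b1, inner_smul_left, inner_smul_right,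
        inner_sub_right, b2, b3, mul_pow, mul_pow, b7, b5]
      have e1 : RCLike.re ((starRingEnd ℂ) (ν i : ℂ) *
          ((((1 / 2 : ℝ)) : ℂ) * (0 - (((ν i)⁻¹ : ℝ) : ℂ)))) = -(1 / 2) := by
        rw [Complex.conj_ofReal, zero_sub, ← Complex.ofReal_neg, ← Complex.ofReal_mul,
          ← Complex.ofReal_mul]
        change ((ν i * (1 / 2 * -(ν i)⁻¹) : ℝ) : ℂ).re = _
        rw [Complex.ofReal_re]
        have := hν0 i
        field_simp
      rw [e1, Complex.norm_real, Complex.norm_real, Real.norm_eq_abs, Real.norm_eq_abs, sq_abs,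
        sq_abs, hν2]
      nlinarith
    rw [hξ, norm_smul, mul_pow, Complex.norm_real, Real.norm_eq_abs, sq_abs]
    have hv := hvv i
    calc (vv i)⁻¹ ^ 2 * ‖(ν i : ℂ) • e0 i + (((1 / 2 : ℝ)) : ℂ) • (y i - ζ i)‖ ^ 2
        ≤ (vv i)⁻¹ ^ 2 * (vv i - 1 / 2) := mul_le_mul_of_nonneg_left b8 (by positivity)
      _ = 1 / vv i - 1 / (2 * vv i ^ 2) := by field_simp
  refine (ChiStar.freeFisher_le tau vecL (fun a b => tau_star_mul a b) (Zop c wh ν) hZsa ξ
    hrep).trans ?_
  exact ENNReal.ofReal_le_ofReal (Finset.sum_le_sum fun i _ => hnorm i)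

end block

section cubic

open Crest.Agent.R089.Model

/-- coefficients of the hidden polynomials -/
noncomputable def c0 (r : ℕ) : Idx r → Bool → ℝ
  | Sum.inl _, b => if b then 0 else 1
  | Sum.inr _, _ => (Real.sqrt 2)⁻¹

/-- words of the hidden polynomials -/
noncomputable def w0 (r : ℕ) : Idx r → Bool → List (Fin (kk r))
  | Sum.inl h, _ => [eh r h]
  | Sum.inr (a, b, c), t => if t then [eh r (2, c), eh r (1, b), eh r (0, a)]
      else [eh r (0, a), eh r (1, b), eh r (2, c)]

noncomputable def cN (r : ℕ) (i : Fin (nn r)) : Bool → ℝ := c0 r ((ei r).symm i)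

noncomputable def wN (r : ℕ) (i : Fin (nn r)) : Bool → List (Fin (kk r)) := w0 r ((ei r).symm i)

theorem cN_nonneg (r : ℕ) (i : Fin (nn r)) (e : Bool) : 0 ≤ cN r i e := by
  unfold cN
  rcases (ei r).symm i with h | abc
  · simp only [c0]; split_ifs <;> norm_num
  · simp only [c0]; positivity

theorem Yop_eq (r : ℕ) (i : Fin (nn r)) :
    Yop (cN r) (wN r) i =
      polyEval (fun j => s (Sum.inl j : Fin (kk r) ⊕ Fin (nn r))) (QQ r i) := by
  unfold Yop cN wN QQ
  rcases (ei r).symm i with h | ⟨a, b, c⟩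
  · simp [c0, w0, Qi, sWord]
  · simp only [c0, w0, Qi, cubic, Fintype.sum_bool]
    rw [polyEval_smul, polyEval_add, polyEval_single, polyEval_single, one_smul, one_smul,
      wordEval_mul, wordEval_mul, wordEval_mul, wordEval_mul, wordEval_of, wordEval_of,
      wordEval_of, smul_add, add_comm]
    simp only [if_true, if_false, Bool.false_eq_true, List.map_cons, List.map_nil, sWord_cons,
      mul_assoc]
    have h1 : (sWord [] : Alg (Fin (kk r) ⊕ Fin (nn r))) = 1 := rfl
    rw [h1, mul_one, mul_one]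

theorem isSelfAdjoint_Yop (r : ℕ) (i : Fin (nn r)) :
    IsSelfAdjoint (Yop (cN r) (wN r) i : Alg (Fin (kk r) ⊕ Fin (nn r))) := by
  unfold Yop cN wN
  rcases (ei r).symm i with h | ⟨a, b, c⟩
  · simp [c0, w0, sWord, isSelfAdjoint_s]
  · simp only [c0, w0, Fintype.sum_bool]
    rw [IsSelfAdjoint, star_add, star_smul, star_smul, star_sWord, star_sWord, add_comm]
    simp only [if_true, if_false, Bool.false_eq_true, List.map_cons, List.map_nil,
      List.reverse_cons, List.reverse_nil, List.nil_append, List.cons_append,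
      Complex.star_def, Complex.conj_ofReal]

theorem mm_eq_mom {k n : ℕ} : (mm : List (Fin k ⊕ Fin n) → ℝ) = mom := by
  funext u
  have h := tau_sWord u
  rw [tau_eq_vec, vec_sWord_apply] at h
  exact_mod_cast h

theorem mH_mm {k n : ℕ} : mH (mm : List (Fin k ⊕ Fin n) → ℝ) = Fn.phiFn := by
  refine Fn.isSD_eq_phiFn ?_
  rw [mm_eq_mom]
  exact IsSD.comap isSD_mom Sum.inl Sum.inl_injective

theorem Yfn_eq (r : ℕ) (i : Fin (nn r)) :
    Fn.Yfn (eh r) ((ei r).symm i) = ∑ e, cN r i e • Fn.sWord (wN r i e) := by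
  unfold cN wN
  rcases (ei r).symm i with h | ⟨a, b, c⟩
  · simp [c0, w0, Fn.Yfn, Fn.sWord]
  · simp only [c0, w0, Fn.Yfn, Fintype.sum_bool]
    simp [Fn.sWord, mul_assoc, smul_add, add_comm]

theorem tau2_fn (r : ℕ) (x : List (Fin (kk r))) (U : List (Fin (nn r))) :
    tau2 Fn.phiFn (cN r) (wN r) x U =
      (Fn.sWord x * ((U.map (ei r).symm).map (Fn.Yfn (eh r))).prod) Fn.del [] := by
  induction U generalizing x with
  | nil => rw [tau2_nil]; simp [Fn.phiFn]
  | cons i U ih =>
    rw [tau2_cons, List.map_cons, List.map_cons, List.prod_cons, ← mul_assoc, Yfn_eq,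
      Finset.mul_sum, Finset.sum_mul, LinearMap.sum_apply, Finset.sum_apply]
    refine Finset.sum_congr rfl fun e _ => ?_
    rw [ih, mul_smul_comm, smul_mul_assoc, ← Fn.sWord_append]
    rfl

theorem mY_eq (r : ℕ) (U : List (Fin (nn r))) :
    mY (cN r) (wN r) (mm (k := kk r) (n := nn r)) U = Fn.mY (eh r) (U.map (ei r).symm) := by
  rw [mY, mH_mm, tau2_fn, Fn.sWord_nil, one_mul]
  rfl

theorem mY_H4 (r : ℕ) (hr : 0 < r) (i : Fin (nn r)) (k : ℕ) :
    ∑ u : Fin k → Fin (nn r), mY (cN r) (wN r) (mm (k := kk r) (n := nn r))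
      (i :: List.ofFn u) ≤ 1 * Fn.GG r ^ k := by
  rw [one_mul]
  refine le_trans (le_of_eq ?_) (Fn.H4' (eh r) (eh r).injective hr ((ei r).symm i) k)
  rw [← (Equiv.arrowCongr (Equiv.refl (Fin k)) (ei r).symm).sum_comp]
  refine Finset.sum_congr rfl fun u _ => ?_
  rw [mY_eq, List.map_cons, List.map_ofFn]
  rfl

theorem fisher_large_reduced (r : ℕ) (hr : 0 < r) (vv : Fin (nn r) → ℝ) (t : ℝ)
    (ht : 4056 * Real.sqrt r ^ 3 ≤ t) (hv : ∀ j, t ≤ vv j) :
    freeFisher tau (Zop (cN r) (wN r) fun j => Real.sqrt (vv j)) ≤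
      ENNReal.ofReal (∑ i, (1 / vv i - 1 / (2 * vv i ^ 2))) := by
  have hs := Fn.one_le_sqrt hr
  have ht0 : 0 < t := lt_of_lt_of_le (by positivity) ht
  have hG := Fn.GG_pos hr
  refine fisher_block (cN r) (wN r) _ (isSelfAdjoint_Yop r) vv (fun j => ht0.trans_le (hv j))
    (fun _ => rfl) (fun j => ?_) (fun j => ?_) (fun i => ?_)
  · rw [mY_eq]
    exact Fn.hcent _ _
  · rw [mY_eq]
    exact Fn.mY_pair _ (eh r).injective _
  · refine xi_summable (cN r) (wN r) mm isSC_mm (cN_nonneg r) (fun j => ?_) (t := t)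
      (Lc := 12) (C := 1) (G := Fn.GG r) ht0 hv (by norm_num) (by norm_num) hG.le (fun u => ?_)
      (fun i k => mY_H4 r hr i k) ?_ i
    · rw [mY_eq]
      exact Fn.hcent _ _
    · rw [mY_eq]
      have := Fn.H1 (eh r) (u.map (ei r).symm)
      rw [List.length_map] at this
      exact (le_abs_self _).trans this
    · unfold Fn.GG
      linarith

/-- **(T5) large-noise Fisher bound.** -/
theorem fisher_le_large : ∃ K0 : ℝ, 0 ≤ K0 ∧ ∀ (r : ℕ) (_ : 0 < r) (d : ℝ) (_ : 0 < d)
    (A : Type) (_ : CStarAlgebra A)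
    (τ : A →ₗ[ℂ] ℂ) (s : Jx r → A) (φ : List (Jx r) → ℝ) (_ : IsModel τ s φ)
    (t : ℝ) (_ : K0 * (r : ℝ) ^ (3 / 2 : ℝ) < t),
    freeFisher τ (heatTuple (XX r d s) (SS r s) t) ≤
      ENNReal.ofReal (∑ i, (1 / (delt r d i + t) - 1 / (2 * (delt r d i + t) ^ 2))) := by
  refine ⟨4056, by norm_num, ?_⟩
  intro r hr d hd A _ τ sA φ hmod t ht
  have hr32 : (r : ℝ) ^ (3 / 2 : ℝ) = Real.sqrt r ^ 3 := by
    rw [Real.sqrt_eq_rpow, ← Real.rpow_natCast, ← Real.rpow_mul (Nat.cast_nonneg r)]
    norm_num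
  rw [hr32] at ht
  have hs := Fn.one_le_sqrt hr
  have ht0 : 0 < t := lt_of_le_of_lt (by positivity) ht
  have hdelt : ∀ i, 0 < delt r d i := by
    intro i
    unfold delt
    split
    · exact hd
    · norm_num
  -- reindexing of the letters
  let f : Fin (kk r) ⊕ Fin (nn r) ⊕ Fin (nn r) → Jx r :=
    Sum.elim (fun j => Sum.inl (Sum.inl j)) (Sum.elim (fun j => Sum.inl (Sum.inr j))
      (fun j => Sum.inr j))
  have hf : Function.Injective f := by
    rintro (a | a | a) (b | b | b) hab <;> simp [f] at hab ⊢ <;> exact hab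
  have hτ : ∀ w : List (Fin (kk r) ⊕ Fin (nn r) ⊕ Fin (nn r)),
      τ ((w.map (Sum.elim (fun j => sA (Sum.inl (Sum.inl j)))
        (Sum.elim (fun j => sA (Sum.inl (Sum.inr j))) (SS r sA)))).prod) =
        ((φ (w.map f) : ℝ) : ℂ) := by
    intro w
    rw [← hmod.mom, List.map_map]
    congr 3
    funext x
    rcases x with x | x | x <;> rfl
  have hred := freeFisher_heatTuple (k := kk r) (n := nn r) τ
    (fun j => sA (Sum.inl (Sum.inl j))) (fun j => sA (Sum.inl (Sum.inr j))) (SS r sA)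
    (IsSD.comap hmod.sd f hf) hτ (QQ r) (delt r d) hdelt t ht0.le
    (tau : Alg (Fin (kk r) ⊕ Fin (nn r)) →ₗ[ℂ] ℂ)
    (fun j => Fock.s (Sum.inl j)) (fun j => Fock.s (Sum.inr j)) isSD_mom (fun w => by
      rw [← tau_sWord]
      congr 3
      funext x
      rcases x with x | x <;> rfl)
  have hZ : (fun i => polyEval (fun j => (Fock.s (Sum.inl j) : Alg (Fin (kk r) ⊕ Fin (nn r))))
      (QQ r i) + (Real.sqrt (delt r d i + t) : ℂ) • Fock.s (Sum.inr i)) =
      Zop (cN r) (wN r) fun j => Real.sqrt (delt r d j + t) := by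
    funext i
    rw [Zop, Yop_eq]
  rw [hZ] at hred
  have hmain := fisher_large_reduced r hr (fun i => delt r d i + t) t ht.le
    (fun j => by have := (hdelt j).le; linarith)
  exact (le_of_eq hred).trans hmain

end cubic

end Crest.Agent.R089.FL
private theorem rz_839063180b : type_of% @_root_.Crest.Agent.R089.FL.c0.eq_1 := @_root_.Crest.Agent.R089.FL.c0.eq_1 -- L417
private theorem rz_9c29459dc9 : type_of% @_root_.Crest.Agent.R089.FL.w0.eq_1 := @_root_.Crest.Agent.R089.FL.w0.eq_1 -- L422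
end

-- ▼ part R089/Numeric
section

/-!
Row 89: the final numerical choice of `r` (number of letters per colour).  With
`δ' = r⁻³`, `s0 = K0 r^{3/2}` the gap between the `χ*` lower bound and the `χ` upper bound tends
to `∞`.  We take `r = m ^ 4`, so that `r ^ {3/2} = m ^ 6`.
-/

set_option autoImplicit false

namespace Crest.Agent.R089.Numeric

open Real

/-- The explicit upper bound of `χ` (closed form). -/
noncomputable def upper (r : ℕ) : ℝ :=
  3 * r * (1 / 2 * log (2 * π * exp 1 * (1 + 1 / (r : ℝ) ^ 3))) +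
    (r : ℝ) ^ 3 * (1 / 2 * log (2 * π * exp 1 * (1 / 2 + ((1 + 1 / (r : ℝ) ^ 3) ^ 3 - 1))))

/-- The explicit lower bound of `χ*` (closed form), with threshold `s0`. -/
noncomputable def lower (r : ℕ) (s0 : ℝ) : ℝ :=
  3 * r * (1 / 2 * log (2 * π * exp 1 * (1 / (r : ℝ) ^ 3)) +
      1 / 4 * (1 / (1 / (r : ℝ) ^ 3 + s0))) +
    (r : ℝ) ^ 3 * (1 / 2 * log (2 * π * exp 1 * (1 / 2)) + 1 / 4 * (1 / (1 / 2 + s0)))

lemma gap_aux (x c : ℝ) (hx : 1 ≤ x) (hcx : 28 ≤ c * x) :
    1 / 2 ≤ c * x ^ 6 - 3 / 2 * x ^ 4 * (1 + 12 * x) - 7 := by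
  have h5 : 1 ≤ x ^ 5 := one_le_pow₀ hx
  have h4 : x ^ 4 ≤ x ^ 5 := pow_le_pow_right₀ hx (by norm_num)
  have h1 : 28 * x ^ 5 ≤ c * x ^ 6 := by
    have := mul_le_mul_of_nonneg_right hcx (by positivity : (0 : ℝ) ≤ x ^ 5)
    calc 28 * x ^ 5 ≤ c * x * x ^ 5 := this
      _ = c * x ^ 6 := by ring
  have h2 : 3 / 2 * x ^ 4 * (1 + 12 * x) = 3 / 2 * x ^ 4 + 18 * x ^ 5 := by ring
  rw [h2]
  nlinarith

theorem gap (K0 : ℝ) (hK0 : 0 ≤ K0) (m : ℕ) (hm : 112 * (1 + K0) ≤ m) :
    upper (m ^ 4) + 1 / 2 ≤ lower (m ^ 4) (K0 * (m : ℝ) ^ 6) := by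
  set x : ℝ := (m : ℝ) with hxdef
  have hx : 1 ≤ x := by nlinarith
  have hx0 : 0 < x := by linarith
  have hr : ((m ^ 4 : ℕ) : ℝ) = x ^ 4 := by push_cast; rfl
  have hd : 1 / ((m ^ 4 : ℕ) : ℝ) ^ 3 = 1 / x ^ 12 := by rw [hr, ← pow_mul]
  unfold upper lower
  rw [hd, hr]
  set δ : ℝ := 1 / x ^ 12 with hδ
  have hx12 : 1 ≤ x ^ 12 := one_le_pow₀ hx
  have hδ0 : 0 < δ := by positivity
  have hδ1 : δ ≤ 1 := by
    rw [hδ, div_le_one (by positivity)]; exact hx12
  set L : ℝ := log (2 * π * exp 1) with hL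
  have hpe : (2 * π * exp 1) ≠ 0 := by positivity
  have e1 : log (2 * π * exp 1 * (1 + δ)) = L + log (1 + δ) := by
    rw [log_mul hpe (by positivity)]
  have hb : 0 < 1 / 2 + ((1 + δ) ^ 3 - 1) := by nlinarith [pow_pos hδ0 3, pow_pos hδ0 2]
  have e2 : log (2 * π * exp 1 * (1 / 2 + ((1 + δ) ^ 3 - 1))) =
      L + log (1 / 2 + ((1 + δ) ^ 3 - 1)) := by
    rw [log_mul hpe hb.ne']
  have e3 : log (2 * π * exp 1 * δ) = L + log δ := by rw [log_mul hpe hδ0.ne']
  have e4 : log (2 * π * exp 1 * (1 / 2)) = L + log (1 / 2) := by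
    rw [log_mul hpe (by norm_num)]
  rw [e1, e2, e3, e4]
  -- letters
  have hlet : log (1 + δ) - log δ ≤ 1 + 12 * x := by
    rw [← log_div (by positivity) hδ0.ne']
    have h1 : (1 + δ) / δ = x ^ 12 + 1 := by
      rw [hδ]; field_simp
    rw [h1]
    have h2 : log (x ^ 12 + 1) ≤ log (2 * x ^ 12) := log_le_log (by positivity) (by linarith)
    have h3 : log (2 * x ^ 12) = log 2 + 12 * log x := by
      rw [log_mul (by norm_num) (by positivity), log_pow]; norm_num
    have h4 : log 2 ≤ 1 := by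
      have := log_le_sub_one_of_pos (show (0 : ℝ) < 2 by norm_num); linarith
    have h5 : log x ≤ x := by
      have := log_le_sub_one_of_pos hx0; linarith
    linarith
  -- words
  have hword : (x ^ 4) ^ 3 * (log (1 / 2 + ((1 + δ) ^ 3 - 1)) - log (1 / 2)) ≤ 14 := by
    rw [← log_div hb.ne' (by norm_num)]
    have h1 : (1 / 2 + ((1 + δ) ^ 3 - 1)) / (1 / 2) = 1 + 2 * ((1 + δ) ^ 3 - 1) := by ring
    rw [h1]
    have h2 : 0 < 1 + 2 * ((1 + δ) ^ 3 - 1) := by linarith
    have h3 : log (1 + 2 * ((1 + δ) ^ 3 - 1)) ≤ 2 * ((1 + δ) ^ 3 - 1) := by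
      have := log_le_sub_one_of_pos h2; linarith
    have h4 : (1 + δ) ^ 3 - 1 ≤ 7 * δ := by
      have : δ ^ 2 ≤ δ := by nlinarith
      have : δ ^ 3 ≤ δ := by nlinarith [pow_pos hδ0 2]
      nlinarith
    have h5 : (x ^ 4) ^ 3 * δ = 1 := by
      rw [hδ, ← pow_mul]; field_simp
    have h6 : (0 : ℝ) ≤ (x ^ 4) ^ 3 := by positivity
    calc (x ^ 4) ^ 3 * log (1 + 2 * ((1 + δ) ^ 3 - 1)) ≤ (x ^ 4) ^ 3 * (14 * δ) :=
          mul_le_mul_of_nonneg_left (by linarith) h6
      _ = 14 * ((x ^ 4) ^ 3 * δ) := by ring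
      _ = 14 := by rw [h5]; ring
  -- gain
  have hgain : x ^ 6 / (1 + K0) ≤ (x ^ 4) ^ 3 * (1 / (1 / 2 + K0 * x ^ 6)) := by
    have h6 : 1 ≤ x ^ 6 := one_le_pow₀ hx
    rw [div_le_iff₀ (by positivity), mul_one_div, div_mul_eq_mul_div,
      le_div_iff₀ (by positivity)]
    have : (x ^ 4) ^ 3 = x ^ 6 * x ^ 6 := by ring
    rw [this]
    have h7 : 1 / 2 + K0 * x ^ 6 ≤ x ^ 6 * (1 + K0) := by nlinarith
    calc x ^ 6 * (1 / 2 + K0 * x ^ 6) ≤ x ^ 6 * (x ^ 6 * (1 + K0)) :=
          mul_le_mul_of_nonneg_left h7 (by positivity)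
      _ = x ^ 6 * x ^ 6 * (1 + K0) := by ring
  have hgain0 : 0 ≤ 1 / (δ + K0 * x ^ 6) := by positivity
  have hc : 28 ≤ 1 / (4 * (1 + K0)) * x := by
    rw [div_mul_eq_mul_div, le_div_iff₀ (by positivity)]
    nlinarith
  have haux := gap_aux x (1 / (4 * (1 + K0))) hx hc
  have hg2 : 1 / (4 * (1 + K0)) * x ^ 6 = 1 / 4 * (x ^ 6 / (1 + K0)) := by
    field_simp
  rw [hg2] at haux
  have hlet2 : 3 / 2 * x ^ 4 * (log (1 + δ) - log δ) ≤ 3 / 2 * x ^ 4 * (1 + 12 * x) :=
    mul_le_mul_of_nonneg_left hlet (by positivity)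
  have hx4 : 0 ≤ 3 * x ^ 4 * (1 / 4 * (1 / (δ + K0 * x ^ 6))) := by positivity
  nlinarith

/-- The choice of `r`: there is an arbitrarily large `r = m ^ 4` with gap at least `1/2`, where
the threshold is `s0 = K0 * r ^ (3/2)`. -/
theorem exists_r (K0 : ℝ) (hK0 : 0 ≤ K0) (R0 : ℕ) :
    ∃ r : ℕ, R0 ≤ r ∧ 2 ≤ r ∧ upper r + 1 / 2 ≤ lower r (K0 * (r : ℝ) ^ (3 / 2 : ℝ)) := by
  obtain ⟨m, hm⟩ := exists_nat_ge (max (112 * (1 + K0)) R0)
  have h1 : 112 * (1 + K0) ≤ (m : ℝ) := (le_max_left _ _).trans hm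
  have h2 : (R0 : ℝ) ≤ m := (le_max_right _ _).trans hm
  have h2' : R0 ≤ m := by exact_mod_cast h2
  have hm112 : (112 : ℝ) ≤ m := by nlinarith
  have hm112' : 112 ≤ m := by exact_mod_cast hm112
  have hle : m ≤ m ^ 4 := Nat.le_self_pow (by norm_num) m
  refine ⟨m ^ 4, h2'.trans hle, by omega, ?_⟩
  have h3 : (((m ^ 4 : ℕ) : ℝ)) ^ (3 / 2 : ℝ) = (m : ℝ) ^ 6 := by
    push_cast
    rw [← Real.rpow_natCast (m : ℝ) 4, ← Real.rpow_mul (Nat.cast_nonneg m),
      ← Real.rpow_natCast (m : ℝ) 6]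
    norm_num
  rw [h3]
  exact gap K0 hK0 m h1

end Crest.Agent.R089.Numeric
end

-- ▼ part R089/Main

/-! Final assembly of S0118 (helper89). -/

set_option autoImplicit false

open Crest.OpAlg Crest.Agent.R089.Model

namespace Crest.Agent.R089.Main

theorem main :
    ∃ (A : Type) (_ : CStarAlgebra A) (τ : A →ₗ[ℂ] ℂ) (n : ℕ) (X S : Fin n → A),
      Crest.OpAlg.IsFaithfulTracialState τ ∧ 2 ≤ n ∧ (∀ i, IsSelfAdjoint (X i)) ∧
      Crest.OpAlg.IsStandardSemicircular τ S ∧ Crest.OpAlg.IsFreeFamily τ (Crest.OpAlg.withNoise X S) ∧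
      (∀ s : ℝ, 0 < s → Crest.OpAlg.freeFisher τ (Crest.OpAlg.heatTuple X S s) < ⊤) ∧
      MeasureTheory.IntegrableOn
        (fun s : ℝ => (n : ℝ) / (1 + s) - (Crest.OpAlg.freeFisher τ (Crest.OpAlg.heatTuple X S s)).toReal)
        (Set.Ioi 0) ∧
      ⊥ < Crest.OpAlg.chi τ X ∧ Crest.OpAlg.chi τ X ≤ ((Crest.OpAlg.chiStar τ X S - 1 / 2 : ℝ) : EReal) := by
  obtain ⟨K0, hK0, hlarge⟩ := FL.fisher_le_large
  obtain ⟨r, -, hr2, hnum⟩ := Numeric.exists_r K0 hK0 2
  obtain ⟨A, iA, τ, s, φ, hM, hF⟩ := exists_model_free (Fin (kk r) ⊕ Fin (nn r)) (nn r)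
  have hr0 : (0 : ℝ) < r := by positivity
  set d : ℝ := 1 / (r : ℝ) ^ 3 with hd
  have hd0 : 0 < d := by positivity
  have hδ : ∀ i, 0 < delt r d i := ModelLemmas.delt_pos r d hd0
  have hsa : ∀ i, IsSelfAdjoint (XX r d s i) := ModelLemmas.isSelfAdjoint_XX r d s hM.sa
  have hsc := Crest.Agent.R089.model_semicircular τ s φ hM
  have hfree : IsFreeFamily τ (withNoise (XX r d s) (SS r s)) := by
    refine hF (XX r d s) fun i => ?_
    unfold XX
    refine Subalgebra.add_mem _ ?_ (Subalgebra.smul_mem _ ?_ _)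
    · exact ModelLemmas.polyEval_mem _ _ _ fun j => Algebra.subset_adjoin ⟨Sum.inl j, rfl⟩
    · exact Algebra.subset_adjoin ⟨Sum.inr i, rfl⟩
  obtain ⟨hfin, hint, hlow⟩ := FreeBasics.chiStar_lower_of_free (τ := τ) hM.trace.1
    (X := XX r d s) (S := SS r s) hsc hfree (fun i => 1 + delt r d i) (delt r d)
    (fun i => by have := hδ i; positivity) hδ
    (ChiXX.second_moment r d hd0.le τ s φ hM)
    (fun t ht => Crest.Agent.R089.fisher_le r d hd0 τ s φ hM t ht)
    (K0 * (r : ℝ) ^ (3 / 2 : ℝ)) (by positivity)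
    (fun t ht => hlarge r (by omega) d hd0 A iA τ s φ hM t ht)
  refine ⟨A, iA, τ, nn r, XX r d s, SS r s, hM.trace, ?_, hsa, hsc, hfree, hfin, hint,
    ChiLower.bot_lt_chi r d hd0 τ s φ hM, ?_⟩
  · rw [ModelLemmas.card_idx]
    nlinarith
  · refine (ChiXX.chi_XX_le r d hd0 τ s φ hM).trans ?_
    rw [EReal.coe_le_coe_iff]
    have hsum := ModelLemmas.sum_delt r d fun x =>
      1 / 2 * Real.log (2 * Real.pi * Real.exp 1 * x) +
        1 / 4 * (1 / (x + K0 * (r : ℝ) ^ (3 / 2 : ℝ)))
    rw [hsum] at hlow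
    unfold Numeric.upper Numeric.lower at hnum
    linarith

end Crest.Agent.R089.Main
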